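import Mathlib
import Vale.Agent.N043.Defs
import Vale.Agent.N113.RatPrim

/-!
# Semi-decision procedures for translational tiling
-/

namespace Vale.Agent.N043U

open Vale.Agent.N043

section prim

variable {α β : Type} [Primcodable α] [Primcodable β]

theorem pex {l : α → List β} {p : α → β → Prop} (hl : Primrec l)
    (hp : PrimrecPred fun x : α × β => p x.1 x.2) : PrimrecPred fun a => ∃ b ∈ l a, p a b := by
  have h : PrimrecRel fun (b : β) (a : α) => p a b :=
    hp.comp (Primrec.pair Primrec.snd Primrec.fst)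
  exact PrimrecRel.comp h.exists_mem_list hl Primrec.id

theorem pall {l : α → List β} {p : α → β → Prop} (hl : Primrec l)
    (hp : PrimrecPred fun x : α × β => p x.1 x.2) : PrimrecPred fun a => ∀ b ∈ l a, p a b := by
  have h : PrimrecRel fun (b : β) (a : α) => p a b :=
    hp.comp (Primrec.pair Primrec.snd Primrec.fst)
  exact PrimrecRel.comp h.forall_mem_list hl Primrec.id

theorem pimp {p q : α → Prop} (hp : PrimrecPred p) (hq : PrimrecPred q) :
    PrimrecPred fun a => p a → q a :=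
  (hp.not.or hq).of_eq fun _ => imp_iff_not_or.symm

theorem peq {x y : α → β} (hx : Primrec x) (hy : Primrec y) : PrimrecPred fun a => x a = y a := by
  classical
  exact Primrec.eq.comp hx hy

theorem pmem {x : α → β} {l : α → List β} (hx : Primrec x) (hl : Primrec l) :
    PrimrecPred fun a => x a ∈ l a :=
  (pex (p := fun a b => b = x a) hl (peq Primrec.snd (hx.comp Primrec.fst))).of_eq fun a => by
    simp only [exists_eq_right]

theorem re_exists {p : α → β → Prop} (hp : PrimrecPred fun x : α × β => p x.1 x.2) :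
    REPred fun a => ∃ b, p a b := by
  classical
  have hq : PrimrecPred fun x : α × ℕ =>
      ∃ b ∈ (Encodable.decode x.2 : Option β).toList, p x.1 b :=
    pex (p := fun (x : α × ℕ) b => p x.1 b)
      (Primrec.optionToList.comp (Primrec.decode.comp Primrec.snd))
      (hp.comp (Primrec.pair (Primrec.fst.comp Primrec.fst) Primrec.snd))
  have h : Partrec fun a : α => Nat.rfind fun n =>
      Part.some (decide (∃ b ∈ (Encodable.decode n : Option β).toList, p a b)) :=
    Partrec.rfind hq.computablePred.decide.partrec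
  refine h.dom_re.of_eq fun a => ?_
  refine Nat.rfind_dom.trans ?_
  constructor
  · rintro ⟨n, hn, -⟩
    rw [Part.mem_some_iff, eq_comm, decide_eq_true_iff] at hn
    obtain ⟨b, -, hb⟩ := hn
    exact ⟨b, hb⟩
  · rintro ⟨b, hb⟩
    refine ⟨Encodable.encode b, ?_, fun _ => trivial⟩
    rw [Part.mem_some_iff, eq_comm, decide_eq_true_iff]
    exact ⟨b, by simp, hb⟩

/-- all sublists -/
def subs (l : List β) : List (List β) :=
  l.foldr (fun b s => s ++ s.map fun t => b :: t) [[]]

theorem subs_prim : Primrec (subs : List β → List (List β)) := by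
  have h : Primrec₂ fun (_ : List β) (x : β × List (List β)) =>
      x.2 ++ x.2.map fun t => x.1 :: t :=
    Primrec.list_append.comp (Primrec.snd.comp Primrec.snd)
      (Primrec.list_map (Primrec.snd.comp Primrec.snd)
        (Primrec.list_cons.comp (Primrec.fst.comp (Primrec.snd.comp Primrec.fst)) Primrec.snd).to₂)
  exact Primrec.list_foldr Primrec.id (Primrec.const [[]]) h

omit [Primcodable β] in
theorem exists_subs (q : β → Prop) (l : List β) : ∃ s ∈ subs l, ∀ x, x ∈ s ↔ x ∈ l ∧ q x := by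
  induction l with
  | nil => exact ⟨[], by simp [subs], fun x => by simp⟩
  | cons b l ih =>
    obtain ⟨s, hs, h⟩ := ih
    have e : subs (b :: l) = subs l ++ (subs l).map fun t => b :: t := rfl
    by_cases hb : q b
    · refine ⟨b :: s, ?_, fun x => ?_⟩
      · rw [e]
        exact List.mem_append_right _ (List.mem_map.2 ⟨s, hs, rfl⟩)
      · rw [List.mem_cons, List.mem_cons, h]
        constructor
        · rintro (rfl | ⟨h1, h2⟩)
          · exact ⟨Or.inl rfl, hb⟩
          · exact ⟨Or.inr h1, h2⟩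
        · rintro ⟨rfl | h1, h2⟩
          · exact Or.inl rfl
          · exact Or.inr ⟨h1, h2⟩
    · refine ⟨s, ?_, fun x => ?_⟩
      · rw [e]
        exact List.mem_append_left _ hs
      · rw [List.mem_cons, h]
        constructor
        · rintro ⟨h1, h2⟩
          exact ⟨Or.inr h1, h2⟩
        · rintro ⟨rfl | h1, h2⟩
          · exact absurd h2 hb
          · exact ⟨h1, h2⟩

end prim

variable {d : ℕ}

theorem vsub_prim : Primrec₂ fun x y : Fin d → ℤ => x - y := by
  have h : Primrec₂ fun (x : (Fin d → ℤ) × (Fin d → ℤ)) (i : Fin d) => x.1 i - x.2 i :=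
    N113.RatPrim.int_sub.comp
      (Primrec.fin_app.comp (Primrec.fst.comp Primrec.fst) Primrec.snd)
      (Primrec.fin_app.comp (Primrec.snd.comp Primrec.fst) Primrec.snd)
  exact Primrec.fin_curry.2 h

/-- the point `k` is covered exactly once -/
def One (In : (Fin d → ℤ) → Prop) (F : List (Fin d → ℤ)) (k : Fin d → ℤ) : Prop :=
  (∃ f ∈ F, In (k - f)) ∧ ∀ f ∈ F, ∀ f' ∈ F, In (k - f) → In (k - f') → f = f'

theorem one_prim {α : Type} [Primcodable α] {In : α → (Fin d → ℤ) → Prop}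
    {F : α → List (Fin d → ℤ)} {k : α → Fin d → ℤ}
    (hIn : PrimrecPred fun x : α × (Fin d → ℤ) => In x.1 x.2) (hF : Primrec F) (hk : Primrec k) :
    PrimrecPred fun a => One (In a) (F a) (k a) := by
  have h1 : PrimrecPred fun x : α × (Fin d → ℤ) => In x.1 (k x.1 - x.2) :=
    hIn.comp (Primrec.pair Primrec.fst (vsub_prim.comp (hk.comp Primrec.fst) Primrec.snd))
  refine PrimrecPred.and (pex (p := fun a f => In a (k a - f)) hF h1) ?_
  refine pall (p := fun a f => ∀ f' ∈ F a, In a (k a - f) → In a (k a - f') → f = f') hF ?_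
  refine pall (p := fun (x : α × (Fin d → ℤ)) f' =>
    In x.1 (k x.1 - x.2) → In x.1 (k x.1 - f') → x.2 = f') (hF.comp Primrec.fst) ?_
  exact pimp (h1.comp Primrec.fst) (pimp
    (h1.comp (Primrec.pair (Primrec.fst.comp Primrec.fst) Primrec.snd))
    (peq (Primrec.snd.comp Primrec.fst) Primrec.snd))

theorem one_congr {In In' : (Fin d → ℤ) → Prop} {F : List (Fin d → ℤ)} {k k' : Fin d → ℤ}
    (h : ∀ f ∈ F, In (k - f) ↔ In' (k' - f)) (h1 : One In F k) : One In' F k' := by
  obtain ⟨⟨f, hf, h2⟩, h3⟩ := h1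
  exact ⟨⟨f, hf, (h f hf).1 h2⟩, fun f hf f' hf' a b =>
    h3 f hf f' hf' ((h f hf).2 a) ((h f' hf').2 b)⟩

theorem compl_iff (A : Set (Fin d → ℤ)) (F : List (Fin d → ℤ)) :
    AddSubgroup.IsComplement A {x | x ∈ F} ↔ ∀ k, One (fun x => x ∈ A) F k := by
  rw [AddSubgroup.isComplement_iff_existsUnique_add_neg_mem]
  refine forall_congr' fun k => ?_
  simp only [← sub_eq_add_neg]
  constructor
  · rintro ⟨⟨f, hf⟩, h1, h2⟩
    refine ⟨⟨f, hf, h1⟩, fun g hg g' hg' a b => ?_⟩
    exact congrArg Subtype.val ((h2 ⟨g, hg⟩ a).trans (h2 ⟨g', hg'⟩ b).symm)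
  · rintro ⟨⟨f, hf, h1⟩, h2⟩
    exact ⟨⟨f, hf⟩, h1, fun g hg => Subtype.ext (h2 g.1 g.2 f hf hg h1)⟩

/-- the candidates for translation vectors -/
def cand (F K : List (Fin d → ℤ)) : List (Fin d → ℤ) := K.flatMap fun k => F.map fun f => k - f

theorem not_tiles_iff (F : List (Fin d → ℤ)) :
    (∃ K : List (Fin d → ℤ), ∀ S ∈ subs (cand F K), ¬ ∀ k ∈ K, One (fun x => x ∈ S) F k) ↔
      ¬ ∃ A : Set (Fin d → ℤ), AddSubgroup.IsComplement A {x | x ∈ F} := by
  classical
  constructor
  · rintro ⟨K, hK⟩ ⟨A, hA⟩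
    rw [compl_iff] at hA
    obtain ⟨S, hS, h⟩ := exists_subs (fun x => x ∈ A) (cand F K)
    refine hK S hS fun k hk => one_congr (fun f hf => ?_) (hA k)
    rw [h]
    exact ⟨fun a => ⟨List.mem_flatMap.2 ⟨k, hk, List.mem_map.2 ⟨f, hf, rfl⟩⟩, a⟩, fun a => a.2⟩
  · intro h
    by_contra hcon
    apply h
    have h1 : ∀ K : Finset (Fin d → ℤ), ∃ S : List (Fin d → ℤ),
        ∀ k ∈ K, One (fun x => x ∈ S) F k := by
      intro K
      by_contra h2
      exact hcon ⟨K.toList, fun S _ h3 => h2 ⟨S, fun k hk => h3 k (Finset.mem_toList.2 hk)⟩⟩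
    choose S hS using h1
    let U : Ultrafilter (Finset (Fin d → ℤ)) := Ultrafilter.of Filter.atTop
    refine ⟨{x | {K | x ∈ S K} ∈ U}, (compl_iff _ _).2 fun k => ?_⟩
    have h1 : ∀ᶠ K in (U : Filter (Finset (Fin d → ℤ))), ({k} : Finset (Fin d → ℤ)) ⊆ K :=
      Ultrafilter.of_le Filter.atTop (Filter.eventually_ge_atTop ({k} : Finset (Fin d → ℤ)))
    have h2 : ∀ᶠ K in (U : Filter (Finset (Fin d → ℤ))), ∀ f ∈ F.toFinset,
        (k - f ∈ S K ↔ {K | k - f ∈ S K} ∈ U) := by
      rw [Filter.eventually_all_finset]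
      intro f _
      by_cases hx : {K | k - f ∈ S K} ∈ U
      · exact Filter.mem_of_superset hx fun K hK => ⟨fun _ => hx, fun _ => hK⟩
      · have := Ultrafilter.compl_mem_iff_notMem.2 hx
        exact Filter.mem_of_superset this fun K hK => ⟨fun h => absurd h hK, fun h => absurd h hx⟩
    obtain ⟨K, hK1, hK2⟩ := (h1.and h2).exists
    exact one_congr (fun f hf => hK2 f (List.mem_toFinset.2 hf))
      (hS K k (hK1 (Finset.mem_singleton_self k)))

theorem re_not_tiles (d : ℕ) : REPred fun F : List (Fin d → ℤ) =>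
    ¬ ∃ A : Set (Fin d → ℤ), AddSubgroup.IsComplement A {x | x ∈ F} := by
  refine (re_exists (p := fun F K : List (Fin d → ℤ) =>
    ∀ S ∈ subs (cand F K), ¬ ∀ k ∈ K, One (fun x => x ∈ S) F k) ?_).of_eq not_tiles_iff
  have hc : Primrec fun x : List (Fin d → ℤ) × List (Fin d → ℤ) => cand x.1 x.2 :=
    Primrec.list_flatMap Primrec.snd
      (Primrec.list_map (Primrec.fst.comp Primrec.fst)
        (vsub_prim.comp (Primrec.snd.comp Primrec.fst) Primrec.snd).to₂).to₂
  refine pall (p := fun (x : List (Fin d → ℤ) × List (Fin d → ℤ)) (S : List (Fin d → ℤ)) =>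
    ¬ ∀ k ∈ x.2, One (fun y => y ∈ S) x.1 k) (subs_prim.comp hc) (PrimrecPred.not ?_)
  refine pall (p := fun (x : (List (Fin d → ℤ) × List (Fin d → ℤ)) × List (Fin d → ℤ)) k =>
    One (fun y => y ∈ x.2) x.1.1 k) (Primrec.snd.comp Primrec.fst) ?_
  exact one_prim (In := fun (x : ((List (Fin d → ℤ) × List (Fin d → ℤ)) × List (Fin d → ℤ)) ×
      (Fin d → ℤ)) y => y ∈ x.1.2)
    (pmem Primrec.snd (Primrec.snd.comp (Primrec.fst.comp Primrec.fst)))
    (Primrec.fst.comp (Primrec.fst.comp Primrec.fst)) Primrec.snd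

/-- congruence modulo `N` -/
def Cg (N : ℕ) (x y : Fin d → ℤ) : Prop := ∀ i, (N : ℤ) ∣ x i - y i

theorem cg_prim {α : Type} [Primcodable α] {N : α → ℕ} {x y : α → Fin d → ℤ} (hN : Primrec N)
    (hx : Primrec x) (hy : Primrec y) : PrimrecPred fun a => Cg (N a) (x a) (y a) := by
  have h : PrimrecPred fun a => ∀ i ∈ List.finRange d, N a ∣ (x a i - y a i).natAbs :=
    pall (p := fun a i => N a ∣ (x a i - y a i).natAbs) (Primrec.const _)
      (PrimrecRel.comp N113.RatPrim.nat_dvd (hN.comp Primrec.fst)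
        (N113.RatPrim.int_natAbs.comp (N113.RatPrim.int_sub.comp
          (Primrec.fin_app.comp (hx.comp Primrec.fst) Primrec.snd)
          (Primrec.fin_app.comp (hy.comp Primrec.fst) Primrec.snd))))
  refine h.of_eq fun a => ?_
  simp only [List.mem_finRange, forall_true_left, Cg, Int.natCast_dvd]

theorem Cg.trans {N : ℕ} {x y z : Fin d → ℤ} (h1 : Cg N x y) (h2 : Cg N y z) : Cg N x z := by
  intro i
  have := dvd_add (h1 i) (h2 i)
  rwa [sub_add_sub_cancel] at this

theorem Cg.symm {N : ℕ} {x y : Fin d → ℤ} (h1 : Cg N x y) : Cg N y x := fun i =>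
  dvd_sub_comm.1 (h1 i)

theorem Cg.sub {N : ℕ} {x y : Fin d → ℤ} (h1 : Cg N x y) (f : Fin d → ℤ) :
    Cg N (x - f) (y - f) := by
  intro i
  rw [Pi.sub_apply, Pi.sub_apply, sub_sub_sub_cancel_right]
  exact h1 i

/-- the unit vectors and their negatives -/
def units (d : ℕ) : List (Fin d → ℤ) :=
  (List.finRange d).flatMap fun i => [Pi.single i 1, Pi.single i (-1)]

theorem all_of_units {P : (Fin d → ℤ) → Prop} (h0 : P 0)
    (h : ∀ x, P x → ∀ e ∈ units d, P (x - e)) (x : Fin d → ℤ) : P x := by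
  classical
  have h1 : ∀ (i : Fin d) (n : ℤ) y, P y → P (y + Pi.single i n) := by
    intro i n
    induction n using Int.induction_on with
    | zero =>
      intro y hy
      rwa [Pi.single_zero, add_zero]
    | succ n ih =>
      intro y hy
      have := h _ (ih y hy) (Pi.single i (-1))
        (List.mem_flatMap.2 ⟨i, List.mem_finRange i, by simp⟩)
      rwa [Pi.single_neg, sub_neg_eq_add, add_assoc, ← Pi.single_add] at this
    | pred n ih =>
      intro y hy
      have := h _ (ih y hy) (Pi.single i 1)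
        (List.mem_flatMap.2 ⟨i, List.mem_finRange i, by simp⟩)
      rwa [add_sub_assoc, ← Pi.single_sub] at this
  have h2 : ∀ s : Finset (Fin d), P (∑ i ∈ s, Pi.single i (x i)) := by
    intro s
    induction s using Finset.induction_on with
    | empty => exact h0
    | insert i s hi ih =>
      rw [Finset.sum_insert hi, add_comm]
      exact h1 i _ _ ih
  have := h2 Finset.univ
  rwa [Finset.univ_sum_single] at this

/-- a finite certificate for a periodic tiling -/
def Cert (F : List (Fin d → ℤ)) (c : ℕ × List (Fin d → ℤ) × List (Fin d → ℤ)) : Prop :=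
  (¬ c.1 = 0 ∧ 0 ∈ c.2.2) ∧ (∀ k ∈ c.2.2, ∀ e ∈ units d, ∃ k' ∈ c.2.2, Cg c.1 (k - e) k') ∧
    ∀ k ∈ c.2.2, One (fun x => ∃ s ∈ c.2.1, Cg c.1 x s) F k

theorem per_tiles_iff (F : List (Fin d → ℤ)) : (∃ c, Cert F c) ↔
    ∃ A : Set (Fin d → ℤ), AddSubgroup.IsComplement A {x | x ∈ F} ∧ PeriodicZ A := by
  classical
  constructor
  · rintro ⟨⟨N, S, K⟩, ⟨hN, h0⟩, hcl, hone⟩
    simp only at hN h0 hcl hone
    have hK : ∀ x, ∃ k ∈ K, Cg N x k := by
      refine all_of_units ⟨0, h0, fun i => by simp⟩ ?_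
      rintro x ⟨k, hk, h1⟩ e he
      obtain ⟨k', hk', h2⟩ := hcl k hk e he
      exact ⟨k', hk', (h1.sub e).trans h2⟩
    have hin : ∀ x y, Cg N x y → (∃ s ∈ S, Cg N x s) → ∃ s ∈ S, Cg N y s := by
      rintro x y h ⟨s, hs, h1⟩
      exact ⟨s, hs, h.symm.trans h1⟩
    refine ⟨{x | ∃ s ∈ S, Cg N x s}, (compl_iff _ _).2 fun x => ?_, ?_⟩
    · obtain ⟨k, hk, h1⟩ := hK x
      refine one_congr (fun f _ => ?_) (hone k hk)
      exact ⟨hin _ _ (h1.symm.sub f), hin _ _ (h1.sub f)⟩
    · have : NeZero N := ⟨hN⟩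
      let φ : (Fin d → ℤ) →+ (Fin d → ZMod N) :=
        { toFun := fun x i => (x i : ZMod N)
          map_zero' := by
            ext i
            simp
          map_add' := by
            intro x y
            ext i
            simp }
      refine ⟨φ.ker, inferInstance, fun h hh => ?_⟩
      have hd : ∀ i, (N : ℤ) ∣ h i := fun i =>
        (ZMod.intCast_zmod_eq_zero_iff_dvd _ _).1 (congrFun hh i)
      ext x
      constructor
      · rintro ⟨y, hy, rfl⟩
        refine hin y _ (fun i => ?_) hy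
        change (N : ℤ) ∣ y i - (h i + y i)
        rw [sub_add_cancel_right]
        exact (dvd_neg).2 (hd i)
      · intro hx
        refine ⟨x - h, hin x _ (fun i => ?_) hx, add_sub_cancel _ _⟩
        rw [Pi.sub_apply, sub_sub_cancel]
        exact hd i
  · rintro ⟨A, hA, L, hL, hper⟩
    rw [compl_iff] at hA
    have hN : L.index ≠ 0 := hL.index_ne_zero
    have hN' : (0 : ℤ) < L.index := by exact_mod_cast Nat.pos_of_ne_zero hN
    have hcg : ∀ x y, Cg L.index x y → y ∈ A → x ∈ A := by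
      intro x y h hy
      choose w hw using h
      have h1 : x = L.index • w + y := by
        funext i
        rw [Pi.add_apply, Pi.smul_apply, nsmul_eq_mul, ← hw i, sub_add_cancel]
      rw [← hper _ (L.nsmul_index_mem w), h1]
      exact ⟨y, hy, rfl⟩
    let K : List (Fin d → ℤ) := (Finset.univ : Finset (Fin d → Fin L.index)).toList.map
      fun z i => ((z i : ℕ) : ℤ)
    have hmem : ∀ x : Fin d → ℤ, (fun i => x i % L.index) ∈ K := by
      intro x
      refine List.mem_map.2 ⟨fun i => ⟨(x i % L.index).toNat, ?_⟩,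
        Finset.mem_toList.2 (Finset.mem_univ _), funext fun i => ?_⟩
      · have h1 := Int.emod_lt_of_pos (x i) hN'
        have h2 := Int.emod_nonneg (x i) hN'.ne'
        omega
      · exact Int.toNat_of_nonneg (Int.emod_nonneg (x i) hN'.ne')
    have hrep : ∀ x : Fin d → ℤ, Cg L.index x fun i => x i % L.index := fun x i =>
      Int.dvd_self_sub_emod
    refine ⟨(L.index, K.filter fun x => decide (x ∈ A), K), ⟨hN, ?_⟩, fun k _ e _ => ?_,
      fun k _ => one_congr (fun f _ => ⟨fun h => ?_, ?_⟩) (hA k)⟩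
    · have := hmem 0
      simp only [Pi.zero_apply, Int.zero_emod] at this
      exact this
    · exact ⟨_, hmem _, hrep _⟩
    · exact ⟨_, List.mem_filter.2 ⟨hmem _, decide_eq_true (hcg _ _ (hrep _).symm h)⟩, hrep _⟩
    · rintro ⟨s, hs, h⟩
      exact hcg _ _ h (of_decide_eq_true (List.mem_filter.1 hs).2)

theorem re_per_tiles (d : ℕ) : REPred fun F : List (Fin d → ℤ) =>
    ∃ A : Set (Fin d → ℤ), AddSubgroup.IsComplement A {x | x ∈ F} ∧ PeriodicZ A := by
  refine (re_exists (p := fun (F : List (Fin d → ℤ)) c => Cert F c) ?_).of_eq per_tiles_iff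
  have hN : Primrec fun x : List (Fin d → ℤ) × ℕ × List (Fin d → ℤ) × List (Fin d → ℤ) =>
      x.2.1 := Primrec.fst.comp Primrec.snd
  have hS : Primrec fun x : List (Fin d → ℤ) × ℕ × List (Fin d → ℤ) × List (Fin d → ℤ) =>
      x.2.2.1 := Primrec.fst.comp (Primrec.snd.comp Primrec.snd)
  have hK : Primrec fun x : List (Fin d → ℤ) × ℕ × List (Fin d → ℤ) × List (Fin d → ℤ) =>
      x.2.2.2 := Primrec.snd.comp (Primrec.snd.comp Primrec.snd)
  refine PrimrecPred.and (PrimrecPred.and (peq hN (Primrec.const 0)).not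
    (pmem (Primrec.const 0) hK)) (PrimrecPred.and ?_ ?_)
  · refine pall (p := fun (x : List (Fin d → ℤ) × ℕ × List (Fin d → ℤ) × List (Fin d → ℤ)) k =>
      ∀ e ∈ units d, ∃ k' ∈ x.2.2.2, Cg x.2.1 (k - e) k') hK ?_
    refine pall (p := fun (x : (List (Fin d → ℤ) × ℕ × List (Fin d → ℤ) × List (Fin d → ℤ)) ×
      (Fin d → ℤ)) e => ∃ k' ∈ x.1.2.2.2, Cg x.1.2.1 (x.2 - e) k') (Primrec.const _) ?_
    refine pex (p := fun (x : ((List (Fin d → ℤ) × ℕ × List (Fin d → ℤ) × List (Fin d → ℤ)) ×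
      (Fin d → ℤ)) × (Fin d → ℤ)) k' => Cg x.1.1.2.1 (x.1.2 - x.2) k')
      (hK.comp (Primrec.fst.comp Primrec.fst)) ?_
    exact cg_prim (hN.comp (Primrec.fst.comp (Primrec.fst.comp Primrec.fst)))
      (vsub_prim.comp (Primrec.snd.comp (Primrec.fst.comp Primrec.fst))
        (Primrec.snd.comp Primrec.fst)) Primrec.snd
  · refine pall (p := fun (x : List (Fin d → ℤ) × ℕ × List (Fin d → ℤ) × List (Fin d → ℤ)) k =>
      One (fun y => ∃ s ∈ x.2.2.1, Cg x.2.1 y s) x.1 k) hK ?_
    refine one_prim (In := fun (x : (List (Fin d → ℤ) × ℕ × List (Fin d → ℤ) ×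
      List (Fin d → ℤ)) × (Fin d → ℤ)) y => ∃ s ∈ x.1.2.2.1, Cg x.1.2.1 y s) ?_
      (Primrec.fst.comp Primrec.fst) Primrec.snd
    refine pex (p := fun (x : ((List (Fin d → ℤ) × ℕ × List (Fin d → ℤ) × List (Fin d → ℤ)) ×
      (Fin d → ℤ)) × (Fin d → ℤ)) s => Cg x.1.1.2.1 x.2 s)
      (hS.comp (Primrec.fst.comp Primrec.fst)) ?_
    exact cg_prim (hN.comp (Primrec.fst.comp (Primrec.fst.comp Primrec.fst)))
      (Primrec.snd.comp Primrec.fst) Primrec.snd

theorem computable_of_ptc (d : ℕ)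
    (h : ∀ F : Finset (Fin d → ℤ), F.Nonempty →
      (∃ A : Set (Fin d → ℤ), AddSubgroup.IsComplement A (F : Set (Fin d → ℤ))) →
      ∃ A : Set (Fin d → ℤ), AddSubgroup.IsComplement A (F : Set (Fin d → ℤ)) ∧ PeriodicZ A) :
    ComputablePred fun F : List (Fin d → ℤ) =>
      ∃ A : Set (Fin d → ℤ), AddSubgroup.IsComplement A {x | x ∈ F} := by
  classical
  refine ComputablePred.computable_iff_re_compl_re'.2
    ⟨(re_per_tiles d).of_eq fun F => ⟨fun ⟨A, hA, _⟩ => ⟨A, hA⟩, fun ⟨A, hA⟩ => ?_⟩,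
      re_not_tiles d⟩
  have e : (F.toFinset : Set (Fin d → ℤ)) = {x | x ∈ F} := List.coe_toFinset F
  obtain ⟨⟨f, hf, -⟩, -⟩ := (compl_iff A F).1 hA 0
  have := h F.toFinset ⟨f, List.mem_toFinset.2 hf⟩ ⟨A, by rw [e]; exact hA⟩
  rwa [e] at this

end Vale.Agent.N043U
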