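import Mathlib

/-!
# A fixed set of tiles on the quadrant with a marked column
-/

namespace Vale.Agent.N043U

/-- tiles `S` with horizontal and vertical rules, left and bottom tiles and marked tiles -/
structure Quad where
  S : Type
  fin : Finite S
  H : S → S → Prop
  V : S → S → Prop
  L : S → Prop
  B : S → Prop
  M : S → Prop

/-- a tiling of the quadrant whose column `e` is marked -/
def Quad.Sol (q : Quad) (e : ℕ) : Prop :=
  ∃ T : ℕ → ℕ → q.S, ∀ j k, q.H (T j k) (T (j + 1) k) ∧ q.V (T j k) (T j (k + 1)) ∧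
    (q.L (T j k) ↔ j = 0) ∧ (q.B (T j k) ↔ k = 0) ∧ (j = e → q.M (T j k))

namespace QuadAux

open Turing

/-! ## Post-Turing machines on unary words -/

/-- The binary numeral with `n` digits one. -/
def ones : ℕ → Num
  | 0 => 0
  | n + 1 => (ones n).bit1

open PartrecToTM2 in
lemma trNum_ones (n : ℕ) : trNum (ones n) = List.replicate n Γ'.bit1 := by
  induction n with
  | zero => rfl
  | succ n ih =>
    rw [List.replicate_succ, ← ih, ones]
    cases ones n <;> rfl

lemma ones_val (n : ℕ) : (ones n : ℕ) + 1 = 2 ^ n := by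
  induction n with
  | zero => rfl
  | succ n ih =>
    rw [ones, Num.cast_bit1, pow_succ, ← ih]
    ring

/-- The four stacks of Mathlib's compiler form a finite type. -/
@[reducible] def fintypeK : Fintype PartrecToTM2.K' :=
  ⟨{.main, .rev, .aux, .stack}, fun k => by cases k <;> simp⟩

/-- `p` is the halting set on unary words of a finitely supported Post-Turing machine -/
def Unary (p : ℕ → Prop) : Prop :=
  ∃ (Γ Λ : Type) (_ : Inhabited Γ) (_ : Inhabited Λ) (_ : Finite Γ) (T : TM0.Machine Γ Λ)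
    (S : Finset Λ) (a b : Γ), TM0.Supports T (S : Set Λ) ∧
      ∀ n, (TM0.eval T (a :: List.replicate n b)).Dom ↔ p n

lemma unary_intro {p : ℕ → Prop} {Γ Λ : Type} [Inhabited Γ] [Inhabited Λ] [Finite Γ]
    {T : TM0.Machine Γ Λ} {S : Finset Λ} (hS : TM0.Supports T (S : Set Λ)) (a b : Γ)
    (h : ∀ n, (TM0.eval T (a :: List.replicate n b)).Dom ↔ p n) : Unary p :=
  ⟨Γ, Λ, _, _, inferInstance, T, S, a, b, hS, h⟩

open PartrecToTM2 in
theorem unary_of_code (c : ToPartrec.Code) : Unary fun n => (c.eval [2 ^ n - 1]).Dom := by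
  let _ : Inhabited Λ' := ⟨trNormal c Cont'.halt⟩
  let _ : Fintype K' := fintypeK
  have h2 : TM2.Supports tr (codeSupp c Cont'.halt) := tr_supports c Cont'.halt
  have h1 := TM2to1.tr_supports tr h2
  have h0 := TM1to0.tr_supports (TM2to1.tr tr) h1
  refine unary_intro h0 (true, Function.update (fun _ => none) K'.main (some Γ'.cons))
    (false, Function.update (fun _ => none) K'.main (some Γ'.bit1)) fun n => ?_
  have e1 : trList [2 ^ n - 1] = List.replicate n Γ'.bit1 ++ [Γ'.cons] := by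
    have : 2 ^ n - 1 = (ones n : ℕ) := by rw [← ones_val]; rfl
    rw [this]
    simp only [trList, trNat, Num.of_to_nat, trNum_ones]
  have e2 := TM2to1.tr_eval_dom tr K'.main (trList [2 ^ n - 1])
  have e3 : (TM2.eval tr K'.main (trList [2 ^ n - 1])).Dom ↔ (c.eval [2 ^ n - 1]).Dom := by
    have e4 : (TM2.init K'.main (trList [2 ^ n - 1]) : Cfg') = init c [2 ^ n - 1] := by
      simp only [TM2.init, init]
      congr 1
      funext k
      cases k <;> rfl
    have e5 : StateTransition.eval (TM2.step tr) (TM2.init K'.main (trList [2 ^ n - 1]) : Cfg')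
        = halt <$> c.eval [2 ^ n - 1] := by
      rw [e4]
      exact tr_eval c _
    exact iff_of_eq (congrArg Part.Dom e5)
  rw [TM1to0.tr_eval]
  refine Iff.trans (iff_of_eq (congrArg (fun l => (TM1.eval (TM2to1.tr tr) l).Dom) ?_))
    (e2.trans e3)
  rw [e1]
  simp only [TM2to1.trInit, List.reverse_append, List.reverse_replicate, List.reverse_cons,
    List.reverse_nil, List.nil_append, List.singleton_append]
  refine congrArg₂ List.cons rfl ?_
  have e6 : ∀ f : Γ' → TM2to1.Γ' K' fun _ => Γ',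
      List.replicate n (f Γ'.bit1) = (List.replicate n Γ'.bit1).map f := by
    intro f
    rw [List.map_replicate]
  exact e6 fun a => (false, Function.update (fun _ => none) K'.main (some a))

theorem unary_of_partrec {g : ℕ →. ℕ} (hg : Partrec g) : Unary fun n => (g n).Dom := by
  have hp : Primrec₂ fun N n : ℕ => decide (2 ^ n - 1 = N) := by
    have h2 : Primrec fun n : ℕ => 2 ^ n :=
      (Primrec₂.unpaired'.1 Nat.Primrec.pow).comp (Primrec.const 2) Primrec.id
    exact (Primrec.eq.comp (Primrec.nat_sub.comp (h2.comp Primrec.snd) (Primrec.const 1))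
      Primrec.fst).decide
  have hf : Partrec fun N : ℕ =>
      (Nat.rfind fun n => (Part.some (decide (2 ^ n - 1 = N)) : Part Bool)).bind g :=
    (Partrec.rfind hp.to_comp.partrec₂).bind (hg.comp Computable.snd).to₂
  obtain ⟨c, hc⟩ := ToPartrec.Code.exists_code (Nat.Partrec'.part_iff₁.2 hf)
  obtain ⟨Γ, Λ, i1, i2, i3, T, S, a, b, hS, hU⟩ := unary_of_code c
  refine ⟨Γ, Λ, i1, i2, i3, T, S, a, b, hS, fun n => (hU n).trans ?_⟩
  have h1 := hc ⟨[2 ^ n - 1], rfl⟩
  have h2 : (Nat.rfind fun m => (Part.some (decide (2 ^ m - 1 = 2 ^ n - 1)) : Part Bool))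
      = Part.some n := by
    refine Part.eq_some_iff.2 (Nat.mem_rfind.2 ⟨by simp, fun {m} hm => ?_⟩)
    have h3 : 2 ^ m < 2 ^ n := Nat.pow_lt_pow_right (by norm_num) hm
    have h4 : 0 < 2 ^ m := by positivity
    have h5 : ¬ 2 ^ m - 1 = 2 ^ n - 1 := by omega
    simp [h5]
  show (c.eval [2 ^ n - 1]).Dom ↔ (g n).Dom
  rw [h1]
  show ((Nat.rfind fun m => (Part.some (decide (2 ^ m - 1 = 2 ^ n - 1)) : Part Bool)).bind g).Dom
    ↔ _
  rw [h2]
  exact iff_of_eq (congrArg Part.Dom (Part.bind_some n g))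

theorem unary_of_re {p : ℕ → Prop} (hp : REPred p) : Unary p := by
  have hg : Partrec fun n : ℕ =>
      (Part.assert (p n) fun _ => Part.some ()).map fun _ => (0 : ℕ) :=
    Partrec.map hp (Computable.const 0).to₂
  obtain ⟨Γ, Λ, i1, i2, i3, T, S, a, b, hS, hU⟩ := unary_of_partrec hg
  refine ⟨Γ, Λ, i1, i2, i3, T, S, a, b, hS, fun n => (hU n).trans ?_⟩
  simp [Part.assert]

/-! ## The tiles of a machine -/

/-- state, scanned symbol, four cells of the tape, four flags -/
structure Tile (Γ Q : Type) where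
  q : Q
  h : Γ
  r0 : Γ
  r1 : Γ
  l0 : Γ
  l1 : Γ
  left : Prop
  bot : Prop
  mark : Prop
  bl : Prop

lemma finite_tile (Γ Q : Type) [Finite Γ] [Finite Q] : Finite (Tile Γ Q) := by
  refine Finite.of_injective (β := Q × Γ × Γ × Γ × Γ × Γ × Prop × Prop × Prop × Prop)
    (fun t => (t.q, t.h, t.r0, t.r1, t.l0, t.l1, t.left, t.bot, t.mark, t.bl)) ?_
  rintro ⟨_, _, _, _, _, _, _, _, _, _⟩ ⟨_, _, _, _, _, _, _, _, _, _⟩ h
  simp only [Prod.mk.injEq] at h
  obtain ⟨rfl, rfl, rfl, rfl, rfl, rfl, rfl, rfl, rfl, rfl⟩ := h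
  rfl

variable {Γ Λ : Type} [Inhabited Γ] [Inhabited Λ]

/-- the cells of the upper tile after a statement -/
def After {Q : Type} (t u : Tile Γ Q) : TM0.Stmt Γ → Prop
  | .move .left => u.r1 = t.r0 ∧ u.l0 = t.l1
  | .move .right => u.r0 = t.r1 ∧ u.l1 = t.l0
  | .write c => u.r1 = t.r1 ∧ u.l1 = t.l1 ∧ (t.left → u.r0 = c)

/-- the tiles of the machine `T` started on `a b b ... b` -/
def quad [Finite Γ] (T : TM0.Machine Γ Λ) (S : Finset Λ) (a b : Γ) : Quad where
  S := Tile Γ S
  fin := finite_tile _ _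
  H t u := u.q = t.q ∧ u.h = t.h ∧ u.r0 = t.r1 ∧ u.l0 = t.l1 ∧ (t.bl ↔ u.bl ∨ u.mark) ∧
    (t.mark → ¬ t.bl) ∧ (t.left → t.h = t.r0 ∧ t.l0 = t.r0) ∧
    (t.bot → t.q.1 = default ∧ (t.left → t.r0 = a) ∧ (t.bl → t.r1 = b) ∧
      (¬ t.bl → t.r1 = default) ∧ t.l1 = default)
  V t u := ∃ st, T t.q.1 t.h = some (u.q.1, st) ∧ After t u st
  L t := t.left
  B t := t.bot
  M t := t.mark

lemma init_nth_nat (l : List Γ) (n : ℕ) :
    (TM0.init l : TM0.Cfg Γ Λ).Tape.nth (n : ℤ) = l.getI n := by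
  simp only [TM0.init]
  rw [Tape.mk₁, Tape.mk₂]
  exact (Tape.mk'_nth_nat _ _ n).trans (ListBlank.nth_mk l n)

lemma init_nth_neg (l : List Γ) (n : ℕ) :
    (TM0.init l : TM0.Cfg Γ Λ).Tape.nth (-(n : ℤ) - 1) = default := by
  have : (-(n : ℤ) - 1) = Int.negSucc n := by omega
  rw [this]
  rfl

lemma getI_unary (a b : Γ) (e j : ℕ) :
    (a :: List.replicate e b).getI (j + 1) = if j < e then b else default := by
  rw [List.getI_cons_succ, List.getI_eq_getElem?_getD, List.getElem?_replicate]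
  split_ifs <;> rfl

lemma not_dom_iff (T : TM0.Machine Γ Λ) (l : List Γ) : ¬ (TM0.eval T l).Dom ↔
    ∃ c : ℕ → TM0.Cfg Γ Λ, c 0 = TM0.init l ∧ ∀ k, TM0.step T (c k) = some (c (k + 1)) := by
  have hd : (TM0.eval T l).Dom ↔
      ∃ b, StateTransition.Reaches (TM0.step T) (TM0.init l) b ∧ TM0.step T b = none := by
    show (StateTransition.eval (TM0.step T) (TM0.init l)).Dom ↔ _
    rw [Part.dom_iff_mem]
    exact exists_congr fun b => StateTransition.mem_eval
  rw [hd]
  constructor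
  · intro h
    push Not at h
    let c : ℕ → TM0.Cfg Γ Λ := fun k => (fun x => (TM0.step T x).getD x)^[k] (TM0.init l)
    have hs : ∀ k, c (k + 1) = (TM0.step T (c k)).getD (c k) := fun k =>
      Function.iterate_succ_apply' _ _ _
    have h1 : ∀ k, StateTransition.Reaches (TM0.step T) (TM0.init l) (c k) →
        TM0.step T (c k) = some (c (k + 1)) := by
      intro k hk
      obtain ⟨x, hx⟩ := Option.ne_none_iff_exists'.1 (h _ hk)
      rw [hs, hx]
      rfl
    have h2 : ∀ k, StateTransition.Reaches (TM0.step T) (TM0.init l) (c k) := by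
      intro k
      induction k with
      | zero => exact Relation.ReflTransGen.refl
      | succ k ih => exact Relation.ReflTransGen.tail ih (h1 k ih)
    exact ⟨c, rfl, fun k => h1 k (h2 k)⟩
  · rintro ⟨c, h0, hs⟩ ⟨x, h1, h2⟩
    have key : ∃ k, x = c k := by
      clear h2
      induction h1 with
      | refl => exact ⟨0, h0.symm⟩
      | tail _ hb ih =>
        obtain ⟨k, rfl⟩ := ih
        have hb' : TM0.step T (c k) = some _ := hb
        rw [hs] at hb'
        exact ⟨k + 1, (Option.some.inj hb').symm⟩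
    obtain ⟨k, rfl⟩ := key
    rw [hs] at h2
    cases h2

/-- a row of tiles shows the configuration `c` -/
def Shows {S : Finset Λ} (R : ℕ → Tile Γ S) (c : TM0.Cfg Γ Λ) : Prop :=
  (R 0).q.1 = c.q ∧ ∀ j : ℕ, (R j).r0 = c.Tape.nth j ∧ (R j).l1 = c.Tape.nth (-(j : ℤ) - 1)

theorem sol_of_run [Finite Γ] {T : TM0.Machine Γ Λ} {S : Finset Λ}
    (hS : TM0.Supports T (S : Set Λ)) (a b : Γ) (e : ℕ) (c : ℕ → TM0.Cfg Γ Λ)
    (h0 : c 0 = TM0.init (a :: List.replicate e b))
    (hs : ∀ k, TM0.step T (c k) = some (c (k + 1))) : (quad T S a b).Sol e := by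
  have hq : ∀ k, (c k).q ∈ S := by
    intro k
    induction k with
    | zero => rw [h0]; exact hS.1
    | succ k ih => exact TM0.step_supports T hS (hs k) ih
  refine ⟨fun j k => (⟨⟨(c k).q, hq k⟩, (c k).Tape.head, (c k).Tape.nth j,
    (c k).Tape.nth (j + 1), (c k).Tape.nth (-j), (c k).Tape.nth (-j - 1), j = 0, k = 0, j = e,
    j < e⟩ : Tile Γ S), fun j k => ⟨?_, ?_, Iff.rfl, Iff.rfl, fun h => h⟩⟩
  · refine ⟨rfl, rfl, ?_, ?_, ?_, ?_, ?_, ?_⟩
    · show (c k).Tape.nth ((j + 1 : ℕ) : ℤ) = (c k).Tape.nth ((j : ℤ) + 1)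
      rw [Nat.cast_succ]
    · show (c k).Tape.nth (-((j + 1 : ℕ) : ℤ)) = (c k).Tape.nth (-(j : ℤ) - 1)
      congr 1
      push_cast
      ring
    · show j < e ↔ j + 1 < e ∨ j + 1 = e
      omega
    · show j = e → ¬ j < e
      omega
    · rintro (rfl : j = 0)
      exact ⟨(Tape.nth_zero _).symm, rfl⟩
    · rintro (rfl : k = 0)
      have e1 : (c 0).Tape.nth ((j : ℤ) + 1) = if j < e then b else default := by
        rw [h0, ← getI_unary a b e j, ← init_nth_nat (Λ := Λ), Nat.cast_succ]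
      refine ⟨?_, ?_, ?_, ?_, ?_⟩
      · show (c 0).q = default
        rw [h0]
        rfl
      · rintro (rfl : j = 0)
        show (c 0).Tape.nth ((0 : ℕ) : ℤ) = a
        rw [h0, init_nth_nat]
        rfl
      · intro (h : j < e)
        exact e1.trans (if_pos h)
      · intro (h : ¬ j < e)
        exact e1.trans (if_neg h)
      · show (c 0).Tape.nth (-(j : ℤ) - 1) = default
        rw [h0, init_nth_neg]
  · obtain ⟨⟨q', st⟩, hT, hc⟩ := Option.map_eq_some_iff.1 (hs k)
    have hq' : (c (k + 1)).q = q' := by rw [← hc]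
    refine ⟨st, ?_, ?_⟩
    · show T (c k).q (c k).Tape.head = some ((c (k + 1)).q, st)
      rw [hq']
      exact hT
    · rcases st with (_ | _) | x
      · have ht : (c (k + 1)).Tape = (c k).Tape.move Dir.left := by rw [← hc]
        refine ⟨?_, ?_⟩
        · show (c (k + 1)).Tape.nth ((j : ℤ) + 1) = (c k).Tape.nth j
          rw [ht, Tape.move_left_nth, add_sub_cancel_right]
        · show (c (k + 1)).Tape.nth (-(j : ℤ)) = (c k).Tape.nth (-(j : ℤ) - 1)
          rw [ht, Tape.move_left_nth]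
      · have ht : (c (k + 1)).Tape = (c k).Tape.move Dir.right := by rw [← hc]
        refine ⟨?_, ?_⟩
        · show (c (k + 1)).Tape.nth (j : ℤ) = (c k).Tape.nth ((j : ℤ) + 1)
          rw [ht, Tape.move_right_nth]
        · show (c (k + 1)).Tape.nth (-(j : ℤ) - 1) = (c k).Tape.nth (-(j : ℤ))
          rw [ht, Tape.move_right_nth, sub_add_cancel]
      · have ht : (c (k + 1)).Tape = (c k).Tape.write x := by rw [← hc]
        refine ⟨?_, ?_, ?_⟩
        · show (c (k + 1)).Tape.nth ((j : ℤ) + 1) = (c k).Tape.nth ((j : ℤ) + 1)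
          rw [ht, Tape.write_nth, if_neg (by omega)]
        · show (c (k + 1)).Tape.nth (-(j : ℤ) - 1) = (c k).Tape.nth (-(j : ℤ) - 1)
          rw [ht, Tape.write_nth, if_neg (by omega)]
        · rintro (rfl : j = 0)
          show (c (k + 1)).Tape.nth ((0 : ℕ) : ℤ) = x
          rw [ht, Tape.write_nth, if_pos (by simp)]

theorem not_dom_of_sol [Finite Γ] {T : TM0.Machine Γ Λ} {S : Finset Λ} (a b : Γ) (e : ℕ)
    (h : (quad T S a b).Sol e) : ¬ (TM0.eval T (a :: List.replicate e b)).Dom := by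
  obtain ⟨R, hR⟩ := h
  change ℕ → ℕ → Tile Γ S at R
  have hq : ∀ k j, (R j k).q = (R 0 k).q ∧ (R j k).h = (R 0 k).h := by
    intro k j
    induction j with
    | zero => exact ⟨rfl, rfl⟩
    | succ j ih => exact ⟨(hR j k).1.1.trans ih.1, (hR j k).1.2.1.trans ih.2⟩
  have hr : ∀ k j, (R (j + 1) k).r0 = (R j k).r1 := fun k j => (hR j k).1.2.2.1
  have hl : ∀ k j, (R (j + 1) k).l0 = (R j k).l1 := fun k j => (hR j k).1.2.2.2.1
  have hleft : ∀ k, (R 0 k).left := fun k => (hR 0 k).2.2.1.2 rfl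
  have h00 : ∀ k, (R 0 k).h = (R 0 k).r0 ∧ (R 0 k).l0 = (R 0 k).r0 := fun k =>
    (hR 0 k).1.2.2.2.2.2.2.1 (hleft k)
  have hbl : ∀ j, (R j 0).bl ↔ (R (j + 1) 0).bl ∨ (R (j + 1) 0).mark := fun j =>
    (hR j 0).1.2.2.2.2.1
  have hme : (R e 0).mark := (hR e 0).2.2.2.2 rfl
  have hb1 : ∀ i, ¬ (R (e + i) 0).bl := by
    intro i
    induction i with
    | zero => exact (hR e 0).1.2.2.2.2.2.1 hme
    | succ i ih => exact fun h => ih ((hbl (e + i)).2 (Or.inl h))
  have hb2 : ∀ i j, j + i + 1 = e → (R j 0).bl := by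
    intro i
    induction i with
    | zero =>
      intro j hj
      refine (hbl j).2 (Or.inr ?_)
      have : j + 1 = e := hj
      rw [this]
      exact hme
    | succ i ih => exact fun j hj => (hbl j).2 (Or.inl (ih (j + 1) (by omega)))
  have hbot := fun j => (hR j 0).1.2.2.2.2.2.2.2 ((hR j 0).2.2.2.1.2 rfl)
  have s0 : Shows (fun j => R j 0) (TM0.init (a :: List.replicate e b)) := by
    refine ⟨(hbot 0).1, fun j => ⟨?_, ?_⟩⟩
    · rw [init_nth_nat]
      cases j with
      | zero => exact (hbot 0).2.1 (hleft 0)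
      | succ j =>
        rw [getI_unary]
        refine (hr 0 j).trans ?_
        split_ifs with hj
        · exact (hbot j).2.2.1 (hb2 (e - j - 1) j (by omega))
        · refine (hbot j).2.2.2.1 ?_
          have := hb1 (j - e)
          rwa [show e + (j - e) = j by omega] at this
    · rw [init_nth_neg]
      exact (hbot j).2.2.2.2
  have s1 : ∀ k c, Shows (fun j => R j k) c →
      ∃ c', TM0.step T c = some c' ∧ Shows (fun j => R j (k + 1)) c' := by
    intro k c hc
    have c0 : (R 0 k).h = c.Tape.head := by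
      rw [(h00 k).1, ← Tape.nth_zero]
      exact (hc.2 0).1
    have cr : ∀ j : ℕ, (R j k).r1 = c.Tape.nth ((j : ℤ) + 1) := fun j => by
      rw [← hr, ← Nat.cast_succ]
      exact (hc.2 (j + 1)).1
    have cl : ∀ j : ℕ, (R j k).l0 = c.Tape.nth (-(j : ℤ)) := by
      intro j
      cases j with
      | zero => exact (h00 k).2.trans (hc.2 0).1
      | succ j =>
        rw [hl]
        refine (hc.2 j).2.trans ?_
        congr 1
        push_cast
        ring
    obtain ⟨st, hT, -⟩ := (hR 0 k).2.1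
    have hA : ∀ j, After (R j k) (R j (k + 1)) st := by
      intro j
      obtain ⟨st', hT', hA⟩ := (hR j k).2.1
      rw [(hq k j).1, (hq k j).2, hT] at hT'
      obtain rfl : st = st' := (Prod.mk.inj (Option.some.inj hT')).2
      exact hA
    have hT1 : T c.q c.Tape.head = some ((R 0 (k + 1)).q.1, st) := by
      rw [← c0, ← hc.1]
      exact hT
    rcases st with (_ | _) | x
    · refine ⟨⟨(R 0 (k + 1)).q.1, c.Tape.move Dir.left⟩, ?_, rfl, fun j => ⟨?_, ?_⟩⟩
      · simp only [TM0.step, hT1, Option.map_some]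
      · show (R j (k + 1)).r0 = (c.Tape.move Dir.left).nth j
        rw [Tape.move_left_nth]
        cases j with
        | zero =>
          rw [← (h00 (k + 1)).2, (hA 0).2]
          exact (hc.2 0).2
        | succ j =>
          rw [hr, (hA j).1, Nat.cast_succ, add_sub_cancel_right]
          exact (hc.2 j).1
      · show (R j (k + 1)).l1 = (c.Tape.move Dir.left).nth (-(j : ℤ) - 1)
        rw [Tape.move_left_nth, ← hl, (hA (j + 1)).2]
        refine (hc.2 (j + 1)).2.trans ?_
        congr 1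
        push_cast
        ring
    · refine ⟨⟨(R 0 (k + 1)).q.1, c.Tape.move Dir.right⟩, ?_, rfl, fun j => ⟨?_, ?_⟩⟩
      · simp only [TM0.step, hT1, Option.map_some]
      · show (R j (k + 1)).r0 = (c.Tape.move Dir.right).nth j
        rw [Tape.move_right_nth, (hA j).1, cr]
      · show (R j (k + 1)).l1 = (c.Tape.move Dir.right).nth (-(j : ℤ) - 1)
        rw [Tape.move_right_nth, (hA j).2, cl, sub_add_cancel]
    · refine ⟨⟨(R 0 (k + 1)).q.1, c.Tape.write x⟩, ?_, rfl, fun j => ⟨?_, ?_⟩⟩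
      · simp only [TM0.step, hT1, Option.map_some]
      · show (R j (k + 1)).r0 = (c.Tape.write x).nth j
        rw [Tape.write_nth]
        cases j with
        | zero =>
          rw [if_pos (by simp)]
          exact (hA 0).2.2 (hleft k)
        | succ j =>
          rw [if_neg (by omega), hr, (hA j).1, cr, Nat.cast_succ]
      · show (R j (k + 1)).l1 = (c.Tape.write x).nth (-(j : ℤ) - 1)
        rw [Tape.write_nth, if_neg (by omega), (hA j).2.1]
        exact (hc.2 j).2
  rw [not_dom_iff]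
  choose nx hn1 hn2 using s1
  let c : ∀ k, {c : TM0.Cfg Γ Λ // Shows (fun j => R j k) c} := fun k =>
    Nat.rec ⟨_, s0⟩ (fun k x => ⟨nx k x.1 x.2, hn2 k x.1 x.2⟩) k
  exact ⟨fun k => (c k).1, rfl, fun k => hn1 k (c k).1 (c k).2⟩

end QuadAux

theorem exists_quad {p : ℕ → Prop} (hp : REPred p) : ∃ q : Quad, ∀ e, q.Sol e ↔ ¬ p e := by
  obtain ⟨Γ, Λ, i1, i2, i3, T, S, a, b, hS, hU⟩ := QuadAux.unary_of_re hp
  refine ⟨QuadAux.quad T S a b, fun e => ?_⟩
  rw [← hU]
  refine ⟨QuadAux.not_dom_of_sol a b e, fun h => ?_⟩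
  obtain ⟨c, h0, hs⟩ := (QuadAux.not_dom_iff T _).1 h
  exact QuadAux.sol_of_run hS a b e c h0 hs

end Vale.Agent.N043U
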