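import Vale.Agent.N043U.Robust
import Vale.Agent.N043U.Quad

/-!
# Decorations: the levels in base 8 and in base 27 carry a tiling of the quadrant
-/

namespace Vale.Agent.N043U

open Finset Filter

variable {r : ℕ} {Q : ℤ}

/-- the three digits show that two numbers have the same level -/
def Same (G K H : ZMod r) : Prop := H ≠ G ∧ H ≠ K ∧ G ≠ -K

theorem same_add {x y : ZMod r} (hx : x ≠ 0) (hy : y ≠ 0) (hxy : x + y ≠ 0) : Same x y (x + y) :=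
  ⟨fun h => hy (by linear_combination h), fun h => hx (by linear_combination h),
    fun h => hxy (by linear_combination h)⟩

theorem rho_ne {ρ : ℤ →+ ZMod r} (hl : ∃ l', l' * ρ 1 = 1) (n c : ℤ) (hc : IsUnit (c : ZMod r))
    (hn : (n : ZMod r) ≠ 0) : ρ (n * c) ≠ 0 := by
  obtain ⟨l', hl'⟩ := hl
  obtain ⟨c', hc'⟩ := hc.exists_right_inv
  intro h0
  have h1 : ρ (n * c) = (n * c : ℤ) * ρ 1 := by
    rw [← zsmul_eq_mul, ← map_zsmul, smul_eq_mul, mul_one]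
  rw [h1] at h0
  push_cast at h0
  apply hn
  linear_combination (c' * l') * h0 - n * (c * c') * hl' - n * hc'

theorem Good.one {δ : ℝ} {ρ : ℤ →+ ZMod r} (F : ℤ → ZMod r) {C c : ℤ}
    (h : Good Q δ ρ fun m => F (C + c * m)) (m0 M : ℤ) (hM : IsCoprime ((r : ℤ) * M) Q)
    (hu : ρ m0 ≠ 0) (z : ℤ → ℤ) (hz : ∀ t, z t = C + c * (m0 + r * M * t)) :
    Mo δ fun t => F (z t) = ρ m0 :=
  (h m0 _ hM).mono fun t ht => by
    rw [mul_assoc, rho_add_mul] at ht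
    rw [hz, mul_assoc]
    exact ht hu

theorem Good.two {δ : ℝ} {ρ : ℤ →+ ZMod r} (F : ℤ → ZMod r) {C c : ℤ}
    (h : Good Q δ ρ fun m => F (C + c * m)) (c1 c2 M1 M2 : ℤ) (hM : IsCoprime ((r : ℤ) * M2) Q)
    (hu : ρ c1 + ρ c2 ≠ 0) (z : ℤ → ℤ → ℤ)
    (hz : ∀ s t, z s t = C + c * (c1 + c2 + r * M1 * s + r * M2 * t)) :
    Sm δ fun s t => F (z s t) = ρ c1 + ρ c2 := by
  refine Sm.inner fun s => ?_
  have e : ρ (c1 + c2 + r * M1 * s) = ρ c1 + ρ c2 := by rw [mul_assoc, rho_add_mul, map_add]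
  rw [← e] at hu ⊢
  exact h.one F _ M2 hM hu (z s) (hz s)

/-- the point of level `j` in base 8 and of level `k` in base 27 -/
def pt (j k : ℕ) (s : ℤ) : ℤ := 8 ^ j * 27 ^ k * (1 + 216 * s)

theorem unit27 (k : ℕ) : IsUnit (((27 : ℤ) ^ k : ℤ) : ZMod 8) := by
  push_cast
  exact (IsUnit.of_mul_eq_one (3 : ZMod 8) (by decide)).pow k

theorem unit8 (k : ℕ) : IsUnit (((8 : ℤ) ^ k : ℤ) : ZMod 27) := by
  push_cast
  exact (IsUnit.of_mul_eq_one (17 : ZMod 27) (by decide)).pow k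

theorem adm (h6 : IsCoprime 6 Q) (i j : ℕ) (M : ℤ) (hM : M = 2 ^ i * 3 ^ j) : IsCoprime M Q := by
  have h2 : IsCoprime 2 Q := h6.of_isCoprime_of_dvd_left ⟨3, by norm_num⟩
  have h3 : IsCoprime 3 Q := h6.of_isCoprime_of_dvd_left ⟨2, by norm_num⟩
  rw [hM]
  exact h2.pow_left.mul_left h3.pow_left

theorem adm8 (h6 : IsCoprime 6 Q) (i j : ℕ) (M : ℤ) (hM : M = 8 ^ i * 27 ^ j) : IsCoprime M Q :=
  adm h6 (3 * i) (3 * j) M (by rw [hM, pow_mul, pow_mul]; norm_num)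

/-- the rules of the decorations -/
structure Dec (q : Quad) (G K H L X Ca Cb : ZMod 8) (G' K' H' L' Ca' : ZMod 27) (D D' : q.S) :
    Prop where
  same : Same G K H → Same G' K' H' → D' = D
  hor : Same G K L → Same G' K' H' → q.H D' D
  ver : Same G K H → Same G' K' L' → q.V D' D
  x1 : H = G → K ≠ G → K ≠ -G → X = G
  mark : Same G K X → Cb ≠ 0 → q.M D
  lft : q.L D ↔ Ca ≠ 0
  bot : q.B D ↔ Ca' ≠ 0

theorem patch (q : Quad) (e J : ℕ) (h6 : IsCoprime 6 Q) {G K H L X Ca Cb : ℤ → ZMod 8}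
    {G' K' H' L' Ca' Cb' : ℤ → ZMod 27} {D D' : ℤ → q.S} {Ok : ℤ → ℤ → Prop}
    (hT : Thin Q (1 / 10 ^ 8) Ok)
    (hD : ∀ a b, Ok a b → Dec q (G a) (K b) (H (a + b)) (L (a + 8 * b)) (X (a + 8 ^ e * b)) (Ca a)
      (Cb b) (G' a) (K' b) (H' (a + b)) (L' (a + 27 * b)) (Ca' a) (D a) (D' b))
    {ρ : ℤ →+ ZMod 8} {ρ' : ℤ →+ ZMod 27} (hρ : ∃ l, l * ρ 1 = 1) (hρ' : ∃ l, l * ρ' 1 = 1)
    {A B : ℤ} (h8 : Tower Q ρ G K H L Ca Cb J A B) (h27 : Tower Q ρ' G' K' H' L' Ca' Cb' J A B)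
    (he : e + 1 ≤ J) :
    ∃ T : ℕ → ℕ → q.S, ∀ j k, j + 1 ≤ J → k + 1 ≤ J →
      q.H (T j k) (T (j + 1) k) ∧ q.V (T j k) (T j (k + 1)) ∧
      (q.L (T j k) ↔ j = 0) ∧ (q.B (T j k) ↔ k = 0) ∧ (j = e → q.M (T j k)) := by
  classical
  have one : IsCoprime (1 : ℤ) Q := isCoprime_one_left
  have u8 : ∀ (n : ℤ) (k : ℕ), (n : ZMod 8) ≠ 0 → ρ (n * 27 ^ k) ≠ 0 := fun n k hn =>
    rho_ne hρ n _ (unit27 k) hn
  have u27 : ∀ (n : ℤ) (k : ℕ), (n : ZMod 27) ≠ 0 → ρ' (n * 8 ^ k) ≠ 0 := fun n k hn =>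
    rho_ne hρ' n _ (unit8 k) hn
  have n8 : ∀ k : ℕ, ρ (27 ^ k) ≠ 0 := fun k => by simpa using u8 1 k (by decide)
  have n27 : ∀ k : ℕ, ρ' (8 ^ k) ≠ 0 := fun k => by simpa using u27 1 k (by decide)
  have s8 : ∀ k : ℕ, ρ (27 ^ k) + ρ (27 ^ k) ≠ 0 := fun k => by
    rw [← map_add, ← two_mul]; exact u8 2 k (by decide)
  have s27 : ∀ k : ℕ, ρ' (8 ^ k) + ρ' (8 ^ k) ≠ 0 := fun k => by
    rw [← map_add, ← two_mul]; exact u27 2 k (by decide)
  have t8 : ∀ k : ℕ, ρ (27 ^ (k + 1)) + ρ (27 ^ k) ≠ 0 := fun k => by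
    rw [← map_add, show (27 : ℤ) ^ (k + 1) + 27 ^ k = 28 * 27 ^ k by ring]
    exact u8 28 k (by decide)
  have t27 : ∀ k : ℕ, ρ' (8 ^ (k + 1)) + ρ' (8 ^ k) ≠ 0 := fun k => by
    rw [← map_add, show (8 : ℤ) ^ (k + 1) + 8 ^ k = 9 * 8 ^ k by ring]
    exact u27 9 k (by decide)
  have a8 : ∀ k : ℕ, IsCoprime (((8 : ℕ) : ℤ) * 27 ^ (k + 1)) Q := fun k =>
    adm8 h6 1 (k + 1) _ (by push_cast; ring)
  have a27 : ∀ k : ℕ, IsCoprime (((27 : ℕ) : ℤ) * 8 ^ (k + 1)) Q := fun k =>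
    adm8 h6 (k + 1) 1 _ (by push_cast; ring)
  have lev8 : ∀ (F : ℤ → ZMod 8) (C : ℤ) (j k : ℕ),
      (Good Q (1 / 100) ρ fun m => F (C + ((8 : ℕ) : ℤ) ^ j * m)) →
      Mo (1 / 100) fun s => F (C + pt j k s) = ρ (27 ^ k) := fun F C j k h =>
    h.one F _ (27 ^ (k + 1)) (a8 k) (n8 k) _ fun t => by unfold pt; push_cast; ring
  have lev27 : ∀ (F : ℤ → ZMod 27) (C : ℤ) (j k : ℕ),
      (Good Q (1 / 100) ρ' fun m => F (C + ((27 : ℕ) : ℤ) ^ k * m)) →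
      Mo (1 / 100) fun s => F (C + pt j k s) = ρ' (8 ^ j) := fun F C j k h =>
    h.one F _ (8 ^ (j + 1)) (a27 j) (n27 j) _ fun t => by unfold pt; push_cast; ring
  -- two points
  have two : ∀ j k j' k', j ≤ J → k ≤ J → j' ≤ J → k' ≤ J → Sm (5 / 100) fun s t =>
      Ok (A + pt j k s) (B + pt j' k' t) ∧ G (A + pt j k s) = ρ (27 ^ k) ∧
      G' (A + pt j k s) = ρ' (8 ^ j) ∧ K (B + pt j' k' t) = ρ (27 ^ k') ∧
      K' (B + pt j' k' t) = ρ' (8 ^ j') := by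
    intro j k j' k' hj hk hj' hk'
    refine ((hT.use (fun s _ => A + pt j k s) (fun _ t => B + pt j' k' t) (8 ^ (j + 1) * 27 ^ (k + 1))
      0 0 (8 ^ (j' + 1) * 27 ^ (k' + 1)) (adm8 h6 (j + j' + 2) (k + k' + 2) _ (by ring))
      (fun s t => by unfold pt; ring) (fun s t => by unfold pt; ring)).and
      ((Sm.outer (lev8 G A j k (h8.g j hj))).and ((Sm.outer (lev27 G' A j k (h27.g k hk))).and
      ((Sm.inner fun _ => lev8 K B j' k' (h8.k j' hj')).and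
      (Sm.inner fun _ => lev27 K' B j' k' (h27.k k' hk')))))).le (by norm_num)
  have sum8 : ∀ j k k', j ≤ J → Sm (1 / 100) fun s t =>
      ρ (27 ^ k) + ρ (27 ^ k') ≠ 0 →
      H (A + pt j k s + (B + pt j k' t)) = ρ (27 ^ k) + ρ (27 ^ k') := by
    intro j k k' hj
    by_cases hu : ρ (27 ^ k) + ρ (27 ^ k') = 0
    · exact (Sm.all fun s t h => absurd hu h).le (by norm_num)
    · exact ((h8.h j hj).two H _ _ (27 ^ (k + 1)) (27 ^ (k' + 1)) (a8 k') hu _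
        fun s t => by unfold pt; push_cast; ring).mono fun s t h _ => h
  have sum27 : ∀ j j' k, k ≤ J → Sm (1 / 100) fun s t =>
      ρ' (8 ^ j) + ρ' (8 ^ j') ≠ 0 →
      H' (A + pt j k s + (B + pt j' k t)) = ρ' (8 ^ j) + ρ' (8 ^ j') := by
    intro j j' k hk
    by_cases hu : ρ' (8 ^ j) + ρ' (8 ^ j') = 0
    · exact (Sm.all fun s t h => absurd hu h).le (by norm_num)
    · exact ((h27.h k hk).two H' _ _ (8 ^ (j + 1)) (8 ^ (j' + 1)) (a27 j') hu _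
        fun s t => by unfold pt; push_cast; ring).mono fun s t h _ => h
  -- the tiles
  have hT0 : ∀ j k, ∃ τ : q.S, j ≤ J → k ≤ J → Mo (14 / 100) (fun s => D (A + pt j k s) = τ) ∧
      Mo (8 / 100) fun t => D' (B + pt j k t) = τ := by
    intro j k
    by_cases hjk : j ≤ J ∧ k ≤ J
    swap
    · exact ⟨D 0, fun h1 h2 => absurd ⟨h1, h2⟩ hjk⟩
    obtain ⟨hj, hk⟩ := hjk
    have h1 : Sm (7 / 100) fun s t => D' (B + pt j k t) = D (A + pt j k s) := by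
      refine ((((two j k j k hj hk hj hk).and (sum8 j k k hj)).and (sum27 j j k hk)).mono
        fun s t h => ?_).le (by norm_num)
      obtain ⟨⟨⟨a0, a1, a2, a3, a4⟩, a5⟩, a6⟩ := h
      refine (hD _ _ a0).same ?_ ?_
      · rw [a1, a3, a5 (s8 k)]; exact same_add (n8 k) (n8 k) (s8 k)
      · rw [a2, a4, a6 (s27 j)]; exact same_add (n27 j) (n27 j) (s27 j)
    obtain ⟨s0, hs0⟩ := h1.pick (η := 8 / 100) (by norm_num) (by norm_num)
    refine ⟨_, fun _ _ => ⟨?_, hs0⟩⟩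
    refine ((h1.markov (η := 1 / 2) (by norm_num)).mono fun s hs => ?_).le (by norm_num)
    obtain ⟨t, h2, h3⟩ := (hs.and hs0).ex (by norm_num)
    exact h2.symm.trans h3
  choose T hTa using hT0
  refine ⟨T, fun j k hj hk => ⟨?_, ?_, ?_, ?_, ?_⟩⟩
  · have hj0 : j ≤ J := by omega
    have hk0 : k ≤ J := by omega
    obtain ⟨s, t, ⟨⟨⟨⟨a0, a1, a2, a3, a4⟩, a5⟩, a6⟩, a7⟩, a8'⟩ :=
      (((((two (j + 1) k j k hj hk0 hj0 hk0).and (sum27 (j + 1) j k hk0)).and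
      ((h8.l j hj).two L _ _ (27 ^ (k + 1)) (27 ^ (k + 1)) (a8 k) (s8 k)
        (fun s t => A + pt (j + 1) k s + 8 * (B + pt j k t))
        fun s t => by unfold pt; push_cast; ring)).and
      (Sm.outer (hTa (j + 1) k hj hk0).1)).and (Sm.inner fun _ => (hTa j k hj0 hk0).2)).ex
      (by norm_num)
    rw [← a7, ← a8']
    refine (hD _ _ a0).hor ?_ ?_
    · rw [a1, a3, a6]; exact same_add (n8 k) (n8 k) (s8 k)
    · rw [a2, a4, a5 (t27 j)]; exact same_add (n27 _) (n27 j) (t27 j)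
  · have hj0 : j ≤ J := by omega
    have hk0 : k ≤ J := by omega
    obtain ⟨s, t, ⟨⟨⟨⟨a0, a1, a2, a3, a4⟩, a5⟩, a6⟩, a7⟩, a8'⟩ :=
      (((((two j (k + 1) j k hj0 hk hj0 hk0).and (sum8 j (k + 1) k hj0)).and
      ((h27.l k hk).two L' _ _ (8 ^ (j + 1)) (8 ^ (j + 1)) (a27 j) (s27 j)
        (fun s t => A + pt j (k + 1) s + 27 * (B + pt j k t))
        fun s t => by unfold pt; push_cast; ring)).and
      (Sm.outer (hTa j (k + 1) hj0 hk).1)).and (Sm.inner fun _ => (hTa j k hj0 hk0).2)).ex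
      (by norm_num)
    rw [← a7, ← a8']
    refine (hD _ _ a0).ver ?_ ?_
    · rw [a1, a3, a5 (t8 k)]; exact same_add (n8 _) (n8 k) (t8 k)
    · rw [a2, a4, a6]; exact same_add (n27 j) (n27 j) (s27 j)
  · have hj0 : j ≤ J := by omega
    have hk0 : k ≤ J := by omega
    obtain ⟨s, t, ⟨a0, a1⟩, a2⟩ := (((two j k j k hj0 hk0 hj0 hk0).and
      (h8.ca.outer (fun s => pt j k s) (8 ^ (j + 1) * 27 ^ (k + 1)) (adm8 h6 _ _ _ rfl)
        fun s => by unfold pt; ring)).and (Sm.outer (hTa j k hj0 hk0).1)).ex (by norm_num)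
    rw [← a2, (hD _ _ a0.1).lft, a1]
    rcases j with _ | j
    · have : pt 0 k s = 27 ^ k + ((8 : ℕ) : ℤ) * (27 ^ (k + 1) * s) := by unfold pt; push_cast; ring
      rw [this, rho_add_mul]
      exact iff_of_true (n8 k) rfl
    · have : pt (j + 1) k s = ((8 : ℕ) : ℤ) * pt j k s := by unfold pt; push_cast; ring
      rw [this, rho_mul]
      simp
  · have hj0 : j ≤ J := by omega
    have hk0 : k ≤ J := by omega
    obtain ⟨s, t, ⟨a0, a1⟩, a2⟩ := (((two j k j k hj0 hk0 hj0 hk0).and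
      (h27.ca.outer (fun s => pt j k s) (8 ^ (j + 1) * 27 ^ (k + 1)) (adm8 h6 _ _ _ rfl)
        fun s => by unfold pt; ring)).and (Sm.outer (hTa j k hj0 hk0).1)).ex (by norm_num)
    rw [← a2, (hD _ _ a0.1).bot, a1]
    rcases k with _ | k
    · have : pt j 0 s = 8 ^ j + ((27 : ℕ) : ℤ) * (8 ^ (j + 1) * s) := by unfold pt; push_cast; ring
      rw [this, rho_add_mul]
      exact iff_of_true (n27 j) rfl
    · have : pt j (k + 1) s = ((27 : ℕ) : ℤ) * pt j k s := by unfold pt; push_cast; ring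
      rw [this, rho_mul]
      simp
  · rintro rfl
    have hj0 : j ≤ J := by omega
    have hk0 : k ≤ J := by omega
    have c8 : IsCoprime (((8 : ℕ) : ℤ) * 1) Q := adm8 h6 1 0 _ (by norm_num)
    -- the line `X`
    have hX : ∀ m0 : ℤ, ρ m0 ≠ 0 →
        Mo (3 / 100) fun t => X (A + 8 ^ j * B + 8 ^ j * (m0 + 8 * t)) = ρ m0 := by
      intro m0 hm0
      obtain ⟨κ, hκ⟩ := fresh (r := 8) le_rfl {0, ρ m0, -ρ m0}
        (lt_of_le_of_lt Finset.card_le_three (by norm_num))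
      simp only [Finset.mem_insert, Finset.mem_singleton, not_or] at hκ
      obtain ⟨β, rfl⟩ : ∃ β, ρ β = κ := by
        obtain ⟨l, hl⟩ := hρ
        obtain ⟨x, hx⟩ := ZMod.intCast_surjective (κ * l)
        refine ⟨x, ?_⟩
        have : ρ x = x * ρ 1 := by rw [← zsmul_eq_mul, ← map_zsmul, smul_eq_mul, mul_one]
        rw [this, hx, mul_assoc, hl, mul_one]
      have h1 := (hT.use (fun s t => A + 8 ^ j * (m0 + 8 * t - 8 ^ (j + 1) * (β + 8 * s)))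
        (fun s _ => B + 8 ^ (j + 1) * (β + 8 * s)) (-8 ^ (2 * j + 2)) (8 ^ (j + 1)) (8 ^ (j + 2)) 0
        (by
          have e0 : (-8 ^ (2 * j + 2) * 0 - 8 ^ (j + 1) * 8 ^ (j + 2) : ℤ) =
            -(8 ^ (2 * j + 3) * 27 ^ 0) := by ring
          rw [e0]
          exact (adm8 h6 (2 * j + 3) 0 _ rfl).neg_left) (fun s t => by ring) (fun s t => by ring)).markov (η := 1 / 100) (by norm_num)
      obtain ⟨s, h2, h3⟩ := (h1.and ((h8.k (j + 1) hj).one K β 1 c8 hκ.1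
        (fun s => B + 8 ^ (j + 1) * (β + 8 * s)) fun s => by push_cast; ring)).ex (by norm_num)
      have e1 : ρ (m0 - 8 ^ (j + 1) * (β + 8 * s)) = ρ m0 := by
        rw [← rho_add_mul ρ m0 (-(8 ^ j * (β + 8 * s)))]
        congr 1
        push_cast
        ring
      have e2 : ρ (m0 - 8 ^ (j + 1) * (β + 8 * s) + 8 * (β + 8 * s)) = ρ m0 := by
        rw [← e1]
        exact rho_add_mul ρ _ _
      have h4 := (h8.g j hj0).one G _ 1 c8 (e1.symm ▸ hm0)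
        (fun t => A + 8 ^ j * (m0 + 8 * t - 8 ^ (j + 1) * (β + 8 * s))) fun t => by push_cast; ring
      have h5 := (h8.h j hj0).one H _ 1 c8 (e2.symm ▸ hm0)
        (fun t => A + 8 ^ j * (m0 + 8 * t - 8 ^ (j + 1) * (β + 8 * s)) +
          (B + 8 ^ (j + 1) * (β + 8 * s))) fun t => by push_cast; ring
      rw [e1] at h4
      rw [e2] at h5
      refine (((h2.and h4).and h5).mono fun t ht => ?_).le (by norm_num)
      obtain ⟨⟨b0, b1⟩, b2⟩ := ht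
      have h6' := (hD _ _ b0).x1 (b2.trans b1.symm) (by rw [h3, b1]; exact hκ.2.1)
        (by rw [h3, b1]; exact hκ.2.2)
      rw [b1] at h6'
      rw [← h6']
      congr 1
      ring
    have e3 : ∀ s, ρ (27 ^ k + 27 ^ k + 8 * (27 ^ (k + 1) * s)) = ρ (27 ^ k) + ρ (27 ^ k) := fun s =>
      (rho_add_mul ρ _ _).trans (map_add ρ _ _)
    obtain ⟨s, t, ⟨⟨⟨⟨a0, a1⟩, a2⟩, a3⟩, a4⟩, a5⟩ := ((((((hT.use (fun s _ => A + pt j k s)
      (fun _ t => B + (27 ^ k + 8 * t)) (8 ^ (j + 1) * 27 ^ (k + 1)) 0 0 8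
      (adm8 h6 (j + 2) (k + 1) _ (by ring)) (fun s t => by unfold pt; ring)
      (fun s t => by ring)).and (Sm.outer (lev8 G A j k (h8.g j hj0)))).and
      (Sm.inner fun _ => (h8.k 0 (Nat.zero_le J)).one K _ 1 c8 (n8 k)
        (fun t => B + (27 ^ k + 8 * t)) fun t => by push_cast; ring)).and
      (h8.cb.inner (fun _ t => 27 ^ k + 8 * t) 8 (adm8 h6 1 0 _ (by norm_num))
        fun s t => by ring)).and
      (Sm.inner fun s => hX (27 ^ k + 27 ^ k + 8 * (27 ^ (k + 1) * s))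
        (by rw [e3]; exact s8 k))).and (Sm.outer (hTa j k hj0 hk0).1)).ex (by norm_num)
    rw [← a5]
    refine (hD _ _ a0).mark ?_ ?_
    · have e4 : A + pt j k s + 8 ^ j * (B + (27 ^ k + 8 * t)) =
          A + 8 ^ j * B + 8 ^ j * (27 ^ k + 27 ^ k + 8 * (27 ^ (k + 1) * s) + 8 * t) := by
        unfold pt; ring
      rw [a1, a2, e4, a4, e3]
      exact same_add (n8 k) (n8 k) (s8 k)
    · rw [a3]
      have := rho_add_mul ρ (27 ^ k) t
      push_cast at this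
      rw [this]
      exact n8 k

theorem sol_of_patches (q : Quad) (e : ℕ)
    (h : ∀ J, e + 1 ≤ J → ∃ T : ℕ → ℕ → q.S, ∀ j k, j + 1 ≤ J → k + 1 ≤ J →
      q.H (T j k) (T (j + 1) k) ∧ q.V (T j k) (T j (k + 1)) ∧
      (q.L (T j k) ↔ j = 0) ∧ (q.B (T j k) ↔ k = 0) ∧ (j = e → q.M (T j k))) : q.Sol e := by
  have := q.fin
  choose T hT using fun J => h (J + e + 1) (by omega)
  have h1 : ∀ j k, ∃ τ, ∀ᶠ J in (hyperfilter ℕ : Filter ℕ), T J j k = τ := by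
    intro j k
    obtain ⟨τ, hτ⟩ := Ultrafilter.eq_pure_of_finite ((hyperfilter ℕ).map fun J => T J j k)
    refine ⟨τ, ?_⟩
    have h2 : {τ} ∈ (hyperfilter ℕ).map fun J => T J j k := by
      rw [hτ]; exact Ultrafilter.mem_pure.2 rfl
    exact h2
  choose S hS using h1
  refine ⟨S, fun j k => ?_⟩
  obtain ⟨J, ⟨⟨a1, a2⟩, a3⟩, a4⟩ := ((((hS j k).and (hS (j + 1) k)).and (hS j (k + 1))).and
    (hyper_le (eventually_ge_atTop (j + k)))).exists
  rw [← a1, ← a2, ← a3]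
  exact hT J j k (by omega) (by omega)

end Vale.Agent.N043U
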