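import Vale.Agent.N043U.Decor

/-!
# Leading digits solve the line system
-/

namespace Vale.Agent.N043U

variable {r : ℕ}

/-- `n = r ^ v * m` with `m` not divisible by `r` and last digit `u` -/
def Dg (r : ℕ) (n : ℤ) (v : ℕ) (u : ZMod r) : Prop :=
  ∃ m : ℤ, n = r ^ v * m ∧ (m : ZMod r) = u ∧ u ≠ 0

theorem exists_dg (hr : 2 ≤ r) (n : ℤ) (hn : n ≠ 0) : ∃ p : ℕ × ZMod r, Dg r n p.1 p.2 := by
  induction h : n.natAbs using Nat.strong_induction_on generalizing n with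
  | _ N ih =>
    by_cases h0 : (n : ZMod r) = 0
    · obtain ⟨m, rfl⟩ := (ZMod.intCast_zmod_eq_zero_iff_dvd n r).1 h0
      have hm : m ≠ 0 := fun hm => hn (by rw [hm, mul_zero])
      have hlt : m.natAbs < N := by
        rw [← h, Int.natAbs_mul, Int.natAbs_natCast]
        have := Int.natAbs_pos.2 hm
        nlinarith
      obtain ⟨⟨v, u⟩, m', h1, h2⟩ := ih _ hlt m hm rfl
      exact ⟨(v + 1, u), m', by rw [h1]; ring, h2⟩
    · exact ⟨(0, n), n, by simp, rfl, h0⟩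

theorem Dg.ne {n : ℤ} {v : ℕ} {u : ZMod r} (h : Dg r n v u) : u ≠ 0 := h.choose_spec.2.2

theorem Dg.not_lt (hr : 2 ≤ r) {n : ℤ} {v v' : ℕ} {u : ZMod r} (h : Dg r n v u) {m : ℤ}
    (h' : n = r ^ v' * m) : ¬ v < v' := by
  intro hlt
  obtain ⟨m0, h1, h2, h3⟩ := h
  obtain ⟨i, rfl⟩ := Nat.exists_eq_add_of_lt hlt
  have hr0 : (r : ℤ) ^ v ≠ 0 := pow_ne_zero _ (by exact_mod_cast (by omega : r ≠ 0))
  have h4 : m0 = r * (r ^ i * m) := mul_left_cancel₀ hr0 (by rw [← h1, h']; ring)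
  apply h3
  rw [← h2, h4]
  push_cast
  rw [ZMod.natCast_self, zero_mul]

theorem Dg.uniq (hr : 2 ≤ r) {n : ℤ} {v v' : ℕ} {u u' : ZMod r} (h : Dg r n v u)
    (h' : Dg r n v' u') : v = v' ∧ u = u' := by
  have a1 := h.not_lt hr h'.choose_spec.1
  have a2 := h'.not_lt hr h.choose_spec.1
  obtain rfl : v = v' := by omega
  obtain ⟨m, h1, h2, -⟩ := h
  obtain ⟨m', h1', h2', -⟩ := h'
  have hr0 : (r : ℤ) ^ v ≠ 0 := pow_ne_zero _ (by exact_mod_cast (by omega : r ≠ 0))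
  have : m = m' := mul_left_cancel₀ hr0 (h1.symm.trans h1')
  exact ⟨rfl, by rw [← h2, ← h2', this]⟩

theorem Dg.add_lt {x y : ℤ} {v w : ℕ} {g k : ZMod r} (hx : Dg r x v g) (hy : Dg r y w k)
    (h : v < w) : Dg r (x + y) v g := by
  obtain ⟨m, rfl, h2, h3⟩ := hx
  obtain ⟨m', rfl, -, -⟩ := hy
  obtain ⟨i, rfl⟩ := Nat.exists_eq_add_of_lt h
  refine ⟨m + r * (r ^ i * m'), by ring, ?_, h3⟩
  push_cast
  rw [ZMod.natCast_self, zero_mul, add_zero, h2]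

theorem Dg.mul_pow {y : ℤ} {w : ℕ} {k : ZMod r} (hy : Dg r y w k) (e : ℕ) :
    Dg r (r ^ e * y) (w + e) k := by
  obtain ⟨m, rfl, h2⟩ := hy
  exact ⟨m, by ring, h2⟩

theorem Dg.mul {y : ℤ} {w : ℕ} {k : ZMod r} (hy : Dg r y w k) : Dg r (r * y) (w + 1) k := by
  simpa using hy.mul_pow 1

theorem Dg.tri (hr : 2 ≤ r) {x y : ℤ} {v w z : ℕ} {g k h : ZMod r} (hx : Dg r x v g)
    (hy : Dg r y w k) (hz : Dg r (x + y) z h) :
    (v < w ∧ h = g) ∨ (w < v ∧ h = k) ∨ (v = w ∧ h = g + k ∧ g + k ≠ 0) ∨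
      (v = w ∧ g + k = 0 ∧ v < z) := by
  rcases lt_trichotomy v w with hl | rfl | hl
  · exact Or.inl ⟨hl, (hz.uniq hr (hx.add_lt hy hl)).2⟩
  · obtain ⟨m, rfl, h2, h3⟩ := hx
    obtain ⟨m', rfl, h2', h3'⟩ := hy
    by_cases h0 : g + k = 0
    · refine Or.inr (Or.inr (Or.inr ⟨rfl, h0, ?_⟩))
      obtain ⟨c, hc⟩ := (ZMod.intCast_zmod_eq_zero_iff_dvd (m + m') r).1 (by
        push_cast; rw [h2, h2', h0])
      have := hz.not_lt hr (v' := v + 1) (m := c) (by rw [← mul_add, hc]; ring)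
      omega
    · exact Or.inr (Or.inr (Or.inl ⟨rfl,
        (hz.uniq hr ⟨m + m', by ring, by push_cast; rw [h2, h2'], h0⟩).2, h0⟩))
  · rw [add_comm] at hz
    exact Or.inr (Or.inl ⟨hl, (hz.uniq hr (hy.add_lt hx hl)).2⟩)

theorem Dg.zero {x : ℤ} {v : ℕ} {g : ZMod r} (hx : Dg r x v g) :
    ((x : ZMod r) ≠ 0 ↔ v = 0) ∧ ((x : ZMod r) ≠ 0 → g = x) := by
  obtain ⟨m, rfl, h2, h3⟩ := hx
  rcases v with _ | v
  · simp [h2, h3]
  · have : (((r : ℤ) ^ (v + 1) * m : ℤ) : ZMod r) = 0 := by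
      push_cast
      rw [pow_succ, ZMod.natCast_self, mul_zero, zero_mul]
    simp [this]

theorem Dg.same (hr : 2 ≤ r) {x y : ℤ} {v w z : ℕ} {g k h : ZMod r} (hx : Dg r x v g)
    (hy : Dg r y w k) (hz : Dg r (x + y) z h) (hs : Same g k h) : v = w := by
  rcases hx.tri hr hy hz with h1 | h1 | h1 | h1
  · exact absurd h1.2 hs.1
  · exact absurd h1.2 hs.2.1
  · exact h1.1
  · exact h1.1

theorem Dg.q1 (hr : 2 ≤ r) {x y : ℤ} {v w z z' : ℕ} {g k h l : ZMod r} (hx : Dg r x v g)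
    (hy : Dg r y w k) (hz : Dg r (x + y) z h) (hl : Dg r (x + r * y) z' l) (hk : h = k) :
    R1 k g l := by
  rcases hx.tri hr hy.mul hl with h1 | h1 | h1 | h1
  · rcases hx.tri hr hy hz with h2 | h2 | h2 | h2
    · exact Or.inr (Or.inr (h1.2.trans (h2.2.symm.trans hk)))
    · omega
    · exact absurd (by linear_combination hk - h2.2.1) hx.ne
    · exact Or.inr (Or.inl (by linear_combination h2.2.1))
  · exact Or.inr (Or.inr h1.2)
  · exact Or.inl h1.2.1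
  · exact Or.inr (Or.inl (by linear_combination h1.2.1))

theorem Dg.q3 (hr : 2 ≤ r) {x y : ℤ} {v w z z' : ℕ} {g k h l : ZMod r} (hx : Dg r x v g)
    (hy : Dg r y w k) (hz : Dg r (x + y) z h) (hl : Dg r (x + y + r * y) z' l) (hk : g = -k) :
    R1 k h l := by
  rcases hz.tri hr hy.mul hl with h1 | h1 | h1 | h1
  · rcases hx.tri hr hy hz with h2 | h2 | h2 | h2
    · exact Or.inr (Or.inl (h2.2.trans hk))
    · exact Or.inr (Or.inr (h1.2.trans h2.2))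
    · exact absurd (by linear_combination hk) h2.2.2
    · omega
  · exact Or.inr (Or.inr h1.2)
  · exact Or.inl h1.2.1
  · exact Or.inr (Or.inl (by linear_combination h1.2.1))

theorem Dg.x1 (hr : 2 ≤ r) {x y : ℤ} {v w z z' e : ℕ} {g k h l : ZMod r} (hx : Dg r x v g)
    (hy : Dg r y w k) (hz : Dg r (x + y) z h) (hl : Dg r (x + r ^ e * y) z' l) (h1 : h = g)
    (h2 : k ≠ g) (h3 : k ≠ -g) : l = g := by
  rcases hx.tri hr hy hz with h4 | h4 | h4 | h4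
  · exact (hl.uniq hr (hx.add_lt (hy.mul_pow e) (by omega))).2
  · exact absurd (h4.2.symm.trans h1) h2
  · exact absurd (by linear_combination h1 - h4.2.1) hy.ne
  · exact absurd (by linear_combination h4.2.1) h3

open Classical in
/-- level and leading digit -/
noncomputable def vd (r : ℕ) (n : ℤ) : ℕ × ZMod r :=
  if h : ∃ p : ℕ × ZMod r, Dg r n p.1 p.2 then h.choose else (0, 0)

theorem vd_spec (hr : 2 ≤ r) {n : ℤ} (hn : n ≠ 0) : Dg r n (vd r n).1 (vd r n).2 := by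
  have h := exists_dg hr n hn
  rw [vd, dif_pos h]
  exact h.choose_spec

theorem rel_vd (hr : 2 ≤ r) {x y : ℤ} (hx : x ≠ 0) (hy : y ≠ 0) (h1 : x + y ≠ 0)
    (h2 : x + r * y ≠ 0) (h3 : y + r * x ≠ 0) (h4 : x + (r + 1) * y ≠ 0) :
    Rel (vd r x).2 (vd r y).2 (vd r (x + y)).2 (vd r (x + r * y)).2 (vd r (y + r * x)).2
      (vd r (x + (r + 1) * y)).2 (x : ZMod r) (y : ZMod r) ((x + y : ℤ) : ZMod r) := by
  have dx := vd_spec hr hx
  have dy := vd_spec hr hy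
  have d1 := vd_spec hr h1
  have d1' : Dg r (y + x) (vd r (x + y)).1 (vd r (x + y)).2 := by rw [add_comm y x]; exact d1
  refine ⟨Int.cast_add x y, dx.zero.2, dy.zero.2, d1.zero.2, dx.q1 hr dy d1 (vd_spec hr h2),
    dy.q1 hr dx d1' (vd_spec hr h3), ?_, ?_⟩
  · have d4 := vd_spec hr h4
    have e : x + (r + 1) * y = x + y + r * y := by ring
    rw [e] at d4 ⊢
    exact dx.q3 hr dy d1 d4
  · rcases dx.tri hr dy d1 with h | h | h | h
    · exact Or.inl h.2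
    · exact Or.inr (Or.inl h.2)
    · exact Or.inr (Or.inr (Or.inl h.2.1))
    · exact Or.inr (Or.inr (Or.inr (by linear_combination h.2.1)))

theorem dec_vd (q : Quad) (e : ℕ) {T : ℕ → ℕ → q.S}
    (hT : ∀ j k, q.H (T j k) (T (j + 1) k) ∧ q.V (T j k) (T j (k + 1)) ∧
      (q.L (T j k) ↔ j = 0) ∧ (q.B (T j k) ↔ k = 0) ∧ (j = e → q.M (T j k)))
    {x y : ℤ} (hx : x ≠ 0) (hy : y ≠ 0) (h1 : x + y ≠ 0) (h2 : x + 8 * y ≠ 0)
    (h3 : x + 27 * y ≠ 0) (h4 : x + 8 ^ e * y ≠ 0) :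
    Dec q (vd 8 x).2 (vd 8 y).2 (vd 8 (x + y)).2 (vd 8 (x + 8 * y)).2 (vd 8 (x + 8 ^ e * y)).2
      (x : ZMod 8) (y : ZMod 8) (vd 27 x).2 (vd 27 y).2 (vd 27 (x + y)).2 (vd 27 (x + 27 * y)).2
      (x : ZMod 27) (T (vd 8 x).1 (vd 27 x).1) (T (vd 8 y).1 (vd 27 y).1) := by
  have r8 : 2 ≤ 8 := by norm_num
  have r27 : 2 ≤ 27 := by norm_num
  have dx := vd_spec r8 hx
  have dy := vd_spec r8 hy
  have dx' := vd_spec r27 hx
  have dy' := vd_spec r27 hy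
  refine ⟨fun a b => ?_, fun a b => ?_, fun a b => ?_,
    dx.x1 r8 dy (vd_spec r8 h1) (e := e) (vd_spec r8 h4), fun a b => ?_, ?_, ?_⟩
  · rw [dx.same r8 dy (vd_spec r8 h1) a, dx'.same r27 dy' (vd_spec r27 h1) b]
  · rw [dx.same r8 dy.mul (vd_spec r8 h2) a, dx'.same r27 dy' (vd_spec r27 h1) b]
    exact (hT _ _).1
  · rw [dx.same r8 dy (vd_spec r8 h1) a, dx'.same r27 dy'.mul (vd_spec r27 h3) b]
    exact (hT _ _).2.1
  · refine (hT _ _).2.2.2.2 ?_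
    rw [dx.same r8 (dy.mul_pow e) (vd_spec r8 h4) a, dy.zero.1.1 b, zero_add]
  · rw [(hT _ _).2.2.1, dx.zero.1]
  · rw [(hT _ _).2.2.2.1, dx'.zero.1]

end Vale.Agent.N043U
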