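import Vale.Agent.P043.Bdl.B2

/-!
# From a family of systems to a family of single tiles
-/

namespace Vale.Agent.N043U

open Vale.Agent.P043

/-- A finite sum of coboundaries of bounded integer functions is not everywhere positive. -/
theorem cob_not_pos {G J : Type} [AddCommGroup G] (s : Finset J) (g : J → G) :
    ∀ f : J → G → ℤ, (∀ j, ∃ M : ℕ, ∀ x, |f j x| ≤ M) →
      ¬ ∀ t, 1 ≤ ∑ j ∈ s, (f j (t + g j) - f j t) := by
  classical
  induction s using Finset.induction_on with
  | empty =>
    intro f _ h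
    have := h 0
    simp at this
  | insert j0 s hj0 ih =>
    intro f hf h
    obtain ⟨M, hM⟩ := hf j0
    refine ih (fun j x => ∑ n ∈ Finset.range (2 * M + 1), f j (x + n • g j0)) (fun j => ?_)
      (fun t => ?_)
    · obtain ⟨M', hM'⟩ := hf j
      refine ⟨(2 * M + 1) * M', fun x => ?_⟩
      refine le_trans (Finset.abs_sum_le_sum_abs _ _) ?_
      refine le_trans (Finset.sum_le_sum fun n _ => hM' _) ?_
      rw [Finset.sum_const, Finset.card_range, nsmul_eq_mul]
      push_cast
      exact le_rfl
    · have h1 : ∑ n ∈ Finset.range (2 * M + 1), (1 : ℤ) ≤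
          ∑ n ∈ Finset.range (2 * M + 1),
            ∑ j ∈ insert j0 s, (f j (t + n • g j0 + g j) - f j (t + n • g j0)) :=
        Finset.sum_le_sum fun n _ => h _
      simp only [Finset.sum_insert hj0] at h1
      rw [Finset.sum_add_distrib, Finset.sum_comm] at h1
      have h2 : ∑ n ∈ Finset.range (2 * M + 1), (f j0 (t + n • g j0 + g j0) - f j0 (t + n • g j0)) =
          f j0 (t + (2 * M + 1) • g j0) - f j0 (t + 0 • g j0) := by
        rw [← Finset.sum_range_sub (fun n => f j0 (t + n • g j0))]
        refine Finset.sum_congr rfl fun n _ => ?_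
        rw [succ_nsmul, add_assoc]
      rw [h2, Finset.sum_const, Finset.card_range, nsmul_eq_mul, mul_one] at h1
      have h3 := abs_le.1 (hM (t + (2 * M + 1) • g j0))
      have h4 := abs_le.1 (hM (t + 0 • g j0))
      have h5 : ∑ j ∈ s, (∑ n ∈ Finset.range (2 * M + 1), f j (t + g j + n • g j0) -
          ∑ n ∈ Finset.range (2 * M + 1), f j (t + n • g j0)) =
          ∑ j ∈ s, ∑ n ∈ Finset.range (2 * M + 1),
            (f j (t + n • g j0 + g j) - f j (t + n • g j0)) := by
        refine Finset.sum_congr rfl fun j _ => ?_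
        rw [← Finset.sum_sub_distrib]
        refine Finset.sum_congr rfl fun n _ => ?_
        rw [add_right_comm]
      rw [h5]
      push_cast at h1
      linarith [h3.2, h4.1]

/-- If one counting function is below the other, they agree on a translate of any finite set. -/
theorem exists_window {G P : Type} [AddCommGroup G] [Fintype P] (ι : G →+ G) (A : Set G)
    (F1 F2 : P → G) (hle : ∀ u, XX ι A F1 u ≤ XX ι A F2 u) (K : Finset G) :
    ∃ t, ∀ k ∈ K, XX ι A F1 (k + t) = XX ι A F2 (k + t) := by
  classical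
  by_contra hcon
  push Not at hcon
  refine cob_not_pos (K ×ˢ (Finset.univ : Finset P)) (fun q => ι (F1 q.2) - ι (F2 q.2))
    (fun q x => if q.1 + x - ι (F1 q.2) ∈ A then 1 else 0) (fun q => ⟨1, fun x => ?_⟩)
    (fun t => ?_)
  · split_ifs <;> simp
  · obtain ⟨k0, hk0, hne⟩ := hcon t
    rw [Finset.sum_product]
    have h1 : ∀ k, ∑ p : P, ((if k + (t + (ι (F1 p) - ι (F2 p))) - ι (F1 p) ∈ A then (1 : ℤ) else 0) -
        (if k + t - ι (F1 p) ∈ A then (1 : ℤ) else 0)) =
        (XX ι A F2 (k + t) : ℤ) - XX ι A F1 (k + t) := by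
      intro k
      rw [Finset.sum_sub_distrib]
      unfold XX
      rw [Finset.card_filter, Finset.card_filter]
      push_cast
      congr 1
      refine Finset.sum_congr rfl fun p _ => ?_
      have : k + (t + (ι (F1 p) - ι (F2 p))) - ι (F1 p) = k + t - ι (F2 p) := by abel
      rw [this]
    simp only [h1]
    have h2 : (1 : ℤ) ≤ (XX ι A F2 (k0 + t) : ℤ) - XX ι A F1 (k0 + t) := by
      have := hle (k0 + t)
      omega
    refine le_trans h2 (Finset.single_le_sum (f := fun k =>
      (XX ι A F2 (k + t) : ℤ) - XX ι A F1 (k + t)) (fun k _ => ?_) hk0)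
    have := hle (k + t)
    omega

/-- A limit of translates. -/
theorem exists_limit {G : Type} [AddCommGroup G] (A : Set G) (t : Finset G → G) :
    ∃ A' : Set G, ∀ Q : Finset G, ∃ K, Q ⊆ K ∧ ∀ x ∈ Q, (x ∈ A' ↔ x + t K ∈ A) := by
  classical
  let U : Ultrafilter (Finset G) := Ultrafilter.of Filter.atTop
  refine ⟨{x | {K | x + t K ∈ A} ∈ U}, fun Q => ?_⟩
  have h1 : ∀ᶠ K in (U : Filter (Finset G)), Q ⊆ K :=
    Ultrafilter.of_le Filter.atTop (Filter.eventually_ge_atTop Q)
  have h2 : ∀ᶠ K in (U : Filter (Finset G)), ∀ x ∈ Q,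
      ({K | x + t K ∈ A} ∈ U ↔ x + t K ∈ A) := by
    rw [Filter.eventually_all_finset]
    intro x _
    by_cases hx : {K | x + t K ∈ A} ∈ U
    · exact Filter.mem_of_superset hx fun K hK => ⟨fun _ => hK, fun _ => hx⟩
    · have := Ultrafilter.compl_mem_iff_notMem.2 hx
      exact Filter.mem_of_superset this fun K hK => ⟨fun h => absurd h hx, fun h => absurd h hK⟩
  obtain ⟨K, hK1, hK2⟩ := (h1.and h2).exists
  exact ⟨K, hK1, hK2⟩

theorem comb_le {G P : Type} [AddCommGroup G] [Fintype P] (ι : G →+ G) (e : G) (A : Set G)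
    (F1 F2 : P → G) (h : Solves A (comb ι e F1 F2)) (u : G) : XX ι A F1 u ≤ XX ι A F2 u := by
  rw [solves_comb_iff] at h
  have hu := h u
  by_contra hcon
  push Not at hcon
  have h0 : XX ι A F2 u = 0 := by omega
  have h1 : 1 ≤ XX ι A F1 u := by omega
  have e1 := h (u + e)
  have a1 : u + e - e = u := by abel
  have a2 : u + e - 2 • e = u - e := by abel
  have a3 : u + e - 3 • e = u - 2 • e := by abel
  rw [a1, a2, a3, h0] at e1
  have e2 := h (u + 3 • e)
  have b1 : u + 3 • e - e = u + 2 • e := by abel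
  have b2 : u + 3 • e - 2 • e = u + e := by abel
  have b3 : u + 3 • e - 3 • e = u := by abel
  rw [b1, b2, b3] at e2
  have e3 := h (u + 2 • e)
  have c1 : u + 2 • e - e = u + e := by abel
  have c2 : u + 2 • e - 2 • e = u := by abel
  have c3 : u + 2 • e - 3 • e = u - e := by abel
  rw [c1, c2, c3] at e3
  omega

/-- A solution of the combined tile can be replaced by one which solves both pure combinations
and every finite tile the old one solves. -/
theorem comb_split' {G P : Type} [AddCommGroup G] [Fintype P] (ι : G →+ G) (e : G) (A : Set G)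
    (F1 F2 : P → G) (h : Solves A (comb ι e F1 F2)) :
    ∃ A' : Set G, Solves A' (comb ι e F1 F1) ∧ Solves A' (comb ι e F2 F2) ∧
      ∀ τ : P × Fin 4 → G, Solves A τ → Solves A' τ := by
  classical
  choose t ht using exists_window ι A F1 F2 (comb_le ι e A F1 F2 h)
  obtain ⟨A', hA'⟩ := exists_limit A t
  have hs : ∀ τ : P × Fin 4 → G, Solves A τ → Solves A' τ := by
    intro τ hτ g
    obtain ⟨K, -, hK⟩ := hA' (Finset.univ.image fun p => g - τ p)
    have e1 : ∀ p, g - τ p ∈ A' ↔ g + t K - τ p ∈ A := by
      intro p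
      rw [hK _ (Finset.mem_image.2 ⟨p, Finset.mem_univ _, rfl⟩)]
      have : g - τ p + t K = g + t K - τ p := by abel
      rw [this]
    simp only [e1]
    exact hτ (g + t K)
  have hF : XX ι A' F1 = XX ι A' F2 := by
    funext u
    obtain ⟨K, hK1, hK⟩ := hA' (insert u ((Finset.univ.image fun p => u - ι (F1 p)) ∪
      Finset.univ.image fun p => u - ι (F2 p)))
    have e1 : ∀ F : P → G, (∀ p, u - ι (F p) ∈ A' ↔ u - ι (F p) + t K ∈ A) →
        XX ι A' F u = XX ι A F (u + t K) := by
      intro F hF
      unfold XX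
      congr 1
      ext p
      have : u - ι (F p) + t K = u + t K - ι (F p) := by abel
      rw [Finset.mem_filter, Finset.mem_filter, hF, this]
    rw [e1 F1 fun p => hK _ (Finset.mem_insert_of_mem (Finset.mem_union_left _
        (Finset.mem_image.2 ⟨p, Finset.mem_univ _, rfl⟩))),
      e1 F2 fun p => hK _ (Finset.mem_insert_of_mem (Finset.mem_union_right _
        (Finset.mem_image.2 ⟨p, Finset.mem_univ _, rfl⟩)))]
    exact ht K u (hK1 (Finset.mem_insert_self _ _))
  have h' := hs _ h
  rw [solves_comb_iff] at h'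
  refine ⟨A', ?_, ?_, hs⟩
  · rw [solves_comb_iff]
    intro u
    have := h' u
    rw [← hF] at this
    exact this
  · rw [solves_comb_iff]
    intro u
    have := h' u
    rw [hF] at this
    exact this

theorem comb_affine {G P : Type} [AddCommGroup G] (ι : G →+ G) (e : G) (a1 b1 a2 b2 : P → G)
    (N : ℤ) : (fun q => comb ι e a1 a2 q + N • comb ι 0 b1 b2 q) =
      comb ι e (fun p => a1 p + N • b1 p) (fun p => a2 p + N • b2 p) := by
  funext q
  unfold comb
  split_ifs
  · rw [map_add, map_zsmul, nsmul_zero, add_zero]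
    abel
  · rw [map_add, map_zsmul, nsmul_zero, add_zero]
    abel

/-- A nonempty list of affine families of tiles is equivalent to one affine family. -/
theorem merge_list {G : Type} [AddCommGroup G] (ι : G →+ G) (e : G)
    (hdec : ∀ u : G, ∃! q : G × Fin 4, ι q.1 + (q.2 : ℕ) • e = u) :
    ∀ (n : ℕ) (P : Type) (_ : Finite P) (l : List ((P → G) × (P → G))), l.length = n + 1 →
      ∃ (P' : Type) (_ : Finite P') (c0 c1 : P' → G), ∀ N : ℤ,
        (∃ A : Set G, Solves A fun p => c0 p + N • c1 p) ↔
          ∃ A : Set G, ∀ q ∈ l, Solves A fun p => q.1 p + N • q.2 p := by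
  intro n
  induction n with
  | zero =>
    intro P hP l hl
    obtain ⟨F, rfl⟩ := List.length_eq_one_iff.1 (by simpa using hl)
    refine ⟨P, hP, F.1, F.2, fun N => exists_congr fun A => ?_⟩
    simp only [List.mem_singleton, forall_eq]
  | succ n ih =>
    intro P hP l hl
    have : Fintype P := Fintype.ofFinite P
    match l, hl with
    | F1 :: F2 :: rest, hl =>
      obtain ⟨P', hP', c0, c1, hc⟩ := ih (P × Fin 4) inferInstance
        ((comb ι e F1.1 F2.1, comb ι 0 F1.2 F2.2) ::
          rest.map (fun F => (comb ι e F.1 F.1, comb ι 0 F.2 F.2))) (by simpa using hl)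
      refine ⟨P', hP', c0, c1, fun N => (hc N).trans ⟨?_, ?_⟩⟩
      · rintro ⟨B, hB⟩
        have h12 := hB _ List.mem_cons_self
        simp only [comb_affine] at h12
        obtain ⟨B', h1, h2, h3⟩ := comb_split' ι e B _ _ h12
        refine ⟨{g : G | ∃ n : Fin 4, ι g - (n : ℕ) • e ∈ B'}, fun q hq => ?_⟩
        rw [List.mem_cons, List.mem_cons] at hq
        rcases hq with rfl | rfl | hq
        · exact comb_pull ι e B' _ h1
        · exact comb_pull ι e B' _ h2
        · apply comb_pull ι e B'
          apply h3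
          have := hB _ (List.mem_cons_of_mem _ (List.mem_map.2 ⟨q, hq, rfl⟩))
          simpa only [comb_affine] using this
      · rintro ⟨A, hA⟩
        refine ⟨ι '' A, fun q hq => ?_⟩
        rw [List.mem_cons, List.mem_map] at hq
        rcases hq with rfl | ⟨F, hF, rfl⟩
        · simp only [comb_affine]
          exact solves_comb ι e hdec (hA F1 (by simp)) (hA F2 (by simp))
        · simp only [comb_affine]
          have := hA F (by simp [hF])
          exact solves_comb ι e hdec this this

/-- Lifting a system along a surjection. -/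
theorem lift_iff {G X P ι : Type} [AddCommGroup G] [AddCommGroup X] [DecidableEq P] (φ : G →+ X)
    (hφ : Function.Surjective φ) (T : Finset G) (hT : AddSubgroup.closure (T : Set G) = φ.ker)
    (τ : ι → P → X) (σ : ι → P → G) (hσ : ∀ i p, φ (σ i p) = τ i p) (i0 : ι) (p0 : P) :
    (∃ B : Set G, (∀ i, Solves B (σ i)) ∧
      ∀ k ∈ T, Solves B fun p => σ i0 p + if p = p0 then k else 0) ↔
      ∃ A : Set X, ∀ i, Solves A (τ i) := by
  constructor
  · rintro ⟨B, hB, hB'⟩
    have hinvT : ∀ k ∈ T, ∀ x : G, x + k ∈ B ↔ x ∈ B := by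
      intro k hk x
      obtain ⟨p, hp, hpu⟩ := hB i0 (x + k + σ i0 p0)
      obtain ⟨q, hq, hqu⟩ := hB' k hk (x + k + σ i0 p0)
      have e1 : x + k + σ i0 p0 - σ i0 p0 = x + k := by abel
      have e2 : x + k + σ i0 p0 - (σ i0 p0 + k) = x := by abel
      constructor
      · intro hx
        have hpp : p = p0 := (hpu p0 (by simp only [e1]; exact hx)).symm
        by_cases hqq : q = p0
        · rw [hqq] at hq
          simp only [if_true, e2] at hq
          exact hq
        · exfalso
          simp only [if_neg hqq, add_zero] at hq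
          exact hqq ((hpu q hq).trans hpp)
      · intro hx
        have hqq : q = p0 := (hqu p0 (by simp only [if_true, e2]; exact hx)).symm
        by_cases hpp : p = p0
        · rw [hpp] at hp
          simp only [e1] at hp
          exact hp
        · exfalso
          refine hpp ((hqu p ?_).trans hqq)
          simp only [if_neg hpp, add_zero]
          exact hp
    have hinv : ∀ k ∈ φ.ker, ∀ x : G, x + k ∈ B ↔ x ∈ B := by
      intro k hk
      rw [← hT] at hk
      induction hk using AddSubgroup.closure_induction with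
      | mem k hk => exact hinvT k hk
      | zero => intro x; rw [add_zero]
      | add a b _ _ ha hb => intro x; rw [← add_assoc, hb, ha]
      | neg a _ ha =>
        intro x
        have := ha (x + -a)
        rw [neg_add_cancel_right] at this
        exact this.symm
    have hmem : ∀ x : G, φ x ∈ φ '' B ↔ x ∈ B := by
      intro x
      constructor
      · rintro ⟨b, hb, hbx⟩
        have h1 : x - b ∈ φ.ker := by
          rw [AddMonoidHom.mem_ker, map_sub, hbx, sub_self]
        have h2 := (hinv _ h1 b).2 hb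
        rwa [add_sub_cancel] at h2
      · intro hx
        exact ⟨x, hx, rfl⟩
    refine ⟨φ '' B, fun i y => ?_⟩
    obtain ⟨g, rfl⟩ := hφ y
    have e : ∀ r, φ g - τ i r ∈ φ '' B ↔ g - σ i r ∈ B := by
      intro r
      rw [← hσ, ← map_sub, hmem]
    simp only [e]
    exact hB i g
  · rintro ⟨A, hA⟩
    refine ⟨φ ⁻¹' A, fun i g => ?_, fun k hk g => ?_⟩
    · simp only [Set.mem_preimage, map_sub, hσ]
      exact hA i (φ g)
    · have hk0 : φ k = 0 := by
        have : k ∈ φ.ker := by
          rw [← hT]
          exact AddSubgroup.subset_closure hk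
        exact this
      have hv : ∀ p, φ (σ i0 p + if p = p0 then k else 0) = τ i0 p := by
        intro p
        rw [map_add, hσ]
        split_ifs
        · rw [hk0, add_zero]
        · rw [map_zero, add_zero]
      simp only [Set.mem_preimage, map_sub, hv]
      exact hA i0 (φ g)

theorem exists_dec {d : ℕ} (hd : 0 < d) :
    ∃ (ι : (Fin d → ℤ) →+ (Fin d → ℤ)) (e : Fin d → ℤ),
      ∀ u, ∃! q : (Fin d → ℤ) × Fin 4, ι q.1 + (q.2 : ℕ) • e = u := by
  let i0 : Fin d := ⟨0, hd⟩
  let ι : (Fin d → ℤ) →+ (Fin d → ℤ) :=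
    { toFun := fun v i => if i = i0 then 4 * v i else v i
      map_zero' := by
        ext i
        simp
      map_add' := by
        intro v v'
        ext i
        simp only [Pi.add_apply]
        split_ifs <;> ring }
  have hι : ∀ v i, ι v i = if i = i0 then 4 * v i else v i := fun _ _ => rfl
  have hsm : ∀ (m : Fin 4) i, ((m : ℕ) • (Pi.single i0 (1 : ℤ) : Fin d → ℤ)) i =
      if i = i0 then ((m : ℕ) : ℤ) else 0 := by
    intro m i
    rw [Pi.smul_apply, Pi.single_apply]
    split_ifs <;> simp
  refine ⟨ι, Pi.single i0 1, fun u => ?_⟩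
  have hm : ∃ (q : ℤ) (m : Fin 4), u i0 = 4 * q + (m : ℕ) := by
    refine ⟨u i0 / 4, ⟨(u i0 % 4).toNat, ?_⟩, ?_⟩
    · omega
    · simp only
      omega
  obtain ⟨q, m, hqm⟩ := hm
  refine ⟨(fun i => if i = i0 then q else u i, m), ?_, ?_⟩
  · ext i
    rw [Pi.add_apply, hι, hsm]
    by_cases hi : i = i0
    · subst hi
      simp [hqm]
    · simp [hi]
  · rintro ⟨v, m'⟩ h
    simp only at h
    have h1 := congrFun h i0
    rw [Pi.add_apply, hι, hsm, if_pos rfl, if_pos rfl] at h1
    have hm1 := m.2
    have hm2 := m'.2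
    have h2 : m' = m := by
      ext
      omega
    subst h2
    refine Prod.ext (funext fun i => ?_) rfl
    simp only
    by_cases hi : i = i0
    · subst hi
      rw [if_pos rfl]
      omega
    · rw [if_neg hi]
      have h3 := congrFun h i
      rw [Pi.add_apply, hι, hsm, if_neg hi, if_neg hi, add_zero] at h3
      exact h3

theorem merge_family {d : ℕ} (hd : 0 < d) {X : Type} [AddCommGroup X]
    (φ : (Fin d → ℤ) →+ X) (hφ : Function.Surjective φ) {P ι : Type} [Finite P] [Nonempty P]
    [Finite ι] [Nonempty ι] (a b : ι → P → X) :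
    ∃ (P' : Type) (_ : Finite P') (c0 c1 : P' → Fin d → ℤ), ∀ N : ℤ,
      (∃ A : Set (Fin d → ℤ), Solves A fun p => c0 p + N • c1 p) ↔
        ∃ A : Set X, ∀ i, Solves A fun p => a i p + N • b i p := by
  classical
  have hker : φ.ker.FG := by
    have h2 := IsNoetherian.noetherian (AddSubgroup.toIntSubmodule φ.ker)
    rw [← φ.ker.toIntSubmodule_toAddSubgroup, ← Submodule.fg_iff_addSubgroup_fg]
    exact h2
  obtain ⟨T, hT⟩ := hker
  obtain ⟨s, hs⟩ := hφ.hasRightInverse
  obtain ⟨i0⟩ := ‹Nonempty ι›
  obtain ⟨p0⟩ := ‹Nonempty P›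
  have : Fintype ι := Fintype.ofFinite ι
  obtain ⟨κ, e, hdec⟩ := exists_dec hd
  let l1 : List ((P → Fin d → ℤ) × (P → Fin d → ℤ)) :=
    (Finset.univ : Finset ι).toList.map fun i => (fun p => s (a i p), fun p => s (b i p))
  let l2 : List ((P → Fin d → ℤ) × (P → Fin d → ℤ)) :=
    T.toList.map fun k => (fun p => s (a i0 p) + if p = p0 then k else 0, fun p => s (b i0 p))
  have hlen : (l1 ++ l2).length ≠ 0 := by
    have : (fun p => s (a i0 p), fun p => s (b i0 p)) ∈ l1 ++ l2 :=
      List.mem_append_left _ (List.mem_map.2 ⟨i0, Finset.mem_toList.2 (Finset.mem_univ _), rfl⟩)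
    exact (List.length_pos_of_mem this).ne'
  obtain ⟨n, hn⟩ := Nat.exists_eq_succ_of_ne_zero hlen
  obtain ⟨P', hP', c0, c1, hc⟩ := merge_list κ e hdec n P inferInstance (l1 ++ l2) hn
  refine ⟨P', hP', c0, c1, fun N => (hc N).trans ?_⟩
  rw [← lift_iff φ hφ T hT (fun i p => a i p + N • b i p) (fun i p => s (a i p) + N • s (b i p))
    (fun i p => by rw [map_add, map_zsmul, hs, hs]) i0 p0]
  refine exists_congr fun B => ?_
  have e1 : ∀ k : Fin d → ℤ, (fun p => (s (a i0 p) + if p = p0 then k else 0) + N • s (b i0 p)) =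
      fun p => s (a i0 p) + N • s (b i0 p) + if p = p0 then k else 0 := by
    intro k
    funext p
    rw [add_right_comm]
  constructor
  · intro h
    refine ⟨fun i => ?_, fun k hk => ?_⟩
    · exact h _ (List.mem_append_left _
        (List.mem_map.2 ⟨i, Finset.mem_toList.2 (Finset.mem_univ _), rfl⟩))
    · rw [← e1]
      exact h _ (List.mem_append_right _ (List.mem_map.2 ⟨k, Finset.mem_toList.2 hk, rfl⟩))
  · rintro ⟨h1, h2⟩ q hq
    rcases List.mem_append.1 hq with hq | hq
    · obtain ⟨i, -, rfl⟩ := List.mem_map.1 hq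
      exact h1 i
    · obtain ⟨k, hk, rfl⟩ := List.mem_map.1 hq
      have := h2 k (Finset.mem_toList.1 hk)
      rw [← e1] at this
      exact this

end Vale.Agent.N043U
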