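import Vale.Agent.P043.Bdl.B2

/-!
# A seed block for the prime three
-/

namespace Vale.Agent.N043U

open Vale.Agent.P043 Vale.Agent.P043.Z

/-- seed block for the prime `p` (for `p = 2` this is `Blk.IsSeed`) -/
def IsSeedP (B : Blk) (p : ℕ) (pr : KK B.m B.P → ZMod p) : Prop :=
  (∀ W : ℤ → KK B.m B.P, (∀ t ∈ B.T, Solves (Gr W) t) →
    (∀ ξ, pr (W (ξ + (p : ℤ) ^ 2)) = pr (W ξ) + 1) ∧
    ∃ (e : Bool → ZMod p) (g : (i : Bool) → ZMod (B.P i)), ∀ i ξ, pr (W ξ) = e i →
      Neu B.θ W i ξ → (ξ : ZMod (B.P i)) = g i) ∧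
  (∃ W : ℤ → KK B.m B.P, (∀ t ∈ B.T, Solves (Gr W) t) ∧
      (∀ ξ, W (ξ + B.m * B.θ) = W ξ) ∧
      ∀ (i : Bool) (ξ : ℤ), (ξ / (p : ℤ) ^ 2) % p ≠ (if i then 1 else 0) → Neu B.θ W i ξ)

theorem exists_seed2 (P : Bool → ℕ) (hP : ∀ i, 2 ^ 25 < P i)
    (hc : ∀ i, Nat.Coprime 4 (P i)) (hPP : Nat.Coprime (P false) (P true)) :
    ∃ B : Blk, B.m = 4 ∧ B.P = P ∧ ∃ pr, IsSeedP B 2 pr := by
  obtain ⟨B, h1, h2, pr, h3⟩ := exists_seedBlk P (fun i => lt_trans (by norm_num) (hP i)) hc hPP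
  refine ⟨B, h1, h2, pr, fun W hW => ?_, ?_⟩
  · have := h3.1 W hW
    refine ⟨fun ξ => ?_, this.2⟩
    have e : ((2 : ℕ) : ℤ) ^ 2 = 4 := by norm_num
    rw [e]
    exact this.1 ξ
  · obtain ⟨W, a1, a2, a3⟩ := h3.2
    refine ⟨W, a1, a2, fun i ξ h => a3 i ξ ?_⟩
    have e : ((2 : ℕ) : ℤ) ^ 2 = 4 := by norm_num
    rw [e] at h
    exact h

/-! ### The star data for `m = 9` -/

/-- labels, first kind -/
def s3tauF (h : Bool) (a c : ZMod 9) : ℕ :=
  if a = 3 then (c - (if h then 3 else 0)).val else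
    if a = 6 then 9 + (c - (if h then 6 else 0)).val else
      if a.val % 3 = 1 then 18 + (c.val + a.val / 3) % 3 else
        if a.val % 3 = 2 then 21 + (c.val + a.val / 3) % 3 else 0

/-- exclusion labels, first kind -/
def s3dlF (_h : Bool) (b a : ZMod 9) : ℕ :=
  if a = 3 then b.val else if a = 6 then 9 + b.val else
    if a.val % 3 = 1 then 18 + a.val / 3 else if a.val % 3 = 2 then 21 + a.val / 3 else 0

/-- labels, second kind -/
def s3tauT (h : Bool) (a c : ZMod 9) : ℕ :=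
  if a = 0 then 0 else 3 * (a.val - 1) + (c - (if h then a else 0)).val % 3

/-- exclusion labels, second kind -/
def s3dlT (_h : Bool) (b a : ZMod 9) : ℕ :=
  if a = 0 then 0 else 3 * (a.val - 1) + b.val % 3

/-- star data, first kind -/
def s3F : Star 9 where
  τ := s3tauF
  dl := s3dlF
  L := 24
  τ_lt := by decide +kernel
  dl_lt := by decide +kernel
  dl_inj := by decide +kernel
  nc := by decide +kernel

/-- star data, second kind -/
def s3T : Star 9 where
  τ := s3tauT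
  dl := s3dlT
  L := 24
  τ_lt := by decide +kernel
  dl_lt := by decide +kernel
  dl_inj := by decide +kernel
  nc := by decide +kernel

/-- reduction modulo three -/
def r3 : ZMod 9 →+* ZMod 3 := ZMod.castHom (by norm_num : (3 : ℕ) ∣ 9) (ZMod 3)

theorem r3_val : ∀ x : ZMod 9, r3 x = ((x.val : ℕ) : ZMod 3) := by
  decide +kernel

theorem s3F_ok_pt : ∀ (h : Bool) (a d : ZMod 9), a ≠ 0 →
    ((∀ β : ZMod 9, ∃ a', a' ≠ 0 ∧ s3tauF h a (β + d) = s3dlF h β a') ↔
      ((a = 3 → d = (if h then 3 else 0)) ∧ (a = 6 → d = (if h then 6 else 0)))) := by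
  decide +kernel

theorem s3F_inj_pt : ∀ (h : Bool) (a a' c c' : ZMod 9), a ≠ 0 → a' ≠ 0 →
    (a = a' + 3 → c' = c - (if h then 3 else 0)) → (a' = a + 3 → c = c' - (if h then 3 else 0)) →
    s3tauF h a c = s3tauF h a' c' → a = a' := by
  decide +kernel

theorem s3T_ok_pt : ∀ (h : Bool) (a d : ZMod 9), a ≠ 0 →
    ((∀ β : ZMod 9, ∃ a', a' ≠ 0 ∧ s3tauT h a (β + d) = s3dlT h β a') ↔
      r3 d = (if h then r3 a else 0)) := by
  decide +kernel

theorem s3T_inj_pt : ∀ (h : Bool) (a a' c c' : ZMod 9), a ≠ 0 → a' ≠ 0 →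
    s3tauT h a c = s3tauT h a' c' → a = a' := by
  decide +kernel

theorem s3F_ok (h : Bool) (b : ZMod 9 → ZMod 9) :
    s3F.Ok h b ↔ ∀ x, b (x + 3) = b x + (if h then 3 else 0) := by
  constructor
  · intro H x
    have h1 := ((s3F_ok_pt h 3 (b (x + 3) - b (x + 3 - 3)) (by decide)).1
      (fun β => by rw [← add_sub_assoc]; exact H (x + 3) β 3 (by decide))).1 rfl
    rw [add_sub_cancel_right] at h1
    rw [← h1]
    ring
  · intro H x β a ha
    have := (s3F_ok_pt h a (b x - b (x - a)) ha).2 ⟨?_, ?_⟩ β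
    · rw [← add_sub_assoc] at this
      exact this
    · rintro rfl
      have h1 := H (x - 3)
      rw [sub_add_cancel] at h1
      rw [h1]
      ring
    · rintro rfl
      have h1 := H (x - 3)
      have h2 := H (x - 6)
      rw [sub_add_cancel] at h1
      rw [show x - 6 + 3 = x - 3 by ring] at h2
      rw [h1, h2]
      cases h
      · simp
      · simp only [if_true]
        ring

theorem s3F_inj (h : Bool) (b : ZMod 9 → ZMod 9) (H : s3F.Ok h b) : s3F.Inj h b := by
  rw [s3F_ok] at H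
  intro x β a a' ha ha' heq
  refine s3F_inj_pt h a a' _ _ ha ha' ?_ ?_ heq
  · intro h1
    have h2 := H (x - a)
    have h3 : x - a + 3 = x - a' := by rw [h1]; ring
    rw [h3] at h2
    rw [h2]
    ring
  · intro h1
    have h2 := H (x - a')
    have h3 : x - a' + 3 = x - a := by rw [h1]; ring
    rw [h3] at h2
    rw [h2]
    ring

theorem s3T_ok (h : Bool) (b : ZMod 9 → ZMod 9) :
    s3T.Ok h b ↔ ∀ x, r3 (b (x + 1)) = r3 (b x) + (if h then 1 else 0) := by
  constructor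
  · intro H x
    have h1 := (s3T_ok_pt h 1 (b (x + 1) - b (x + 1 - 1)) (by decide)).1
      (fun β => by rw [← add_sub_assoc]; exact H (x + 1) β 1 (by decide))
    rw [add_sub_cancel_right, map_sub, map_one] at h1
    rw [← h1]
    ring
  · intro H x β a ha
    have key : ∀ (n : ℕ) (y : ZMod 9),
        r3 (b (y + n)) = r3 (b y) + (if h then (n : ZMod 3) else 0) := by
      intro n y
      induction n with
      | zero => simp
      | succ n ih =>
        rw [Nat.cast_succ, ← add_assoc, H, ih]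
        cases h
        · simp
        · simp only [if_true]
          push_cast
          ring
    have := (s3T_ok_pt h a (b x - b (x - a)) ha).2 ?_ β
    · rw [← add_sub_assoc] at this
      exact this
    · have h1 := key a.val (x - a)
      rw [ZMod.natCast_zmod_val, sub_add_cancel] at h1
      rw [map_sub, h1, r3_val a]
      ring

theorem s3T_inj (h : Bool) (b : ZMod 9 → ZMod 9) : s3T.Inj h b := by
  intro x β a a' ha ha' heq
  exact s3T_inj_pt h a a' _ _ ha ha' heq

/-- the condition imposed by the star tile `i` on the digits of one class -/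
def s3Cond (i h : Bool) (b : ZMod 9 → ZMod 9) : Prop :=
  if i then (∀ x, r3 (b (x + 1)) = r3 (b x) + (if h then 1 else 0))
  else (∀ x, b (x + 3) = b x + (if h then 3 else 0))

theorem exists_s3Star (i : Bool) : ∃ S : Star 9, S.L = 24 ∧
    (∀ (h : Bool) (b : ZMod 9 → ZMod 9), S.Ok h b ↔ s3Cond i h b) ∧
    (∀ (h : Bool) (b : ZMod 9 → ZMod 9), S.Ok h b → S.Inj h b) := by
  cases i
  · refine ⟨s3F, rfl, fun h b => ?_, s3F_inj⟩
    rw [s3F_ok]
    simp [s3Cond]
  · refine ⟨s3T, rfl, fun h b => ?_, fun h b _ => s3T_inj h b⟩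
    rw [s3T_ok]
    simp [s3Cond]

/-! ### Forcing -/

theorem sum9 {A : Type*} [AddCommMonoid A] (f : ZMod 9 → A) :
    ∑ x, f x = f 0 + f 1 + f 2 + f 3 + f 4 + f 5 + f 6 + f 7 + f 8 := by
  have h : (Finset.univ : Finset (ZMod 9)) = {0, 1, 2, 3, 4, 5, 6, 7, 8} := by decide
  rw [h]
  repeat rw [Finset.sum_insert (by decide)]
  rw [Finset.sum_singleton]
  abel

theorem s3_pair {A : Type*} [AddCommGroup A] (c : A) (h3 : c + c + c = 0) (hc : c ≠ 0)
    (h : ZMod 9 → Bool) (hs : (∑ x, if h x = true then c else 0) = c) :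
    ∃ x, h x = true ∧ h (x + 3) = false := by
  by_contra hne
  have h1 : ∀ x, h x = true → h (x + 3) = true := by
    intro x hx
    by_contra h2
    exact hne ⟨x, hx, by simpa using h2⟩
  have h2 : ∀ x, h (x + 3) = h x := by
    intro x
    by_cases hx : h x = true
    · rw [h1 x hx, hx]
    · by_contra h4
      have h5 : h (x + 3) = true := by
        cases hh : h (x + 3)
        · rw [hh] at h4
          exact absurd (by simpa using hx) (fun h6 : h x = false => h4 h6.symm)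
        · rfl
      have h6 := h1 _ (h1 _ h5)
      have e : x + 3 + 3 + 3 = x := by
        have : (3 : ZMod 9) + 3 + 3 = 0 := by decide
        rw [add_assoc, add_assoc, ← add_assoc 3, this, add_zero]
      rw [e] at h6
      exact hx h6
  have e3 : h 3 = h 0 := h2 0
  have e4 : h 4 = h 1 := h2 1
  have e5 : h 5 = h 2 := h2 2
  have e6 : h 6 = h 0 := (h2 3).trans e3
  have e7 : h 7 = h 1 := (h2 4).trans e4
  have e8 : h 8 = h 2 := (h2 5).trans e5
  rw [sum9, e3, e4, e5, e6, e7, e8] at hs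
  have h7 : ∀ t : Bool, (if t = true then c else 0) + (if t = true then c else 0) +
      (if t = true then c else 0) = 0 := by
    intro t
    cases t
    · simp
    · simpa using h3
  apply hc
  rw [← hs]
  have a0 := h7 (h 0)
  have a1 := h7 (h 1)
  have a2 := h7 (h 2)
  generalize (if h 0 = true then c else 0) = u0 at a0 ⊢
  generalize (if h 1 = true then c else 0) = u1 at a1 ⊢
  generalize (if h 2 = true then c else 0) = u2 at a2 ⊢
  calc u0 + u1 + u2 + u0 + u1 + u2 + u0 + u1 + u2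
      = (u0 + u0 + u0) + (u1 + u1 + u1) + (u2 + u2 + u2) := by abel
    _ = 0 := by rw [a0, a1, a2]; simp

theorem s3_class : ∀ x y : ZMod 9, r3 x = r3 y → ∃ c : Fin 3, x - 3 * ((c : ℕ) : ZMod 9) = y := by
  decide +kernel

theorem s3_US (b : ZMod 9 → ZMod 9 → ZMod 9) (s : ZMod 9) : US b s = ∑ k, b k (s - k) := by
  unfold US
  exact Fintype.sum_equiv (Equiv.subLeft s) _ _
    (fun x => by simp only [Equiv.subLeft_apply, sub_sub_cancel])

theorem s3_lab_add (κ : ZMod 9 → ZMod 9) (ξ t : ℤ) :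
    lab κ (ξ + 9 * t) = lab κ ξ + (t : ZMod 9) := by
  unfold lab
  have h1 : ((ξ + 9 * t : ℤ) : ZMod 9) = (ξ : ZMod 9) := by
    push_cast
    have : (9 : ZMod 9) = 0 := by decide
    rw [this, zero_mul, add_zero]
  have h2 : (ξ + 9 * t) / ((9 : ℕ) : ℤ) = ξ / ((9 : ℕ) : ℤ) + t := by
    push_cast
    omega
  rw [h1, h2]
  push_cast
  ring

theorem s3_theta {P : Bool → ℕ} {θ : ℤ} (hN : Num 9 P θ 3 24) : ∃ q : ℤ, θ = 9 * (3 + 9 * q) := by
  have h := hN.θm
  have h3 : ((θ - 27 : ℤ) : ZMod (9 ^ 2)) = 0 := by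
    push_cast at h ⊢
    rw [h]
    decide
  rw [ZMod.intCast_zmod_eq_zero_iff_dvd] at h3
  obtain ⟨q, hq⟩ := h3
  refine ⟨q, ?_⟩
  push_cast at hq
  linarith only [hq]

theorem s3_lab_sub {P : Bool → ℕ} {θ : ℤ} (hN : Num 9 P θ 3 24) (κ : ZMod 9 → ZMod 9) (ξ c : ℤ) :
    lab κ (ξ - c * θ) = lab κ ξ - 3 * (c : ZMod 9) := by
  obtain ⟨q, hq⟩ := s3_theta hN
  rw [hq, show ξ - c * (9 * (3 + 9 * q)) = ξ + 9 * (-(c * (3 + 9 * q))) by ring, s3_lab_add]
  push_cast
  have : (9 : ZMod 9) = 0 := by decide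
  rw [this]
  ring

/-- residue modulo three of the first coordinate -/
def par9 {P : Bool → ℕ} (w : KK 9 P) : ZMod 3 := ((w.1.val : ℕ) : ZMod 3)

theorem s3_par9 {P : Bool → ℕ} (D : CD 9 P) (ξ : ℤ) : par9 (D.W ξ) = r3 (lab D.κ ξ) := by
  rw [r3_val]
  unfold par9 CD.W rowE
  simp only
  rw [ZMod.val_natCast]
  have h : ∀ a b : ℕ, (((a + 9 * b) % (9 ^ 2) : ℕ) : ZMod 3) = ((a : ℕ) : ZMod 3) := by
    intro a b
    rw [ZMod.natCast_eq_natCast_iff]
    unfold Nat.ModEq
    omega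
  exact h _ _

/-- Forcing in the seed block for the prime three. -/
theorem seed3_no {P : Bool → ℕ} {θ : ℤ} (S : Bool → Star 9) (hN : Num 9 P θ 3 24)
    [∀ i, NeZero (P i)] (hL : ∀ i, (S i).L = 24)
    (h1 : ∀ i (h : Bool) (b : ZMod 9 → ZMod 9), (S i).Ok h b ↔ s3Cond i h b)
    (J : (i : Bool) → JData 9 (P i)) (hJ : ∀ i, (J i).J = (S i).Jf (P i))
    (τ : (i : Bool) → ZMod (9 ^ 2) × ZMod (P i) → ℤ × (ZMod (9 ^ 2) × ZMod (P i)))
    (hτ : ∀ i, IsT (J i) (τ i))
    (W : ℤ → KK 9 P) (hW : ∀ t ∈ rowTiles 9 P τ, Solves (Gr W) t) :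
    (∀ ξ, par9 (W (ξ + 9)) = par9 (W ξ) + 1) ∧
    ∃ (e : Bool → ZMod 3) (g : (i : Bool) → ZMod (P i)), ∀ i ξ, par9 (W ξ) = e i →
      Neu θ W i ξ → (ξ : ZMod (P i)) = g i := by
  have hP : ∀ i, 1 < P i := fun i => lt_trans (by norm_num) (hN.big' i)
  obtain ⟨D, rfl⟩ := exists_cd (m := 9) (by norm_num) hP hN.co W
    (hW _ (by simp only [rowTiles, Set.mem_insert_iff, Set.mem_singleton_iff, true_or]))
    (hW _ (by simp only [rowTiles, Set.mem_insert_iff, Set.mem_singleton_iff, true_or, or_true]))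
    (fun i => hW _ (by
      cases i <;>
        simp only [rowTiles, Set.mem_insert_iff, Set.mem_singleton_iff, true_or, or_true]))
  have hG := (solves_tG_iff (m := 9) (by norm_num) D).1
    (hW _ (by simp only [rowTiles, Set.mem_insert_iff, Set.mem_singleton_iff, true_or, or_true]))
  have hsum := sum_rule (m := 9) (by norm_num) D.κ D.b hG
  have hA : ∀ i, Acc (J i) D.b (D.ζ i) (D.h i) := fun i =>
    (solves_T_iff (m := 9) (by norm_num) i (hP i) (hN.co i) (J i) (τ i) (hτ i) D).1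
      (hW _ (by cases i <;> simp [rowTiles]))
  have hF : ∀ i k, ∃ (hk : Bool) (ζk : ZMod (P i)), (∀ α, D.h i k α = hk) ∧
      (∀ α, D.ζ i k α = ζk) ∧ (S i).Ok hk (D.b k) := fun i k =>
    star_force (m := 9) (by norm_num) (S i) (by rw [hL i]; exact hN.big i)
      (hN.big' i) (hN.co i) (J i) (hJ i) D.b (D.ζ i) (D.h i) (hA i) k
  choose hk ζk hh hζ hok using hF
  refine ⟨fun ξ => ?_, ?_⟩
  · have := s3_lab_add D.κ ξ 1
    rw [mul_one, Int.cast_one] at this
    rw [s3_par9, s3_par9, this, map_add, map_one]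
  have hx : ∀ i, ∃ x, hk i x = true ∧ hk i (x + 3) = false := by
    intro i
    cases i
    · apply s3_pair (3 : ZMod 9) (by decide) (by decide)
      have e1 : ∀ k x, D.b k (x + 3) = D.b k x + (if hk false k = true then 3 else 0) := by
        intro k
        have := (h1 false (hk false k) (D.b k)).1 (hok false k)
        simpa only [s3Cond, Bool.false_eq_true, ↓reduceIte] using this
      have e2 : US D.b (0 + 1 + 1 + 1) = US D.b 0 + 1 + 1 + 1 := by
        rw [hsum, hsum, hsum]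
      have e3 : US D.b (0 + 1 + 1 + 1) =
          US D.b 0 + ∑ k, (if hk false k = true then (3 : ZMod 9) else 0) := by
        rw [s3_US, s3_US, ← Finset.sum_add_distrib]
        refine Finset.sum_congr rfl fun k _ => ?_
        rw [← e1]
        congr 1
        ring
      rw [e3, add_assoc, add_assoc] at e2
      have e4 := add_left_cancel e2
      rw [e4]
      norm_num
    · apply s3_pair (1 : ZMod 3) (by decide) (by decide)
      have e1 : ∀ k x, r3 (D.b k (x + 1)) =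
          r3 (D.b k x) + (if hk true k = true then 1 else 0) := by
        intro k
        have := (h1 true (hk true k) (D.b k)).1 (hok true k)
        simpa only [s3Cond, ↓reduceIte] using this
      have e2 : r3 (US D.b (0 + 1)) = r3 (US D.b 0) + 1 := by
        rw [hsum, map_add, map_one]
      have e3 : r3 (US D.b (0 + 1)) =
          r3 (US D.b 0) + ∑ k, (if hk true k = true then (1 : ZMod 3) else 0) := by
        rw [s3_US, s3_US, map_sum, map_sum, ← Finset.sum_add_distrib]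
        refine Finset.sum_congr rfl fun k _ => ?_
        rw [← e1]
        congr 2
        ring
      rw [e3] at e2
      exact add_left_cancel e2
  choose x hx1 hx2 using hx
  refine ⟨fun i => r3 (x i), fun i => ζk i (x i + 3) - ζk i (x i), ?_⟩
  intro i ξ hpar hneu
  rw [s3_par9] at hpar
  have hz : ∀ c : ℕ, (D.W ξ).2 i = ζk i (lab D.κ ξ - 3 * (c : ZMod 9)) +
      (if hk i (lab D.κ ξ - 3 * (c : ZMod 9)) = true then (ξ : ZMod (P i)) else 0) := by
    intro c
    rw [← hneu c]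
    have hcast : ((ξ - (c : ℤ) * θ : ℤ) : ZMod (P i)) = (ξ : ZMod (P i)) := by
      push_cast
      rw [hN.θP i]
      ring
    have hl := s3_lab_sub hN D.κ ξ c
    rw [Int.cast_natCast] at hl
    unfold CD.W rowZ
    simp only [hh, hζ, hl, hcast]
  obtain ⟨c, hc⟩ := s3_class _ _ hpar
  obtain ⟨c', hc'⟩ := s3_class (lab D.κ ξ) (x i + 3) (by
    rw [hpar, map_add]
    have : r3 3 = 0 := by decide +kernel
    rw [this, add_zero])
  have a1 := hz c
  have a2 := hz c'
  rw [hc, hx1] at a1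
  rw [hc', hx2] at a2
  simp only [if_true] at a1
  simp only [Bool.false_eq_true, if_false, add_zero] at a2
  show (ξ : ZMod (P i)) = ζk i (x i + 3) - ζk i (x i)
  rw [← a2, a1]
  ring

/-! ### A solution -/

/-- digits of the solution -/
def s3b : ZMod 9 → ZMod 9 → ZMod 9 := fun k α =>
  if k = 0 then ((3 * (α.val / 3) : ℕ) : ZMod 9) else
    if k = 1 then ((6 + α.val % 3 : ℕ) : ZMod 9) else
      if k.val % 3 = 0 then 8 else
        if k.val % 3 = 1 then (if α.val % 3 = 2 then 8 else 5) else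
          (if α.val % 3 = 0 then 5 else 8)

/-- holonomies of the solution -/
def s3h : Bool → ZMod 9 → ZMod 9 → Bool := fun i k _ =>
  if i then decide (k = 1) else decide (k = 0)

/-- class data of the solution -/
def s3D (P : Bool → ℕ) : CD 9 P where
  κ := fun _ => 0
  b := s3b
  ζ := fun _ _ _ => 0
  h := s3h

theorem s3_ok_false : ∀ k x : ZMod 9,
    s3b k (x + 3) = s3b k x + (if s3h false k 0 then 3 else 0) := by
  decide +kernel

theorem s3_ok_true : ∀ k x : ZMod 9,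
    r3 (s3b k (x + 1)) = r3 (s3b k x) + (if s3h true k 0 then 1 else 0) := by
  decide +kernel

/-- first coordinate as a function modulo `81` -/
def s3E (j : ℕ) : ℕ :=
  (j / 9) % 9 + 9 * (s3b ((j / 9 : ℕ) : ZMod 9) ((j : ℕ) : ZMod 9)).val

theorem s3_lab (ξ : ℤ) : lab (m := 9) (fun _ => 0) ξ = ((ξ / 9 : ℤ) : ZMod 9) := by
  unfold lab
  rw [zero_add]
  norm_num

theorem s3_inj : ∀ j j' : ZMod 81, j + ((s3E j.val : ℕ) : ZMod 81) =
    j' + ((s3E j'.val : ℕ) : ZMod 81) → j = j' := by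
  decide +kernel

theorem s3_bij (y : ZMod 81) : ∃! j : ZMod 81, j + ((s3E j.val : ℕ) : ZMod 81) = y := by
  have h : Function.Bijective fun j : ZMod 81 => j + ((s3E j.val : ℕ) : ZMod 81) :=
    Finite.injective_iff_bijective.1 fun j j' hj => s3_inj j j' hj
  exact (Function.bijective_iff_existsUnique _).1 h y

theorem s3_rowE (j : ZMod (9 ^ 2)) :
    rowE (m := 9) (fun _ => 0) s3b (j.val : ℤ) = ((s3E j.val : ℕ) : ZMod (9 ^ 2)) := by
  have e1 : lab (m := 9) (fun _ => 0) ((j.val : ℕ) : ℤ) = ((j.val / 9 : ℕ) : ZMod 9) := by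
    rw [s3_lab]
    have : ((j.val : ℕ) : ℤ) / 9 = ((j.val / 9 : ℕ) : ℤ) := by norm_num
    rw [this]
    push_cast
    rfl
  unfold rowE s3E
  rw [e1]
  have e2 : (((j.val : ℕ) : ℤ) : ZMod 9) = ((j.val : ℕ) : ZMod 9) := by push_cast; rfl
  rw [e2]
  have e3 : ((j.val / 9 : ℕ) : ZMod 9).val = (j.val / 9) % 9 := ZMod.val_natCast _ _
  rw [e3]

theorem s3_key : ∀ (i : Bool) (l c u v : ZMod 9), r3 l ≠ (if i then 1 else 0) →
    s3h i (l - 3 * c) u = s3h i l v := by
  intro i l c u v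
  unfold s3h
  revert i l c
  decide +kernel

/-- Solution of the seed block for the prime three. -/
theorem seed3_yes {P : Bool → ℕ} {θ : ℤ} (S : Bool → Star 9) (hN : Num 9 P θ 3 24)
    [∀ i, NeZero (P i)] (hL : ∀ i, (S i).L = 24)
    (h1 : ∀ i (h : Bool) (b : ZMod 9 → ZMod 9), (S i).Ok h b ↔ s3Cond i h b)
    (h2 : ∀ i (h : Bool) (b : ZMod 9 → ZMod 9), (S i).Ok h b → (S i).Inj h b)
    (J : (i : Bool) → JData 9 (P i)) (hJ : ∀ i, (J i).J = (S i).Jf (P i))
    (τ : (i : Bool) → ZMod (9 ^ 2) × ZMod (P i) → ℤ × (ZMod (9 ^ 2) × ZMod (P i)))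
    (hτ : ∀ i, IsT (J i) (τ i)) :
    ∃ W : ℤ → KK 9 P, (∀ t ∈ rowTiles 9 P τ, Solves (Gr W) t) ∧
      (∀ ξ, W (ξ + 9 * θ) = W ξ) ∧
      ∀ (i : Bool) (ξ : ℤ), (ξ / 9) % 3 ≠ (if i then 1 else 0) → Neu θ W i ξ := by
  have hP : ∀ i, 1 < P i := fun i => lt_of_le_of_lt (by norm_num) (hN.big' i)
  have h2m : (2 : ℕ) ≤ 9 := by norm_num
  have hT : ∀ i, Solves (Gr (s3D P).W) (lift1 9 P i (τ i)) := by
    intro i
    rw [solves_T_iff h2m i (hP i) (hN.co i) (J i) (τ i) (hτ i) (s3D P)]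
    refine star_acc h2m (S i) ?_ (hN.big' i) (J i) (hJ i) _ _ _ fun k => ?_
    · rw [hL i]
      exact hN.big i
    · have hok : (S i).Ok (s3h i k 0) (s3b k) := by
        rw [h1]
        cases i
        · simpa only [s3Cond, Bool.false_eq_true, ↓reduceIte] using s3_ok_false k
        · simpa only [s3Cond, ↓reduceIte] using s3_ok_true k
      exact ⟨s3h i k 0, 0, fun _ => rfl, fun _ => rfl, hok, h2 i _ _ hok⟩
  have hlab := s3_lab_sub hN (fun _ => 0)
  refine ⟨(s3D P).W, ?_, ?_, ?_⟩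
  · intro t ht
    simp only [rowTiles, Set.mem_insert_iff, Set.mem_singleton_iff] at ht
    rcases ht with rfl | rfl | rfl | rfl | rfl | rfl | rfl
    · exact solves_tL h2m _
    · exact solves_tP h2m _
    · rw [solves_tG_iff h2m]
      intro y
      have h := s3_bij y
      show ∃! j : ZMod (9 ^ 2), j + rowE (m := 9) (fun _ => 0) s3b (j.val : ℤ) = y
      simp only [s3_rowE]
      exact h
    · exact solves_tH h2m hP hN.co _ _
    · exact solves_tH h2m hP hN.co _ _
    · exact hT _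
    · exact hT _
  · intro ξ
    have e1 : ξ + 9 * θ = ξ - (-9 : ℤ) * θ := by ring
    have e2 : lab (m := 9) (fun _ => 0) (ξ + 9 * θ) = lab (m := 9) (fun _ => 0) ξ := by
      rw [e1, hlab]
      have : (3 : ZMod 9) * (((-9 : ℤ)) : ZMod 9) = 0 := by decide
      rw [this, sub_zero]
    have e3 : ((ξ + 9 * θ : ℤ) : ZMod 9) = (ξ : ZMod 9) := by
      push_cast
      have h4 : (9 : ZMod 9) = 0 := by decide
      rw [h4]
      ring
    refine Prod.ext ?_ ?_
    · show rowE (m := 9) (fun _ => 0) s3b (ξ + 9 * θ) = rowE (m := 9) (fun _ => 0) s3b ξ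
      unfold rowE
      rw [e2, e3]
    · funext i
      show (0 : ZMod (P i)) + (if s3h i (lab (m := 9) (fun _ => 0) (ξ + 9 * θ))
        ((ξ + 9 * θ : ℤ) : ZMod 9) then ((ξ + 9 * θ : ℤ) : ZMod (P i)) else 0) =
        0 + (if s3h i (lab (m := 9) (fun _ => 0) ξ) (ξ : ZMod 9) then (ξ : ZMod (P i)) else 0)
      rw [e2, e3]
      push_cast
      rw [hN.θP i]
      simp
  · intro i ξ hξ c
    show (0 : ZMod (P i)) + (if s3h i (lab (m := 9) (fun _ => 0) (ξ - c * θ))
        ((ξ - c * θ : ℤ) : ZMod 9) then ((ξ - c * θ : ℤ) : ZMod (P i)) else 0) =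
        0 + (if s3h i (lab (m := 9) (fun _ => 0) ξ) (ξ : ZMod 9) then (ξ : ZMod (P i)) else 0)
    have e4 : ((ξ - c * θ : ℤ) : ZMod (P i)) = (ξ : ZMod (P i)) := by
      push_cast
      rw [hN.θP i]
      ring
    rw [e4, hlab]
    have hne : r3 (lab (m := 9) (fun _ => 0) ξ) ≠ (if i then 1 else 0) := by
      rw [s3_lab, map_intCast]
      intro h
      apply hξ
      have h5 : ((ξ / 9 : ℤ) : ZMod 3) = (((if i then 1 else 0 : ℤ)) : ZMod 3) := by
        rw [h]
        cases i <;> simp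
      rw [ZMod.intCast_eq_intCast_iff] at h5
      unfold Int.ModEq at h5
      cases i
      · simpa using h5
      · simpa using h5
    rw [s3_key i _ _ _ (ξ : ZMod 9) hne]

theorem exists_seed3 (P : Bool → ℕ) (hP : ∀ i, 2 ^ 25 < P i)
    (hc : ∀ i, Nat.Coprime 9 (P i)) :
    ∃ B : Blk, B.m = 9 ∧ B.P = P ∧ ∃ pr, IsSeedP B 3 pr := by
  have hP0 : ∀ i, NeZero (P i) := fun i => ⟨(Nat.zero_lt_of_lt (hP i)).ne'⟩
  have hmP : ∀ i, 9 < P i := fun i => by have := hP i; omega
  obtain ⟨θ, hθ, hθP⟩ := eb_theta 9 3 P hc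
  choose S hL h1 h2 using fun i : Bool => exists_s3Star i
  have hN : Num 9 P θ 3 24 := ⟨hP, hmP, hc, hθ, hθP⟩
  choose J hJ using fun i : Bool => Star.exists_J (by norm_num) (S i) (P i)
    (by rw [hL i]; exact hP i) (hmP i)
  choose τ hτ using fun i : Bool => exists_T (by norm_num) (by have := hmP i; omega) (hc i) (J i)
  have e : ((3 : ℕ) : ℤ) ^ 2 = 9 := by norm_num
  refine ⟨⟨9, P, θ, rowTiles 9 P τ, eb_rowTiles_finite 9 P τ, by norm_num,
      fun i => by have := hmP i; omega⟩, rfl, rfl, par9, fun W hW => ?_, ?_⟩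
  · rw [e]
    exact seed3_no S hN hL h1 J hJ τ hτ W hW
  · rw [e]
    exact seed3_yes S hN hL h1 h2 J hJ τ hτ

end Vale.Agent.N043U
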