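import Vale.Agent.N043U.Mean
import Vale.Agent.N043U.Seed3
import Vale.Agent.N043U.Merge

/-!
# A constraint system on lines is encoded by one tile
-/

namespace Vale.Agent.N043U

open Vale.Agent.P043 Vale.Agent.P043.Z Finset

/-- the two primes -/
def pp (s : Bool) : ℕ := if s then 3 else 2

/-! ### Blocks -/

/-- a system of bit blocks and two seed blocks -/
structure GoodE {K : Type} (B : K ⊕ Bool → Blk) (M : ℕ) : Prop where
  bit : ∀ n, (B (.inl n)).IsBit
  seed : ∀ s, ∃ pr, IsSeedP (B (.inr s)) (pp s) pr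
  big : ∀ n i, M ≤ (B n).P i
  six : ∀ n i, Nat.Coprime 6 ((B n).P i)
  mm : ∀ n n', n ≠ n' → Nat.Coprime (B n).m (B n').m
  mP : ∀ n n' i, Nat.Coprime (B n).m ((B n').P i)
  PP : ∀ n n' i i', (n, i) ≠ (n', i') → Nat.Coprime ((B n).P i) ((B n').P i')

theorem nth_coprime {a b : ℕ} (h : a ≠ b) :
    Nat.Coprime (Nat.nth Nat.Prime a) (Nat.nth Nat.Prime b) :=
  (Nat.coprime_primes (Nat.prime_nth_prime a) (Nat.prime_nth_prime b)).2
    fun h1 => h ((Nat.nth_strictMono Nat.infinite_setOfPred_prime).injective h1)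

theorem exists_goodE (K : Type) [Finite K] (M : ℕ) : ∃ B : K ⊕ Bool → Blk, GoodE B M := by
  classical
  have : Fintype K := Fintype.ofFinite K
  let im : K ⊕ Bool → ℕ := fun n => match n with
    | .inl n => 2 + (Fintype.equivFin K n).val
    | .inr s => if s then 1 else 0
  let ex : K ⊕ Bool → ℕ := fun n => match n with
    | .inl _ => 1
    | .inr _ => 2
  have him : ∀ n n', im n = im n' → n = n' := by
    rintro (n | s) (n' | s') h
    · have h1 : (Fintype.equivFin K n).val = (Fintype.equivFin K n').val := Nat.add_left_cancel h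
      rw [(Fintype.equivFin K).injective (Fin.ext h1)]
    · exfalso
      have h1 : 2 + (Fintype.equivFin K n).val = if s' then 1 else 0 := h
      split_ifs at h1 <;> omega
    · exfalso
      have h1 : (if s then 1 else 0) = 2 + (Fintype.equivFin K n').val := h
      split_ifs at h1 <;> omega
    · have h1 : (if s then 1 else 0) = if s' then 1 else 0 := h
      revert h1
      cases s <;> cases s' <;> simp
  have him1 : ∀ n, im n < Fintype.card K + 2 := by
    rintro (n | s)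
    · have := (Fintype.equivFin K n).isLt
      change 2 + (Fintype.equivFin K n).val < _
      omega
    · change (if s then 1 else 0) < _
      split_ifs <;> omega
  let m : K ⊕ Bool → ℕ := fun n => Nat.nth Nat.Prime (im n) ^ ex n
  obtain ⟨N, hN1, hN2, hN3, hN4⟩ : ∃ N : ℕ, Fintype.card K + 2 ≤ N ∧ M ≤ N ∧ 2 ^ 25 ≤ N ∧
      ∀ n, 2 ^ (2 * m n * m n + 1) ≤ N := by
    refine ⟨Fintype.card K + 2 + M + 2 ^ 25 + ∑ n, 2 ^ (2 * m n * m n + 1), ?_, ?_, ?_,
      fun n => ?_⟩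
    · omega
    · omega
    · omega
    · exact (single_le_sum (f := fun n => 2 ^ (2 * m n * m n + 1)) (fun _ _ => Nat.zero_le _)
        (mem_univ n)).trans (Nat.le_add_left _ _)
  let e : (K ⊕ Bool) × Bool → ℕ := fun x => N + (Fintype.equivFin ((K ⊕ Bool) × Bool) x).val
  have he : ∀ x y, e x = e y → x = y := fun x y h =>
    (Fintype.equivFin ((K ⊕ Bool) × Bool)).injective (Fin.ext (Nat.add_left_cancel h))
  have heN : ∀ x, N ≤ e x := fun x => Nat.le_add_right _ _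
  let P : K ⊕ Bool → Bool → ℕ := fun n i => Nat.nth Nat.Prime (e (n, i))
  have hPN : ∀ n i, N < P n i := by
    intro n i
    have h1 := Nat.add_two_le_nth_prime (e (n, i))
    have h2 := heN (n, i)
    change N < Nat.nth Nat.Prime (e (n, i))
    omega
  have hPP : ∀ n n' i i', (n, i) ≠ (n', i') → Nat.Coprime (P n i) (P n' i') :=
    fun n n' i i' h => nth_coprime fun h1 => h (he _ _ h1)
  have hmP : ∀ n n' i, Nat.Coprime (m n) (P n' i) := by
    intro n n' i
    have h2 := heN (n', i)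
    have h3 := him1 n
    exact Nat.Coprime.pow_left _ (nth_coprime (by omega))
  have hmm : ∀ n n', n ≠ n' → Nat.Coprime (m n) (m n') :=
    fun n n' h => Nat.Coprime.pow _ _ (nth_coprime fun h1 => h (him _ _ h1))
  have hm4 : m (.inr false) = 4 := by
    change Nat.nth Nat.Prime 0 ^ 2 = 4
    rw [Nat.nth_prime_zero_eq_two]
    norm_num
  have hm9 : m (.inr true) = 9 := by
    change Nat.nth Nat.Prime 1 ^ 2 = 9
    rw [Nat.nth_prime_one_eq_three]
    norm_num
  have h3 : ∀ n, 3 ≤ m (.inl n) := by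
    intro n
    have h1 := Nat.add_two_le_nth_prime (2 + (Fintype.equivFin K n).val)
    change 3 ≤ Nat.nth Nat.Prime (2 + (Fintype.equivFin K n).val) ^ 1
    rw [pow_one]
    omega
  clear_value m P
  have hex : ∀ n, ∃ B : Blk, B.m = m n ∧ B.P = P n ∧
      (∀ s, n = .inr s → ∃ pr, IsSeedP B (pp s) pr) ∧ (∀ k, n = .inl k → B.IsBit) := by
    rintro (n | s)
    · obtain ⟨B, h1, h2, h3⟩ := exists_bitBlk (m (.inl n)) (h3 n) (P (.inl n))
        (fun i => (hN4 _).trans_lt (hPN _ i)) (fun i => hmP _ _ i) (hPP _ _ false true (by simp))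
      exact ⟨B, h1, h2, fun s h => by simp at h, fun _ _ => h3⟩
    · cases s
      · obtain ⟨B, h1, h2, h3⟩ := exists_seed2 (P (.inr false)) (fun i => hN3.trans_lt (hPN _ i))
          (fun i => hm4 ▸ hmP (.inr false) _ i) (hPP _ _ false true (by simp))
        refine ⟨B, h1.trans hm4.symm, h2, fun s h => ?_, fun _ h => by simp at h⟩
        obtain rfl : false = s := Sum.inr.inj h
        exact h3
      · obtain ⟨B, h1, h2, h3⟩ := exists_seed3 (P (.inr true)) (fun i => hN3.trans_lt (hPN _ i))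
          (fun i => hm9 ▸ hmP (.inr true) _ i)
        refine ⟨B, h1.trans hm9.symm, h2, fun s h => ?_, fun _ h => by simp at h⟩
        obtain rfl : true = s := Sum.inr.inj h
        exact h3
  choose B hB1 hB2 hB3 hB4 using hex
  refine ⟨B, ⟨fun n => hB4 _ n rfl, fun s => hB3 _ s rfl, fun n i => ?_, fun n i => ?_,
    fun n n' h => ?_, fun n n' i => ?_, fun n n' i i' h => ?_⟩⟩
  · rw [hB2]
    exact hN2.trans (hPN n i).le
  · rw [hB2]
    have h1 := hmP (.inr false) n i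
    have h2 := hmP (.inr true) n i
    rw [hm4] at h1
    rw [hm9] at h2
    exact Nat.Coprime.coprime_dvd_left (by norm_num : 6 ∣ 4 * 9) (Nat.Coprime.mul_left h1 h2)
  · rw [hB1, hB1]
    exact hmm n n' h
  · rw [hB1, hB2]
    exact hmP n n' i
  · rw [hB2, hB2]
    exact hPP n n' i i' h

/-! ### The surjection -/

/-- the moduli -/
def esQ {I : Type} (B : I → Blk) : I × Option Bool → ℕ
  | (n, none) => (B n).m ^ 3
  | (n, some i) => (B n).P i

/-- the residues -/
def esC {I : Type} (B : I → Blk) (t : GF B) : (κ : I × Option Bool) → ZMod (esQ B κ)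
  | (n, none) => (t n).1
  | (n, some i) => (t n).2 i

theorem es_ne {I : Type} (B : I → Blk) : ∀ κ, esQ B κ ≠ 0
  | (n, none) => by
    have := (B n).hm
    exact pow_ne_zero 3 (by omega : (B n).m ≠ 0)
  | (n, some i) => by
    have := (B n).hP i
    exact (by omega : (B n).P i ≠ 0)

theorem es_co {K : Type} {B : K ⊕ Bool → Blk} {M : ℕ} (hB : GoodE B M) :
    Pairwise fun κ κ' => Nat.Coprime (esQ B κ) (esQ B κ') := by
  rintro ⟨n, i⟩ ⟨n', i'⟩ h
  cases i with
  | none =>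
    cases i' with
    | none => exact Nat.Coprime.pow 3 3 (hB.mm n n' fun e => h (by rw [e]))
    | some i' => exact Nat.Coprime.pow_left 3 (hB.mP n n' i')
  | some i =>
    cases i' with
    | none => exact (Nat.Coprime.pow_left 3 (hB.mP n' n i)).symm
    | some i' => exact hB.PP n n' i i' fun e => h (by
        rw [Prod.mk.injEq] at e
        rw [e.1, e.2])

theorem exists_surjE {d : ℕ} (hd : 3 ≤ d) {K : Type} [Finite K] {B : K ⊕ Bool → Blk} {M : ℕ}
    (hB : GoodE B M) : ∃ φ : (Fin d → ℤ) →+ (ℤ × ℤ) × GF B, Function.Surjective φ := by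
  classical
  have : Fintype K := Fintype.ofFinite K
  let i0 : Fin d := ⟨0, by omega⟩
  let i1 : Fin d := ⟨1, by omega⟩
  let i2 : Fin d := ⟨2, by omega⟩
  let φ : (Fin d → ℤ) →+ (ℤ × ℤ) × GF B :=
    { toFun := fun x => ((x i0, x i1), fun n =>
        ((x i2 : ZMod ((B n).m ^ 3)), fun i => (x i2 : ZMod ((B n).P i))))
      map_zero' := by
        ext <;> simp
      map_add' := by
        intro x y
        ext <;> simp }
  refine ⟨φ, ?_⟩
  have crt : ∀ c : (∀ κ, ZMod (esQ B κ)), ∃ z : ℤ, ∀ κ, (z : ZMod (esQ B κ)) = c κ := by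
    intro c
    let r := Nat.chineseRemainderOfFinset (fun κ => (c κ).val) (esQ B)
      (Finset.univ : Finset ((K ⊕ Bool) × Option Bool))
      (fun κ _ => es_ne B κ) (fun i _ j _ hij => es_co hB hij)
    refine ⟨((r : ℕ) : ℤ), fun κ => ?_⟩
    have h1 := r.2 κ (Finset.mem_univ κ)
    have h2 : (((r : ℕ) : ℕ) : ZMod (esQ B κ)) = (((c κ).val : ℕ) : ZMod (esQ B κ)) :=
      (ZMod.natCast_eq_natCast_iff _ _ _).2 h1
    have : NeZero (esQ B κ) := ⟨es_ne B κ⟩
    rw [ZMod.natCast_val, ZMod.cast_id', id] at h2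
    rw [Int.cast_natCast]
    exact h2
  rintro ⟨⟨a, b⟩, c⟩
  obtain ⟨z, hz⟩ := crt (esC B c)
  have n10 : i1 ≠ i0 := by simp [i0, i1, Fin.ext_iff]
  have n20 : i2 ≠ i0 := by simp [i0, i2, Fin.ext_iff]
  have n21 : i2 ≠ i1 := by simp [i1, i2, Fin.ext_iff]
  refine ⟨fun i => if i = i0 then a else if i = i1 then b else z, ?_⟩
  refine Prod.ext (Prod.ext ?_ ?_) ?_
  · change (if i0 = i0 then a else if i0 = i1 then b else z) = a
    rw [if_pos rfl]
  · change (if i1 = i0 then a else if i1 = i1 then b else z) = b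
    rw [if_neg n10, if_pos rfl]
  · funext n
    refine Prod.ext ?_ ?_
    · change (((if i2 = i0 then a else if i2 = i1 then b else z : ℤ)) :
        ZMod ((B n).m ^ 3)) = (c n).1
      rw [if_neg n20, if_neg n21]
      exact hz (n, none)
    · funext i
      change (((if i2 = i0 then a else if i2 = i1 then b else z : ℤ)) :
        ZMod ((B n).P i)) = (c n).2 i
      rw [if_neg n20, if_neg n21]
      exact hz (n, some i)

theorem finite_GJ {I : Type} [Finite I] (B : I → Blk) : Finite (GJ B) := by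
  have h : ∀ n, Finite (KK (B n).m (B n).P) := by
    intro n
    have h1 : NeZero ((B n).m ^ 2) := ⟨pow_ne_zero 2 (by have := (B n).hm; omega)⟩
    have h2 : ∀ i, NeZero ((B n).P i) := fun i => ⟨by have := (B n).hP i; omega⟩
    infer_instance
  infer_instance

/-! ### Clauses given by sets of blocks -/

theorem exists_clause {I : Type} [Finite I] (S : Set I) (hS : S.Nonempty) (l : I → Bool) :
    ∃ k : Clause I, ∀ p : I → Bool → Prop, (∃ i, p (k.c i) (k.l i)) ↔ ∃ n ∈ S, p n (l n) := by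
  have : Nonempty S := hS.to_subtype
  have h0 : 0 < Nat.card S := Nat.card_pos
  obtain ⟨r, hr⟩ : ∃ r, Nat.card S = r + 1 := ⟨Nat.card S - 1, by omega⟩
  let e : S ≃ Fin (r + 1) := Finite.equivFinOfCardEq hr
  refine ⟨⟨r, fun i => (e.symm i).1, fun i => l (e.symm i).1,
    Subtype.val_injective.comp e.symm.injective⟩, fun p => ⟨?_, ?_⟩⟩
  · rintro ⟨i, hi⟩
    exact ⟨_, (e.symm i).2, hi⟩
  · rintro ⟨n, hn, h⟩
    refine ⟨e ⟨n, hn⟩, ?_⟩
    simpa only [Equiv.symm_apply_apply] using h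

theorem exists_clauses {I : Type} [Finite I] (C : Set (Set I × (I → Bool)))
    (hC : ∀ c ∈ C, c.1.Nonempty) :
    ∃ Cl : Set (Clause I), Cl.Finite ∧ ∀ p : I → Bool → Prop,
      (∀ k ∈ Cl, ∃ i, p (k.c i) (k.l i)) ↔ ∀ c ∈ C, ∃ n ∈ c.1, p n (c.2 n) := by
  choose f hf using fun c : C => exists_clause c.1.1 (hC c.1 c.2) c.1.2
  refine ⟨Set.range f, Set.finite_range f, fun p => ⟨fun h c hc => ?_, ?_⟩⟩
  · exact (hf ⟨c, hc⟩ p).1 (h _ ⟨_, rfl⟩)
  · rintro h _ ⟨c, rfl⟩
    exact (hf c p).2 (h c.1 c.2)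

/-! ### Change of the base group -/

section map

variable {I : Type} (B : I → Blk) [DecidableEq I] {X Y : Type} [AddCommGroup X] [AddCommGroup Y]

theorem GFam_forall (u : I → X) (Cl : Set (Clause I)) (p : (GJ B → X × GF B) → Prop) :
    (∀ t ∈ GFam B u Cl, p t) ↔ p (gBase B) ∧ (∀ n, ∀ t ∈ (B n).T, p (gBlock B u n t)) ∧
      (∀ n i, p (gShift B u n i)) ∧ (∀ n n', n ≠ n' → p (gProd B n n')) ∧
      ∀ k ∈ Cl, p (gClause B k.c k.l) := by
  constructor
  · intro hA
    exact ⟨hA _ (Or.inl (Or.inl (Or.inl (Or.inl rfl)))),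
      fun n t ht => hA _ (Or.inl (Or.inl (Or.inl (Or.inr (Set.mem_iUnion.2 ⟨n, ⟨t, ht, rfl⟩⟩))))),
      fun n i => hA _ (Or.inl (Or.inl (Or.inr ⟨(n, i), rfl⟩))),
      fun n n' h => hA _ (Or.inl (Or.inr ⟨n, n', h, rfl⟩)),
      fun k hk => hA _ (Or.inr (Set.mem_iUnion₂.2 ⟨k, hk, rfl⟩))⟩
  · rintro ⟨h1, h2, h3, h4, h5⟩ t ((((ht | ht) | ht) | ht) | ht)
    · rw [Set.mem_singleton_iff] at ht
      subst ht
      exact h1
    · obtain ⟨n, s, hs, rfl⟩ := Set.mem_iUnion.1 ht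
      exact h2 n s hs
    · obtain ⟨⟨n, i⟩, rfl⟩ := ht
      exact h3 n i
    · obtain ⟨n, n', h, rfl⟩ := ht
      exact h4 n n' h
    · obtain ⟨k, hk, rfl⟩ := Set.mem_iUnion₂.1 ht
      exact h5 k hk

theorem GFam_map (f : X →+ Y) (u : I → X) (Cl : Set (Clause I)) (A : Set (Y × GF B)) :
    (∀ t ∈ GFam B u Cl, Solves A fun j => (f (t j).1, (t j).2)) ↔
      ∀ t ∈ GFam B (fun n => f (u n)) Cl, Solves A t := by
  rw [GFam_forall B u Cl fun t => Solves A fun j => (f (t j).1, (t j).2), GFam_forall]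
  have e1 : (fun j => (f (gBase (X := X) B j).1, (gBase (X := X) B j).2)) = gBase B := by
    funext j
    simp only [gBase, map_zero]
  have e2 : ∀ n t, (fun j => (f (gBlock B u n t j).1, (gBlock B u n t j).2)) =
      gBlock B (fun n => f (u n)) n t := by
    intro n t
    funext j
    simp only [gBlock, map_zsmul]
  have e3 : ∀ n i, (fun j => (f (gShift B u n i j).1, (gShift B u n i j).2)) =
      gShift B (fun n => f (u n)) n i := by
    intro n i
    funext j
    simp only [gShift]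
    split_ifs <;> simp only [map_zsmul, map_zero]
  have e4 : ∀ n n', (fun j => (f (gProd (X := X) B n n' j).1, (gProd (X := X) B n n' j).2)) =
      gProd B n n' := by
    intro n n'
    funext j
    simp only [gProd]
    split_ifs <;> simp only [map_zero]
  have e5 : ∀ k : Clause I, (fun j => (f (gClause (X := X) B k.c k.l j).1,
      (gClause (X := X) B k.c k.l j).2)) = gClause B k.c k.l := by
    intro k
    funext j
    simp only [gClause, map_zero]
  simp only [e1, e2, e3, e4, e5]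

end map

/-! ### Lines -/

section lines

variable {I : Type} {B : I → Blk} (u : I → ℤ × ℤ) (pos : I → ℤ × ℤ →+ ℤ)
  (W : (n : I) → ℤ × ℤ → KK (B n).m (B n).P)

/-- row function of the line through `x` -/
def lnV (n : I) (x : ℤ × ℤ) : ℤ → KK (B n).m (B n).P := fun ξ => W n (x - pos n x • u n + ξ • u n)

theorem lnV_pos (n : I) (x : ℤ × ℤ) (ξ : ℤ) :
    lnV u pos W n x (pos n x + ξ) = W n (x + ξ • u n) := by
  rw [lnV, add_smul]
  congr 1
  abel

theorem lnV_pos0 (n : I) (x : ℤ × ℤ) : lnV u pos W n x (pos n x) = W n x := by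
  have h := lnV_pos u pos W n x 0
  rwa [add_zero, zero_smul, add_zero] at h

variable {u pos}

theorem pos_dir (hp : ∀ n, pos n (u n) = 1) (n : I) (x : ℤ × ℤ) (k : ℤ) :
    pos n (x + k • u n) = pos n x + k := by
  rw [map_add, map_zsmul, hp, smul_eq_mul, mul_one]

theorem lnV_dir (hp : ∀ n, pos n (u n) = 1) (n : I) (x : ℤ × ℤ) (k : ℤ) :
    lnV u pos W n (x + k • u n) = lnV u pos W n x := by
  funext ξ
  rw [lnV, lnV, pos_dir hp, add_smul]
  congr 1
  abel

theorem lnV_neu [DecidableEq I] {n : I} {i : Bool} {x : ℤ × ℤ} (h : gNeu B u W n i x) :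
    Neu (B n).θ (lnV u pos W n x) i (pos n x) := by
  intro c
  rw [lnV_pos0, sub_eq_add_neg, lnV_pos, neg_smul, ← sub_eq_add_neg]
  exact h c

end lines

/-! ### The two directions -/

/-- the clauses of a constraint system -/
def encC {J Al : Type} (dec : (Al → Bool) → Al) (Rl : (J → Al) → Prop)
    (reg : Bool → Bool → (J → Al) → Prop) :
    Set (Set ((J × Al) ⊕ Bool) × ((J × Al) ⊕ Bool → Bool)) :=
  {c | (c.1 = Set.range Sum.inl ∧ ¬ Rl fun j => dec fun a => c.2 (.inl (j, a))) ∨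
    ∃ s, c.1 = insert (.inr s) (Set.range Sum.inl) ∧
      ¬ reg s (c.2 (.inr s)) fun j => dec fun a => c.2 (.inl (j, a))}

/-- directions of the blocks -/
def encU {J Al X : Type} (w : J → X) (v : X) : (J × Al) ⊕ Bool → X
  | .inl n => w n.1
  | .inr _ => v

theorem enc_no {J Al : Type} [Fintype J] [Fintype Al] [DecidableEq ((J × Al) ⊕ Bool)]
    (dec : (Al → Bool) → Al) (Rl : (J → Al) → Prop) (reg : Bool → Bool → (J → Al) → Prop)
    {B : (J × Al) ⊕ Bool → Blk}
    (hB : GoodE B (Fintype.card (((J × Al) ⊕ Bool) × Bool) * 10 ^ 8))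
    {Q : ℤ} (hQ : ∀ n i, ((B n).P i : ℤ) ∣ Q) (w : J → ℤ × ℤ)
    (hw : ∀ j, ∃ pos : ℤ × ℤ →+ ℤ, pos (w j) = 1)
    (W : (n : (J × Al) ⊕ Bool) → ℤ × ℤ → KK (B n).m (B n).P)
    (hW1 : ∀ n, ∀ t ∈ (B n).T, ∀ x, Solves (Gr fun ξ : ℤ => W n (x + ξ • encU w (1, 0) n)) t)
    (hW2 : ∀ x, ∀ c ∈ encC dec Rl reg, ∃ n ∈ c.1, gNeu B (encU w (1, 0)) W n (c.2 n) x) :
    ∃ (F : J → ℤ × ℤ → Al) (Ok : ℤ → ℤ → Prop),
      (∀ j x, F j (x + w j) = F j x) ∧ Thin Q (1 / 10 ^ 8) Ok ∧
      (∀ a b, Ok a b → Rl fun j => F j (a, b)) ∧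
      ∀ (s : Bool) (a b : ℤ), (∀ k ∈ range (pp s), Ok (a + (pp s : ℤ) ^ 2 * k) b) →
        ∃ k ∈ range (pp s), ∃ k' ∈ range (pp s),
          reg s false (fun j => F j (a + (pp s : ℤ) ^ 2 * k, b)) ∧
          reg s true (fun j => F j (a + (pp s : ℤ) ^ 2 * k', b)) := by
  choose pos0 hpos0 using hw
  set u : (J × Al) ⊕ Bool → ℤ × ℤ := encU w (1, 0) with hu
  let pos : (J × Al) ⊕ Bool → ℤ × ℤ →+ ℤ := fun n => match n with
    | .inl n => pos0 n.1
    | .inr _ => AddMonoidHom.fst ℤ ℤ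
  have hp : ∀ n, pos n (u n) = 1 := by
    rintro (n | s)
    · exact hpos0 n.1
    · rfl
  let V := lnV u pos W
  have hsol : ∀ n x, ∀ t ∈ (B n).T, Solves (Gr (V n x)) t := fun n x t ht => hW1 n t ht _
  have hVd : ∀ n x (k : ℤ), V n (x + k • u n) = V n x := lnV_dir W hp
  -- data of the bit lines
  have hbit : ∀ (n : J × Al) (U : ℤ → KK (B (.inl n)).m (B (.inl n)).P), ∃ (st : Bool) (g : ℤ),
      (∀ t ∈ (B (.inl n)).T, Solves (Gr U) t) → ∀ ξ, Neu (B (.inl n)).θ U st ξ →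
        ((B (.inl n)).P st : ℤ) ∣ ξ - g := by
    intro n U
    by_cases hU : ∀ t ∈ (B (.inl n)).T, Solves (Gr U) t
    · obtain ⟨st, g, h⟩ := (hB.bit n).1 U hU
      obtain ⟨g', hg'⟩ := ZMod.intCast_surjective g
      refine ⟨st, g', fun _ ξ hξ => ?_⟩
      rw [← ZMod.intCast_eq_intCast_iff_dvd_sub, h ξ hξ, hg']
    · exact ⟨false, 0, fun h => absurd h hU⟩
  choose st g1 hst using hbit
  choose pr hpr using hB.seed
  have hseed : ∀ (s : Bool) (U : ℤ → KK (B (.inr s)).m (B (.inr s)).P),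
      ∃ (e : Bool → ZMod (pp s)) (g : Bool → ℤ),
      (∀ t ∈ (B (.inr s)).T, Solves (Gr U) t) → ∀ i ξ, pr s (U ξ) = e i →
        Neu (B (.inr s)).θ U i ξ → ((B (.inr s)).P i : ℤ) ∣ ξ - g i := by
    intro s U
    by_cases hU : ∀ t ∈ (B (.inr s)).T, Solves (Gr U) t
    · obtain ⟨-, e, g, h⟩ := (hpr s).1 U hU
      choose g' hg' using fun i => ZMod.intCast_surjective (g i)
      refine ⟨e, g', fun _ i ξ h1 h2 => ?_⟩
      rw [← ZMod.intCast_eq_intCast_iff_dvd_sub, h i ξ h1 h2, hg']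
    · exact ⟨fun _ => 0, fun _ => 0, fun h => absurd h hU⟩
  choose e g2 he using hseed
  let gg : (J × Al) ⊕ Bool → Bool → ℤ × ℤ → ℤ := fun n i x => match n with
    | .inl n => g1 n (V (.inl n) x)
    | .inr s => g2 s (V (.inr s) x) i
  have hgg : ∀ n i x (k : ℤ), gg n i (x + k • u n) = gg n i x := by
    rintro (n | s) i x k
    · exact congrArg (g1 n) (hVd _ x k)
    · exact congrArg (fun U => g2 s U i) (hVd _ x k)
  let bt : ℤ × ℤ → J × Al → Bool := fun x n => st n (V (.inl n) x)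
  let Ok : ℤ → ℤ → Prop := fun a b => ∀ p ∈ (univ : Finset (((J × Al) ⊕ Bool) × Bool)),
    ¬ ((B p.1).P p.2 : ℤ) ∣ pos p.1 (a, b) - gg p.1 p.2 (a, b)
  have hw1 : ∀ a b n, Ok a b → ¬ gNeu B u W (.inl n) (bt (a, b) n) (a, b) := fun a b n h h1 =>
    h (.inl n, bt (a, b) n) (mem_univ _) (hst n _ (hsol _ _) _ (lnV_neu W h1))
  have hw2 : ∀ a b s i, Ok a b → pr s (V (.inr s) (a, b) a) = e s (V (.inr s) (a, b)) i →
      ¬ gNeu B u W (.inr s) i (a, b) := fun a b s i h h0 h1 =>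
    h (.inr s, i) (mem_univ _) (he s _ (hsol _ _) i _ h0 (lnV_neu (pos := pos) W h1))
  refine ⟨fun j x => dec fun a => bt x (j, a), Ok, fun j x => ?_, ?_, fun a b h => ?_,
    fun s a b h => ?_⟩
  · refine congrArg dec (funext fun a => ?_)
    have h := hVd (.inl (j, a)) x 1
    rw [one_smul] at h
    exact congrArg (st (j, a)) h
  · have hc : (0 : ℝ) < Fintype.card (((J × Al) ⊕ Bool) × Bool) := by
      exact_mod_cast Fintype.card_pos
    refine (Thin.ball (ε := 1 / (Fintype.card (((J × Al) ⊕ Bool) × Bool) * 10 ^ 8)) univ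
      fun p _ => ?_).le (le_of_eq ?_)
    · have hP := (B p.1).hP p.2
      refine (thin_line (fun a b => ((B p.1).P p.2 : ℤ) ∣ pos p.1 (a, b) - gg p.1 p.2 (a, b))
        (u p.1).1 (u p.1).2 ((B p.1).P p.2) (by omega) (hQ _ _) fun a b =>
          ⟨gg p.1 p.2 (a, b) - pos p.1 (a, b), fun k hk => ?_⟩).le ?_
      · have e1 : (a + k * (u p.1).1, b + k * (u p.1).2) = (a, b) + k • u p.1 := rfl
        rw [e1, pos_dir hp, hgg] at hk
        have e2 : k - (gg p.1 p.2 (a, b) - pos p.1 (a, b)) =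
            pos p.1 (a, b) + k - gg p.1 p.2 (a, b) := by ring
        rwa [e2]
      · refine one_div_le_one_div_of_le (by positivity) ?_
        exact_mod_cast hB.big p.1 p.2
    · rw [card_univ]
      field_simp
  · by_contra hrel
    obtain ⟨_, ⟨n, rfl⟩, hn⟩ := hW2 (a, b)
      (Set.range Sum.inl, Sum.elim (bt (a, b)) fun _ => false) (Or.inl ⟨rfl, hrel⟩)
    exact hw1 a b n h hn
  · have hp0 : NeZero (pp s) := ⟨by cases s <;> simp [pp]⟩
    have hline : ∀ k : ℕ, V (.inr s) (a + (pp s : ℤ) ^ 2 * k, b) = V (.inr s) (a, b) := by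
      intro k
      rw [← hVd (.inr s) (a, b) ((pp s : ℤ) ^ 2 * k)]
      congr 1
      change _ = (a, b) + ((pp s : ℤ) ^ 2 * k) • ((1, 0) : ℤ × ℤ)
      simp
    have hstep : ∀ k : ℕ, pr s (V (.inr s) (a, b) (a + (pp s : ℤ) ^ 2 * k)) =
        pr s (V (.inr s) (a, b) a) + k := by
      intro k
      induction k with
      | zero => simp
      | succ k ih =>
        have h1 := ((hpr s).1 _ (hsol (.inr s) (a, b))).1 (a + (pp s : ℤ) ^ 2 * k)
        rw [ih] at h1
        rw [Nat.cast_succ, Nat.cast_succ, mul_add, mul_one, ← add_assoc, h1, add_assoc]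
    have key : ∀ i, ∃ k ∈ range (pp s),
        reg s i fun j => dec fun a' => bt (a + (pp s : ℤ) ^ 2 * k, b) (j, a') := by
      intro i
      have hk := mem_range.2 (ZMod.val_lt (e s (V (.inr s) (a, b)) i - pr s (V (.inr s) (a, b) a)))
      have hs := hstep (e s (V (.inr s) (a, b)) i - pr s (V (.inr s) (a, b) a)).val
      rw [ZMod.natCast_zmod_val, add_sub_cancel] at hs
      generalize (e s (V (.inr s) (a, b)) i - pr s (V (.inr s) (a, b) a)).val = k at hk hs
      refine ⟨k, hk, ?_⟩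
      by_contra hreg
      obtain ⟨n, hn1, hn⟩ := hW2 (a + (pp s : ℤ) ^ 2 * k, b)
        (insert (.inr s) (Set.range Sum.inl),
          Sum.elim (bt (a + (pp s : ℤ) ^ 2 * k, b)) fun _ => i) (Or.inr ⟨s, rfl, hreg⟩)
      rcases hn1 with rfl | ⟨n, rfl⟩
      · refine hw2 _ _ s i (h k hk) ?_ hn
        rw [hline]
        exact hs
      · exact hw1 _ _ n (h k hk) hn
    obtain ⟨k, hk, h1⟩ := key false
    obtain ⟨k', hk', h2⟩ := key true
    exact ⟨k, hk, k', hk', h1, h2⟩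

theorem enc_yes {J Al : Type} [Finite J] [Finite Al] [DecidableEq ((J × Al) ⊕ Bool)]
    (cod : Al → Al → Bool) (dec : (Al → Bool) → Al) (hdec : ∀ a, dec (cod a) = a)
    (Rl : (J → Al) → Prop) (reg : Bool → Bool → (J → Al) → Prop)
    {B : (J × Al) ⊕ Bool → Blk} {M : ℕ} (hB : GoodE B M) (w : J → ℤ × ℤ)
    (hw : ∀ j, ∃ pos : ℤ × ℤ →+ ℤ, pos (w j) = 1)
    (F : J → ℤ × ℤ → Al) (hF : ∀ j x, F j (x + w j) = F j x) (hR : ∀ x, Rl fun j => F j x)
    (hreg : ∀ (s i : Bool) (x : ℤ × ℤ), (x.1 / (pp s : ℤ) ^ 2) % pp s = (if i then 1 else 0) →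
      reg s i fun j => F j x) :
    ∃ W : (n : (J × Al) ⊕ Bool) → ℤ × ℤ → KK (B n).m (B n).P,
      (∀ n, ∀ t ∈ (B n).T, ∀ x, Solves (Gr fun ξ : ℤ => W n (x + ξ • encU w (1, 0) n)) t) ∧
      (∀ n x, W n (x + (((B n).m : ℤ) * (B n).θ) • encU w (1, 0) n) = W n x) ∧
      ∀ x, ∀ c ∈ encC dec Rl reg, ∃ n ∈ c.1, gNeu B (encU w (1, 0)) W n (c.2 n) x := by
  choose pos hpos using hw
  choose Wb hWb1 hWb2 hWb3 using fun (n : J × Al) (st : Bool) => (hB.bit n).2 st
  choose pr hpr using hB.seed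
  choose Ws hWs1 hWs2 hWs3 using fun s => (hpr s).2
  set u : (J × Al) ⊕ Bool → ℤ × ℤ := encU w (1, 0) with hu
  let W : (n : (J × Al) ⊕ Bool) → ℤ × ℤ → KK (B n).m (B n).P := fun n =>
    match n with
    | .inl n => fun x => Wb n (cod (F n.1 x) n.2) (pos n.1 x)
    | .inr s => fun x => Ws s x.1
  have hWn : ∀ s x (ξ : ℤ), W (.inr s) (x + ξ • u (.inr s)) = Ws s (x.1 + ξ) := by
    intro s x ξ
    change Ws s (x.1 + ξ * 1) = _
    rw [mul_one]
  have hWs : ∀ (n : J × Al) x (ξ : ℤ), W (.inl n) (x + ξ • u (.inl n)) =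
      Wb n (cod (F n.1 x) n.2) (pos n.1 x + ξ) := by
    intro n x ξ
    change Wb n (cod (F n.1 (x + ξ • w n.1)) n.2) (pos n.1 (x + ξ • w n.1)) = _
    rw [map_add, map_zsmul, hpos, smul_eq_mul, mul_one, Z3.rm_dir (F n.1) _ (hF n.1)]
  have hneu : ∀ (n : J × Al) (x : ℤ × ℤ) (s : Bool), s ≠ cod (F n.1 x) n.2 →
      gNeu B u W (.inl n) s x := by
    intro n x s hs c
    have h1 : s = !(cod (F n.1 x) n.2) := by
      revert hs
      cases s <;> cases cod (F n.1 x) n.2 <;> decide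
    have h2 := hWb3 n (cod (F n.1 x) n.2) (pos n.1 x) c
    rw [← h1] at h2
    have h3 := hWs n x (-((c : ℤ) * (B (.inl n)).θ))
    rw [neg_smul, ← sub_eq_add_neg, ← sub_eq_add_neg] at h3
    rw [h3]
    exact h2
  have hneu0 : ∀ (s : Bool) (x : ℤ × ℤ) (i : Bool),
      (x.1 / (pp s : ℤ) ^ 2) % pp s ≠ (if i then 1 else 0) → gNeu B u W (.inr s) i x := by
    intro s x i hi c
    have h2 := hWs3 s i x.1 hi c
    have h3 := hWn s x (-((c : ℤ) * (B (.inr s)).θ))
    rw [neg_smul, ← sub_eq_add_neg, ← sub_eq_add_neg] at h3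
    rw [h3]
    exact h2
  have hall : ∀ (l : (J × Al) ⊕ Bool → Bool) x,
      (∃ n ∈ Set.range (Sum.inl : J × Al → (J × Al) ⊕ Bool), gNeu B u W n (l n) x) ∨
        (fun j => dec fun a => l (.inl (j, a))) = fun j => F j x := by
    intro l x
    by_cases h1 : ∃ n : J × Al, l (.inl n) ≠ cod (F n.1 x) n.2
    · obtain ⟨n, hn⟩ := h1
      exact Or.inl ⟨_, ⟨n, rfl⟩, hneu n x _ hn⟩
    · push Not at h1
      refine Or.inr (funext fun j => ?_)
      rw [← hdec (F j x)]
      exact congrArg dec (funext fun a => h1 (j, a))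
  refine ⟨W, ?_, ?_, ?_⟩
  · rintro (n | s) t ht x
    · simp only [hWs]
      exact myes_solves (hWb1 n _ t ht) _
    · simp only [hWn]
      exact myes_solves (hWs1 s t ht) _
  · rintro (n | s) x
    · exact (hWs n x _).trans (hWb2 _ _ _)
    · exact (hWn s x _).trans (hWs2 _ _)
  · rintro x ⟨S, l⟩ (⟨rfl, ha⟩ | ⟨s, rfl, ha⟩)
    · rcases hall l x with h | h
      · exact h
      · exact absurd (h ▸ hR x) ha
    · rcases hall l x with ⟨n, hn, h⟩ | h
      · exact ⟨n, Or.inr hn, h⟩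
      · refine ⟨_, Or.inl rfl, hneu0 s x _ fun h1 => ha ?_⟩
        exact h ▸ hreg s _ x h1

theorem enc {d : ℕ} (hd : 3 ≤ d) {J Al : Type} [Finite J] [Nonempty J] [Finite Al] [Nonempty Al]
    (Rl : (J → Al) → Prop) (reg : Bool → Bool → (J → Al) → Prop) (w0 w1 : J → ℤ × ℤ) :
    ∃ (Q : ℤ) (P : Type) (_ : Finite P) (c0 c1 : P → Fin d → ℤ), IsCoprime 6 Q ∧ ∀ N : ℤ,
      (∀ j, ∃ pos : ℤ × ℤ →+ ℤ, pos (w0 j + N • w1 j) = 1) →
      ((∃ A, Solves A fun p => c0 p + N • c1 p) →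
        ∃ (F : J → ℤ × ℤ → Al) (Ok : ℤ → ℤ → Prop),
          (∀ j x, F j (x + (w0 j + N • w1 j)) = F j x) ∧ Thin Q (1 / 10 ^ 8) Ok ∧
          (∀ a b, Ok a b → Rl fun j => F j (a, b)) ∧
          ∀ (s : Bool) (a b : ℤ), (∀ k ∈ range (pp s), Ok (a + (pp s : ℤ) ^ 2 * k) b) →
            ∃ k ∈ range (pp s), ∃ k' ∈ range (pp s),
              reg s false (fun j => F j (a + (pp s : ℤ) ^ 2 * k, b)) ∧
              reg s true (fun j => F j (a + (pp s : ℤ) ^ 2 * k', b))) ∧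
      ((∃ F : J → ℤ × ℤ → Al, (∀ j x, F j (x + (w0 j + N • w1 j)) = F j x) ∧
          (∀ x, Rl fun j => F j x) ∧
          ∀ (s i : Bool) (x : ℤ × ℤ), (x.1 / (pp s : ℤ) ^ 2) % pp s = (if i then 1 else 0) →
            reg s i fun j => F j x) →
        ∃ A, Solves A fun p => c0 p + N • c1 p) := by
  classical
  have : Fintype J := Fintype.ofFinite J
  have : Fintype Al := Fintype.ofFinite Al
  obtain ⟨B, hB⟩ := exists_goodE (J × Al) (Fintype.card (((J × Al) ⊕ Bool) × Bool) * 10 ^ 8)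
  let cod : Al → Al → Bool := fun a a' => decide (a' = a)
  have hcod : Function.Injective cod := by
    intro a a' h
    have h1 := congrFun h a
    simpa [cod] using h1
  obtain ⟨dec, hdec⟩ := hcod.hasLeftInverse
  obtain ⟨Cl, hCl, hCl'⟩ := exists_clauses (encC dec Rl reg) (by
    rintro ⟨S, l⟩ (⟨rfl, -⟩ | ⟨s, rfl, -⟩)
    · exact Set.range_nonempty _
    · exact Set.insert_nonempty _ _)
  obtain ⟨φ, hφ⟩ := exists_surjE hd hB
  let u2 : (J × Al) ⊕ Bool → (ℤ × ℤ) × (ℤ × ℤ) := encU (fun j => (w0 j, w1 j)) ((1, 0), 0)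
  have hfin : Finite (GFam B u2 Cl) := GFam_finite B u2 Cl hCl
  have hne : Nonempty (GFam B u2 Cl) := ⟨⟨gBase B, Or.inl (Or.inl (Or.inl (Or.inl rfl)))⟩⟩
  have hJ : Finite (GJ B) := finite_GJ B
  obtain ⟨P, hP, c0, c1, hc⟩ := merge_family (by omega : 0 < d) φ hφ (P := GJ B)
    (ι := GFam B u2 Cl) (fun t p => ((t.1 p).1.1, (t.1 p).2)) (fun t p => ((t.1 p).1.2, 0))
  refine ⟨∏ p : ((J × Al) ⊕ Bool) × Bool, ((B p.1).P p.2 : ℤ), P, hP, c0, c1,
    IsCoprime.prod_right fun p _ => Nat.isCoprime_iff_coprime.2 (hB.six p.1 p.2), fun N hN => ?_⟩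
  let f : (ℤ × ℤ) × (ℤ × ℤ) →+ ℤ × ℤ := AddMonoidHom.fst _ _ + N • AddMonoidHom.snd _ _
  have hf : ∀ y, f y = y.1 + N • y.2 := fun _ => rfl
  have hu : (fun n => f (u2 n)) = encU (fun j => w0 j + N • w1 j) (1, 0) := by
    funext n
    rcases n with n | s
    · rfl
    · rw [hf]
      change (1, 0) + N • (0 : ℤ × ℤ) = (1, 0)
      rw [smul_zero, add_zero]
  have key : (∃ A, Solves A fun p => c0 p + N • c1 p) ↔
      ∃ A, ∀ t ∈ GFam B (encU (fun j => w0 j + N • w1 j) (1, 0)) Cl, Solves A t := by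
    rw [hc N, ← hu]
    refine exists_congr fun A => ?_
    rw [← GFam_map, Subtype.forall]
    refine forall₂_congr fun t _ => ?_
    simp only [hf, Prod.smul_mk, Prod.mk_add_mk, smul_zero, add_zero]
  rw [key]
  refine ⟨?_, ?_⟩
  · rintro ⟨A, hA⟩
    obtain ⟨W, hW1, hW2, -⟩ := global_no B _ Cl A hA
    exact enc_no dec Rl reg hB
      (fun n i => dvd_prod_of_mem (fun p : ((J × Al) ⊕ Bool) × Bool => ((B p.1).P p.2 : ℤ))
        (mem_univ (n, i))) _ hN W hW1
      fun x => (hCl' fun n i => gNeu B _ W n i x).1 fun k hk => hW2 k hk x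
  · rintro ⟨F, h1, h2, h3⟩
    obtain ⟨W, hW1, hW2, hW3⟩ := enc_yes cod dec hdec Rl reg hB _ hN F h1 h2 h3
    exact global_yes B _ Cl W hW1 hW2 fun k hk x =>
      (hCl' fun n i => gNeu B _ W n i x).2 (hW3 x) k hk

end Vale.Agent.N043U
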