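import Vale.Agent.N043U.Digits
import Vale.Agent.N043U.Enc

/-!
# One affine family of tiles simulates the tilings of the quadrant
-/

namespace Vale.Agent.N043U

open Vale.Agent.P043 Finset

/-- the state of a line: digit and residue in base 8 and in base 27, and a tile -/
abbrev Cell (q : Quad) := (ZMod 8 × ZMod 8) × (ZMod 27 × ZMod 27) × q.S

/-- the rule at a point -/
def Rule (q : Quad) (v : Fin 10 → Cell q) : Prop :=
  Rel (v 0).1.1 (v 1).1.1 (v 2).1.1 (v 3).1.1 (v 4).1.1 (v 5).1.1 (v 0).1.2 (v 1).1.2 (v 2).1.2 ∧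
  Rel (v 0).2.1.1 (v 1).2.1.1 (v 2).2.1.1 (v 6).2.1.1 (v 7).2.1.1 (v 8).2.1.1 (v 0).2.1.2
    (v 1).2.1.2 (v 2).2.1.2 ∧
  Dec q (v 0).1.1 (v 1).1.1 (v 2).1.1 (v 3).1.1 (v 9).1.1 (v 0).1.2 (v 1).1.2 (v 0).2.1.1
    (v 1).2.1.1 (v 2).2.1.1 (v 6).2.1.1 (v 0).2.1.2 (v 0).2.2 (v 1).2.2

/-- the regions of the two clocks -/
def Reg (q : Quad) (s i : Bool) (v : Fin 10 → Cell q) : Prop :=
  (if s then (v 0).2.1.2.val / 9 else (v 0).1.2.val / 4) = if i then 1 else 0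

/-- constant part of the directions -/
def dir0 : Fin 10 → ℤ × ℤ :=
  ![(0, -1), (1, 0), (1, -1), (8, -1), (1, -8), (9, -1), (27, -1), (1, -27), (28, -1), (0, -1)]

/-- variable part of the directions -/
def dir1 : Fin 10 → ℤ × ℤ := ![0, 0, 0, 0, 0, 0, 0, 0, 0, (1, 0)]

theorem line_mul {α : Type} (F : ℤ × ℤ → α) (w : ℤ × ℤ) (h : ∀ x, F (x + w) = F x) (k : ℤ) :
    ∀ x, F (x + k • w) = F x := by
  induction k using Int.induction_on with
  | zero => simp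
  | succ n ih => intro x; rw [add_smul, one_smul, ← add_assoc, h, ih]
  | pred n ih =>
    intro x
    rw [← h, ← ih x]
    congr 1
    rw [sub_smul, one_smul]
    abel

theorem lineA {α : Type} (F : ℤ × ℤ → α) (w : ℤ × ℤ) (h : ∀ x, F (x + w) = F x) (c : ℤ)
    (hw : w = (c, -1)) (a b : ℤ) : F (a, b) = F (a + c * b, 0) := by
  rw [← line_mul F w h b (a, b), hw]
  congr 1
  ext <;> simp [mul_comm]

theorem lineB {α : Type} (F : ℤ × ℤ → α) (w : ℤ × ℤ) (h : ∀ x, F (x + w) = F x) (c : ℤ)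
    (hw : w = (1, -c)) (a b : ℤ) : F (a, b) = F (0, b + c * a) := by
  rw [← line_mul F w h (-a) (a, b), hw]
  congr 1
  ext <;> simp [mul_comm]

theorem crt (J : ℕ) (A A' : ℤ) :
    ∃ x x' : ℤ, A + ((8 : ℕ) : ℤ) ^ (J + 1) * x = A' + ((27 : ℕ) : ℤ) ^ (J + 1) * x' := by
  have h : IsCoprime (((8 : ℕ) : ℤ) ^ (J + 1)) (((27 : ℕ) : ℤ) ^ (J + 1)) :=
    (Nat.isCoprime_iff_coprime.2 (by norm_num)).pow
  obtain ⟨u, v, h⟩ := h
  exact ⟨u * (A' - A), -(v * (A' - A)), by linear_combination (A' - A) * h⟩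

theorem family_no (q : Quad) (e : ℕ) {Q : ℤ} (h6 : IsCoprime 6 Q) (F : Fin 10 → ℤ × ℤ → Cell q)
    (Ok : ℤ → ℤ → Prop) (hF : ∀ j x, F j (x + (dir0 j + (8 : ℤ) ^ e • dir1 j)) = F j x)
    (hT : Thin Q (1 / 10 ^ 8) Ok) (hR : ∀ a b, Ok a b → Rule q fun j => F j (a, b))
    (hs : ∀ (s : Bool) (a b : ℤ), (∀ k ∈ range (pp s), Ok (a + (pp s : ℤ) ^ 2 * k) b) →
      ∃ k ∈ range (pp s), ∃ k' ∈ range (pp s),
        Reg q s false (fun j => F j (a + (pp s : ℤ) ^ 2 * k, b)) ∧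
        Reg q s true (fun j => F j (a + (pp s : ℤ) ^ 2 * k', b))) : q.Sol e := by
  have e0 : ∀ a b, F 0 (a, b) = F 0 (a, 0) := fun a b => by
    simpa using lineA (F 0) _ (hF 0) 0 (by simp [dir0, dir1]) a b
  have e1 : ∀ a b, F 1 (a, b) = F 1 (0, b) := fun a b => by
    simpa using lineB (F 1) _ (hF 1) 0 (by simp [dir0, dir1]) a b
  have e2 : ∀ a b, F 2 (a, b) = F 2 (a + b, 0) := fun a b => by
    simpa using lineA (F 2) _ (hF 2) 1 (by simp [dir0, dir1]) a b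
  have e3 := lineA (F 3) _ (hF 3) 8 (by simp [dir0, dir1])
  have e4 := lineB (F 4) _ (hF 4) 8 (by simp [dir0, dir1])
  have e5 := lineA (F 5) _ (hF 5) (8 + 1) (by simp [dir0, dir1])
  have e6 := lineA (F 6) _ (hF 6) 27 (by simp [dir0, dir1])
  have e7 := lineB (F 7) _ (hF 7) 27 (by simp [dir0, dir1])
  have e8 := lineA (F 8) _ (hF 8) (27 + 1) (by simp [dir0, dir1])
  have e9 := lineA (F 9) _ (hF 9) (8 ^ e) (by simp [dir0, dir1])
  obtain ⟨ρ, hρ, h8⟩ := tower (r := 8) (Q := Q) (G := fun a => (F 0 (a, 0)).1.1)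
    (K := fun b => (F 1 (0, b)).1.1) (H := fun c => (F 2 (c, 0)).1.1)
    (L := fun c => (F 3 (c, 0)).1.1) (M := fun c => (F 4 (0, c)).1.1)
    (N := fun c => (F 5 (c, 0)).1.1) (Ca := fun a => (F 0 (a, 0)).1.2)
    (Cb := fun b => (F 1 (0, b)).1.2) (Cab := fun c => (F 2 (c, 0)).1.2) le_rfl (by norm_num)
    (adm8 h6 1 0 _ (by norm_num)) hT (fun a b hab => by
      have := (hR a b hab).1
      simp only [e0 a b, e1 a b, e2 a b, e3 a b, e4 a b, e5 a b] at this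
      exact this) 2 (by norm_num) ((pp false : ℤ) ^ 2) (by decide) fun a b hab => by
      obtain ⟨k, hk, k', hk', h1, h2⟩ := hs false a b hab
      refine ⟨k, hk, k', hk', fun h => ?_⟩
      simp only [Reg, e0 _ b, Bool.false_eq_true, if_false, if_true] at h1 h2
      rw [h] at h1
      omega
  obtain ⟨ρ', hρ', h27⟩ := tower (r := 27) (Q := Q) (G := fun a => (F 0 (a, 0)).2.1.1)
    (K := fun b => (F 1 (0, b)).2.1.1) (H := fun c => (F 2 (c, 0)).2.1.1)
    (L := fun c => (F 6 (c, 0)).2.1.1) (M := fun c => (F 7 (0, c)).2.1.1)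
    (N := fun c => (F 8 (c, 0)).2.1.1) (Ca := fun a => (F 0 (a, 0)).2.1.2)
    (Cb := fun b => (F 1 (0, b)).2.1.2) (Cab := fun c => (F 2 (c, 0)).2.1.2) (by norm_num)
    (by norm_num) (adm8 h6 0 1 _ (by norm_num)) hT (fun a b hab => by
      have := (hR a b hab).2.1
      simp only [e0 a b, e1 a b, e2 a b, e6 a b, e7 a b, e8 a b] at this
      exact this) 3 (by norm_num) ((pp true : ℤ) ^ 2) (by decide) fun a b hab => by
      obtain ⟨k, hk, k', hk', h1, h2⟩ := hs true a b hab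
      refine ⟨k, hk, k', hk', fun h => ?_⟩
      simp only [Reg, e0 _ b, Bool.false_eq_true, if_false, if_true] at h1 h2
      rw [h] at h1
      omega
  refine sol_of_patches q e fun J hJ => ?_
  obtain ⟨A, B, t8⟩ := h8 J
  obtain ⟨A', B', t27⟩ := h27 J
  obtain ⟨x, x', hx⟩ := crt J A A'
  obtain ⟨y, y', hy⟩ := crt J B B'
  have t27' := t27 x' y'
  rw [← hx, ← hy] at t27'
  refine patch q e J h6 (X := fun c => (F 9 (c, 0)).1.1) (D := fun a => (F 0 (a, 0)).2.2)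
    (D' := fun b => (F 1 (0, b)).2.2) hT (fun a b hab => ?_) hρ hρ' (t8 x y) t27' hJ
  have := (hR a b hab).2.2
  simp only [e0 a b, e1 a b, e2 a b, e3 a b, e6 a b, e9 a b] at this
  exact this

/-- the state of the line through the number `n` -/
noncomputable def cell (q : Quad) (T : ℕ → ℕ → q.S) (n : ℤ) : Cell q :=
  (((vd 8 n).2, (n : ZMod 8)), ((vd 27 n).2, (n : ZMod 27)), T (vd 8 n).1 (vd 27 n).1)

/-- the ten linear forms -/
def form (N : ℤ) (j : Fin 10) (A B : ℤ) : ℤ :=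
  ![A, B, A + B, A + 8 * B, B + 8 * A, A + (8 + 1) * B, A + 27 * B, B + 27 * A, A + (27 + 1) * B,
    A + N * B] j

theorem family_yes (q : Quad) (e : ℕ) (h : q.Sol e) :
    ∃ F : Fin 10 → ℤ × ℤ → Cell q, (∀ j x, F j (x + (dir0 j + (8 : ℤ) ^ e • dir1 j)) = F j x) ∧
      (∀ x, Rule q fun j => F j x) ∧
      ∀ (s i : Bool) (x : ℤ × ℤ), (x.1 / (pp s : ℤ) ^ 2) % pp s = (if i then 1 else 0) →
        Reg q s i fun j => F j x := by
  obtain ⟨T, hT⟩ := h
  refine ⟨fun j x => cell q T (form (8 ^ e) j (217 * x.1 - 216) (217 * x.2 - 432)), ?_, ?_, ?_⟩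
  · intro j x
    refine congrArg (cell q T) ?_
    fin_cases j <;> simp [form, dir0, dir1] <;> ring
  · rintro ⟨a, b⟩
    obtain ⟨c, hc⟩ : ∃ c : ℤ, (8 : ℤ) ^ e = 1 + 7 * c := by
      obtain ⟨c, hc⟩ := sub_dvd_pow_sub_pow (8 : ℤ) 1 e
      exact ⟨c, by rw [one_pow] at hc; linear_combination hc⟩
    have h9 : 217 * a - 216 + 8 ^ e * (217 * b - 432) ≠ 0 := by
      rw [hc]
      have : 217 * a - 216 + (1 + 7 * c) * (217 * b - 432) =
        7 * (31 * a + 31 * b + c * (217 * b - 432) - 93) + 3 := by ring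
      omega
    refine ⟨rel_vd (r := 8) (by norm_num) (x := 217 * a - 216) (y := 217 * b - 432) ?_ ?_ ?_ ?_ ?_ ?_,
      rel_vd (r := 27) (by norm_num) (x := 217 * a - 216) (y := 217 * b - 432) ?_ ?_ ?_ ?_ ?_ ?_,
      dec_vd q e hT (x := 217 * a - 216) (y := 217 * b - 432) ?_ ?_ ?_ ?_ ?_ h9⟩ <;>
    push_cast <;> omega
  · rintro s i ⟨a, b⟩ hx
    have v8 : (((217 * a - 216 : ℤ) : ZMod 8).val : ℤ) = a % 8 :=
      (ZMod.val_intCast _).trans (by push_cast; omega)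
    have v27 : (((217 * a - 216 : ℤ) : ZMod 27).val : ℤ) = a % 27 :=
      (ZMod.val_intCast _).trans (by push_cast; omega)
    cases s
    · change ((217 * a - 216 : ℤ) : ZMod 8).val / 4 = _
      have : a / 4 % 2 = if i then 1 else 0 := hx
      generalize ((217 * a - 216 : ℤ) : ZMod 8).val = n at v8 ⊢
      clear v27
      cases i <;> simp only [Bool.false_eq_true, if_false, if_true] at this ⊢ <;> omega
    · change ((217 * a - 216 : ℤ) : ZMod 27).val / 9 = _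
      have : a / 9 % 3 = if i then 1 else 0 := hx
      generalize ((217 * a - 216 : ℤ) : ZMod 27).val = n at v27 ⊢
      clear v8
      cases i <;> simp only [Bool.false_eq_true, if_false, if_true] at this ⊢ <;> omega

theorem family {d : ℕ} (hd : 3 ≤ d) (q : Quad) :
    ∃ (P : Type) (_ : Finite P) (c0 c1 : P → Fin d → ℤ), ∀ e : ℕ,
      (∃ A, Solves A fun x => c0 x + (8 : ℤ) ^ e • c1 x) ↔ q.Sol e := by
  have := q.fin
  rcases isEmpty_or_nonempty q.S with hS | hS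
  · refine ⟨Empty, inferInstance, fun x => x.elim, fun x => x.elim, fun e => iff_of_false ?_ ?_⟩
    · rintro ⟨A, hA⟩
      obtain ⟨x, -⟩ := hA 0
      exact x.elim
    · rintro ⟨T, -⟩
      exact hS.elim (T 0 0)
  obtain ⟨Q, P, hP, c0, c1, h6, h⟩ := enc hd (Rule q) (Reg q) dir0 dir1
  refine ⟨P, hP, c0, c1, fun e => ?_⟩
  obtain ⟨h1, h2⟩ := h (8 ^ e) fun j => by
    by_cases hj : j = 1 ∨ j = 4 ∨ j = 7
    · refine ⟨AddMonoidHom.fst ℤ ℤ, ?_⟩
      rcases hj with rfl | rfl | rfl <;> simp [dir0, dir1]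
    · refine ⟨-AddMonoidHom.snd ℤ ℤ, ?_⟩
      fin_cases j <;> simp [dir0, dir1] at hj ⊢
  refine ⟨fun hA => ?_, fun hq => h2 (family_yes q e hq)⟩
  obtain ⟨F, Ok, a1, a2, a3, a4⟩ := h1 hA
  exact family_no q e h6 F Ok a1 a2 a3 a4

end Vale.Agent.N043U
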