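import Mathlib
import Vale.Agent.P043.Bdl.B2
import Vale.Agent.N043.Defs

/-!
# From an affine family of tiles to a many-one reduction; cubes
-/

namespace Vale.Agent.N043U

open Vale.Agent.P043 MeasureTheory

namespace ReduceAux

lemma primrec_sub {u v : ℕ → ℕ} (hu : Primrec u) (hv : Primrec v) :
    Primrec fun e => ((u e : ℤ) - (v e : ℤ)) := by
  have h1 : Primrec fun n : ℕ => (n : ℤ) :=
    Primrec.encode_iff.1 ((Primrec.nat_mul.comp (Primrec.const 2) Primrec.id).of_eq fun _ => rfl)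
  have h2 : Primrec fun n : ℕ => Int.negSucc n :=
    Primrec.encode_iff.1 ((Primrec.succ.comp
      (Primrec.nat_mul.comp (Primrec.const 2) Primrec.id)).of_eq fun _ => rfl)
  refine (Primrec.ite (Primrec.nat_le.comp hv hu) (h1.comp (Primrec.nat_sub.comp hu hv))
    (h2.comp (Primrec.nat_sub.comp (Primrec.nat_sub.comp hv hu) (Primrec.const 1)))).of_eq
    fun e => ?_
  split_ifs with h <;> omega

lemma primrec_aff (a b : ℤ) : Primrec fun e : ℕ => a + (8 : ℤ) ^ e * b := by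
  have h2 : Primrec fun n : ℕ => 8 ^ n :=
    (Primrec₂.unpaired'.1 Nat.Primrec.pow).comp (Primrec.const 8) Primrec.id
  have h3 : ∀ x y : ℕ, Primrec fun e : ℕ => x + 8 ^ e * y := fun x y =>
    Primrec.nat_add.comp (Primrec.const x) (Primrec.nat_mul.comp h2 (Primrec.const y))
  refine (primrec_sub (h3 a.toNat b.toNat) (h3 (-a).toNat (-b).toNat)).of_eq fun e => ?_
  have e1 : (a.toNat : ℤ) - ((-a).toNat : ℤ) = a := Int.toNat_sub_toNat_neg a
  have e2 : (b.toNat : ℤ) - ((-b).toNat : ℤ) = b := Int.toNat_sub_toNat_neg b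
  push_cast
  linear_combination e1 + 8 ^ e * e2

lemma primrecPred_forall {ι : Type} (l : List ι) {R : ι → ℕ → Prop}
    (h : ∀ i, PrimrecPred (R i)) : PrimrecPred fun e => ∀ i ∈ l, R i e := by
  induction l with
  | nil => exact (Primrec.eq.comp (Primrec.const (0 : ℕ)) (Primrec.const 0)).of_eq (by simp)
  | cons a l ih => exact ((h a).and ih).of_eq (by simp)

lemma solves_iff {G P : Type} [AddCommGroup G] {A T : Set G} {τ : P → G}
    (hτ : Function.Injective τ) (hT : ∀ g, g ∈ T ↔ ∃ p, τ p = g) :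
    AddSubgroup.IsComplement A T ↔ Solves A τ := by
  rw [AddSubgroup.isComplement_iff_existsUnique_add_neg_mem]
  refine forall_congr' fun g => ⟨?_, ?_⟩
  · rintro ⟨⟨t, ht⟩, h1, h2⟩
    obtain ⟨p, rfl⟩ := (hT t).1 ht
    refine ⟨p, by simpa only [sub_eq_add_neg] using h1, fun q hq => hτ ?_⟩
    exact congrArg Subtype.val (h2 ⟨τ q, (hT _).2 ⟨q, rfl⟩⟩ (by simpa only [sub_eq_add_neg] using hq))
  · rintro ⟨p, h1, h2⟩
    refine ⟨⟨τ p, (hT _).2 ⟨p, rfl⟩⟩, by simpa only [sub_eq_add_neg] using h1, ?_⟩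
    rintro ⟨t, ht⟩ h3
    obtain ⟨q, rfl⟩ := (hT t).1 ht
    exact Subtype.ext (congrArg τ (h2 q (by simpa only [sub_eq_add_neg] using h3)))

lemma ae_nonint {d : ℕ} (a : Fin d → ℝ) :
    ∀ᵐ x : Fin d → ℝ, ∀ (i : Fin d) (n : ℤ), x i - a i ≠ n := by
  refine ae_all_iff.2 fun i => ae_all_iff.2 fun n => ?_
  have h := Measure.ae_eval_ne (fun _ : Fin d => (volume : Measure ℝ)) i (n + a i)
  filter_upwards [h] with x hx h1
  exact hx (by linarith)

lemma mem_cubes {d : ℕ} (F : List (Fin d → ℤ)) (a x : Fin d → ℝ) :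
    x ∈ (fun y => a + y) '' (⋃ p ∈ F, Set.Icc (fun i => (p i : ℝ)) (fun i => (p i : ℝ) + 1)) ↔
      ∃ p ∈ F, ∀ i, (p i : ℝ) ≤ x i - a i ∧ x i - a i ≤ p i + 1 := by
  constructor
  · rintro ⟨y, hy, rfl⟩
    obtain ⟨p, hp, h1, h2⟩ := Set.mem_iUnion₂.1 hy
    refine ⟨p, hp, fun i => ?_⟩
    have e : (a + y) i - a i = y i := by simp
    exact ⟨e ▸ h1 i, e ▸ h2 i⟩
  · rintro ⟨p, hp, h⟩
    exact ⟨x - a, Set.mem_iUnion₂.2 ⟨p, hp, fun i => (h i).1, fun i => (h i).2⟩, by simp⟩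

lemma floor_of {t : ℝ} {p : ℤ} (h0 : ∀ n : ℤ, t ≠ n) (h1 : (p : ℝ) ≤ t) (h2 : t ≤ p + 1) :
    ⌊t⌋ = p :=
  Int.floor_eq_iff.2 ⟨h1, lt_of_le_of_ne h2 (by exact_mod_cast h0 (p + 1))⟩

end ReduceAux

open ReduceAux

theorem reduce_of_family {d : ℕ} {P : Type} [Finite P] (c0 c1 : P → Fin d → ℤ) (p : ℕ → Prop)
    (h : ∀ e : ℕ, (∃ A, Solves A fun x => c0 x + (8 : ℤ) ^ e • c1 x) ↔ ¬ p e) :
    p ≤₀ fun F : List (Fin d → ℤ) =>
      ¬ ∃ A : Set (Fin d → ℤ), AddSubgroup.IsComplement A {x | x ∈ F} := by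
  classical
  obtain ⟨n, ⟨σ⟩⟩ := Finite.exists_equiv_fin P
  have hτ : ∀ x, Primrec fun e : ℕ => c0 x + (8 : ℤ) ^ e • c1 x := fun x =>
    Primrec.fin_curry.2 (Primrec.fin_curry₁.2 fun i => primrec_aff (c0 x i) (c1 x i)).swap
  have hinj : PrimrecPred fun e : ℕ =>
      Function.Injective fun x => c0 x + (8 : ℤ) ^ e • c1 x := by
    obtain ⟨l, -, hl⟩ := Finite.exists_univ_list (P × P)
    refine (primrecPred_forall l (R := fun z e =>
      ¬ (c0 z.1 + (8 : ℤ) ^ e • c1 z.1 = c0 z.2 + (8 : ℤ) ^ e • c1 z.2) ∨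
        (σ z.1).val = (σ z.2).val) fun z => ?_).of_eq fun e => ⟨fun h1 x y hxy => ?_, ?_⟩
    · exact (Primrec.eq.comp (hτ z.1) (hτ z.2)).not.or
        (Primrec.eq.comp (Primrec.const _) (Primrec.const _))
    · exact σ.injective (Fin.ext ((h1 (x, y) (hl _)).resolve_left (not_not.2 hxy)))
    · intro h1 z _
      exact or_iff_not_imp_left.2 fun h2 => by rw [h1 (not_not.1 h2)]
  refine ⟨fun e => if Function.Injective fun x => c0 x + (8 : ℤ) ^ e • c1 x then
    List.ofFn fun i => c0 (σ.symm i) + (8 : ℤ) ^ e • c1 (σ.symm i) else [],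
    (Primrec.ite hinj (Primrec.list_ofFn fun i => hτ (σ.symm i)) (Primrec.const [])).to_comp,
    fun e => ?_⟩
  by_cases he : Function.Injective fun x => c0 x + (8 : ℤ) ^ e • c1 x
  · simp only [if_pos he]
    rw [← not_iff_not, not_not, ← h e]
    refine exists_congr fun A => (solves_iff he fun g => ?_).symm
    simp only [Set.mem_ofPred_eq, List.mem_ofFn]
    exact ⟨fun ⟨i, hi⟩ => ⟨_, hi⟩, fun ⟨x, hx⟩ => ⟨σ x, by rw [σ.symm_apply_apply]; exact hx⟩⟩
  · simp only [if_neg he]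
    refine iff_of_true ?_ ?_
    · by_contra hp
      obtain ⟨A, hA⟩ := (h e).2 hp
      refine he fun x y hxy => ?_
      obtain ⟨r, hr, -⟩ := hA 0
      exact (hA ((0 - (c0 r + (8 : ℤ) ^ e • c1 r)) + (c0 x + (8 : ℤ) ^ e • c1 x))).unique
        (by rw [add_sub_cancel_right]; exact hr)
        (by rw [show c0 x + (8 : ℤ) ^ e • c1 x = _ from hxy, add_sub_cancel_right]; exact hr)
    · rintro ⟨A, hA⟩
      obtain ⟨⟨_, t, ht⟩, -⟩ := hA.2 0
      cases ht

theorem not_computable_of_hard {α : Type} [Primcodable α] (q : α → Prop)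
    (h : ∀ p : ℕ → Prop, REPred p → p ≤₀ fun a => ¬ q a) : ¬ ComputablePred q := by
  intro hq
  have h1 : REPred fun n : ℕ =>
      (Nat.Partrec.Code.eval (Denumerable.ofNat Nat.Partrec.Code n) 0).Dom :=
    Partrec.comp (ComputablePred.halting_problem_re 0) (Computable.ofNat _)
  have h2 := ComputablePred.computable_of_manyOneReducible (h _ h1) hq.not
  refine ComputablePred.halting_problem 0 (ComputablePred.computable_of_manyOneReducible
    ⟨Encodable.encode, Computable.encode, fun c => ?_⟩ h2)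
  rw [Denumerable.ofNat_encode]

theorem cubes_iff {d : ℕ} (F : List (Fin d → ℤ)) :
    (∃ A : Set (Fin d → ℝ), Vale.Agent.N043.Tiles
      (⋃ p ∈ F, Set.Icc (fun i => (p i : ℝ)) (fun i => (p i : ℝ) + 1)) A) ↔
    ∃ A : Set (Fin d → ℤ), AddSubgroup.IsComplement A {x | x ∈ F} := by
  set Ω : Set (Fin d → ℝ) := ⋃ p ∈ F, Set.Icc (fun i => (p i : ℝ)) (fun i => (p i : ℝ) + 1)
    with hΩ
  constructor
  · rintro ⟨A, hcov, hdis⟩
    have hΩm : MeasurableSet Ω :=
      MeasurableSet.biUnion (F.finite_toSet.countable) fun _ _ => measurableSet_Icc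
    have hm : ∀ a : Fin d → ℝ, MeasurableSet ((fun y => a + y) '' Ω) := fun a =>
      (MeasurableEquiv.addLeft a).measurableEmbedding.measurableSet_image' hΩm
    obtain ⟨x0, a0, -, hx0⟩ := hcov.exists
    obtain ⟨p0, hp0, -⟩ := (mem_cubes F a0 x0).1 hx0
    have hpos : ∀ a : Fin d → ℝ, 0 < volume ((fun y => a + y) '' Ω) := by
      intro a
      refine lt_of_lt_of_le ?_ (measure_mono (s := Set.Icc (fun i => a i + p0 i)
        fun i => a i + p0 i + 1) fun x hx => (mem_cubes F a x).2 ⟨p0, hp0, fun i => ?_⟩)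
      · simp [Real.volume_Icc_pi]
      · have h1 := hx.1 i
        have h2 := hx.2 i
        constructor <;> linarith
    have hc : Countable A := by
      have := Measure.countable_meas_pos_of_disjoint_iUnion₀ (μ := volume)
        (As := fun a : A => (fun y => a.1 + y) '' Ω) (fun a => (hm a).nullMeasurableSet)
        fun a b hab => hdis a a.2 b b.2 fun e => hab (Subtype.ext e)
      exact Set.countable_univ_iff.1 (this.mono fun a _ => hpos a)
    have htr : ∀ {Q : (Fin d → ℝ) → Prop}, (∀ᵐ x : Fin d → ℝ, Q x) →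
        ∀ᵐ x : Fin d → ℝ, ∀ g : Fin d → ℤ, Q (x + fun i => (g i : ℝ)) := fun hQ =>
      ae_all_iff.2 fun g => (measurePreserving_add_right volume _).quasiMeasurePreserving.ae hQ
    have h2 : ∀ᵐ x : Fin d → ℝ, ∀ a b : A, x ∈ (fun y => a.1 + y) '' Ω →
        x ∈ (fun y => b.1 + y) '' Ω → a = b := by
      refine ae_all_iff.2 fun a => ae_all_iff.2 fun b => ?_
      by_cases hab : a = b
      · exact Filter.Eventually.of_forall fun _ _ _ => hab
      · filter_upwards [measure_eq_zero_iff_ae_notMem.1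
          (hdis a a.2 b b.2 fun e => hab (Subtype.ext e))] with x hx h1 h2
        exact absurd ⟨h1, h2⟩ hx
    have h3 : ∀ᵐ x : Fin d → ℝ, ∀ (a : A) (i : Fin d) (n : ℤ), x i - a.1 i ≠ n :=
      ae_all_iff.2 fun a => ae_nonint a.1
    obtain ⟨x, ⟨k1, k2⟩, k3⟩ := (((htr hcov).and (htr h2)).and h3).exists
    have key : ∀ (a : A) (g : Fin d → ℤ), (x + fun i => (g i : ℝ)) ∈ (fun y => a.1 + y) '' Ω ↔
        ∃ p ∈ F, (fun i => -⌊x i - a.1 i⌋) + p = g := by
      intro a g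
      rw [mem_cubes]
      refine exists_congr fun p => and_congr_right fun _ => ⟨fun h => funext fun i => ?_, ?_⟩
      · have h1 := (h i).1
        have h2 := (h i).2
        simp only [Pi.add_apply] at h1 h2 ⊢
        have := floor_of (p := p i - g i) (k3 a i) (by push_cast; linarith) (by push_cast; linarith)
        omega
      · rintro rfl i
        have h1 := Int.floor_le (x i - a.1 i)
        have h2 := Int.lt_floor_add_one (x i - a.1 i)
        simp only [Pi.add_apply]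
        push_cast
        constructor <;> linarith
    refine ⟨Set.range fun a : A => fun i => -⌊x i - a.1 i⌋,
      AddSubgroup.isComplement_iff_existsUnique.2 fun g => ?_⟩
    obtain ⟨a, ha, hx⟩ := k1 g
    obtain ⟨p, hp, e⟩ := (key ⟨a, ha⟩ g).1 hx
    refine ⟨(⟨_, ⟨a, ha⟩, rfl⟩, ⟨p, hp⟩), e, ?_⟩
    rintro ⟨⟨_, b, rfl⟩, ⟨q, hq⟩⟩ e'
    obtain rfl : b = ⟨a, ha⟩ := k2 g _ _ ((key b g).2 ⟨q, hq, e'⟩) hx
    obtain rfl : q = p := add_left_cancel (e'.trans e.symm)
    rfl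
  · rintro ⟨A, hA⟩
    refine ⟨(fun a : Fin d → ℤ => fun i => (a i : ℝ)) '' A,
      Filter.Eventually.of_forall fun x => ?_, ?_⟩
    · obtain ⟨⟨⟨a, ha⟩, ⟨p, hp⟩⟩, e⟩ := hA.2 fun i => ⌊x i⌋
      refine ⟨_, ⟨a, ha, rfl⟩, (mem_cubes F _ x).2 ⟨p, hp, fun i => ?_⟩⟩
      have h0 : ((a i : ℝ) + p i) = ⌊x i⌋ := by exact_mod_cast congrFun e i
      have h1 := Int.floor_le (x i)
      have h2 := Int.lt_floor_add_one (x i)
      constructor <;> linarith
    · rintro _ ⟨a, ha, rfl⟩ _ ⟨b, hb, rfl⟩ hab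
      refine measure_eq_zero_iff_ae_notMem.2 ?_
      filter_upwards [ae_nonint (0 : Fin d → ℝ)] with x hx hm
      obtain ⟨p, hp, h1⟩ := (mem_cubes F _ x).1 hm.1
      obtain ⟨q, hq, h2⟩ := (mem_cubes F _ x).1 hm.2
      have e : a + p = b + q := by
        funext i
        have e1 := floor_of (p := a i + p i) (hx i) (by push_cast; simp; linarith [(h1 i).1])
          (by push_cast; simp; linarith [(h1 i).2])
        have e2 := floor_of (p := b i + q i) (hx i) (by push_cast; simp; linarith [(h2 i).1])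
          (by push_cast; simp; linarith [(h2 i).2])
        exact e1.symm.trans e2
      have := hA.1 (a₁ := (⟨a, ha⟩, ⟨p, hp⟩)) (a₂ := (⟨b, hb⟩, ⟨q, hq⟩)) e
      exact hab (by rw [show a = b from congrArg (fun z => z.1.1) this])

end Vale.Agent.N043U
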