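import Vale.Agent.N043U.St
import Vale.Agent.N043U.Family
import Vale.Agent.N043U.Reduce
import Vale.Agent.N043U.Decide
import Vale.Agent.N043.Final

/-!
# P043: periodicity and decidability of translational tilings
-/

namespace Vale.Agent.N043U

open MeasureTheory Vale.Agent.N043

theorem tiling_iff {G : Type} [AddCommGroup G] (A F : Set G) :
    St.Tiling A F ↔ AddSubgroup.IsComplement A F := by
  rw [AddSubgroup.isComplement_iff_existsUnique]
  refine forall_congr' fun g => ⟨?_, ?_⟩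
  · rintro ⟨p, ⟨h1, h2, h3⟩, hu⟩
    refine ⟨(⟨p.1, h1⟩, ⟨p.2, h2⟩), h3.symm, fun q hq => ?_⟩
    have := hu (q.1.1, q.2.1) ⟨q.1.2, q.2.2, hq.symm⟩
    exact Prod.ext (Subtype.ext (congrArg Prod.fst this)) (Subtype.ext (congrArg Prod.snd this))
  · rintro ⟨p, h, hu⟩
    refine ⟨(p.1.1, p.2.1), ⟨p.1.2, p.2.2, h.symm⟩, fun q hq => ?_⟩
    have := hu (⟨q.1, hq.1⟩, ⟨q.2, hq.2.1⟩) hq.2.2.symm
    rw [← this]

theorem shift_comm {G : Type} [AddCommGroup G] (h : G) : (fun a => a + h) = fun a => h + a :=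
  funext fun a => add_comm a h

theorem periodic_iff {d : ℕ} (A : Set (Fin d → ℤ)) : St.Periodic A ↔ PeriodicZ A := by
  unfold St.Periodic PeriodicZ
  simp only [shift_comm]

theorem tilingR_iff {d : ℕ} (A Ω : Set (Fin d → ℝ)) : St.TilingR A Ω ↔ Tiles Ω A := by
  unfold St.TilingR Tiles
  simp only [shift_comm]
  refine and_congr ?_ ⟨fun h a ha b hb hab => h ha hb hab, fun h a ha b hb hab => h a ha b hb hab⟩
  rw [ae_iff]
  refine iff_of_eq (congrArg (fun S => volume S = 0) ?_)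
  ext x
  simp only [Set.mem_compl_iff, Set.mem_iUnion, Set.mem_ofPred_eq, exists_prop]

theorem periodicR_iff' {d : ℕ} (A : Set (Fin d → ℝ)) : St.PeriodicR A ↔ PeriodicR A := by
  unfold St.PeriodicR
  simp only [shift_comm]
  constructor
  · rintro ⟨b, hb⟩
    exact ⟨Submodule.span ℤ (Set.range b), inferInstance, inferInstance, hb⟩
  · rintro ⟨L, _, hL, h⟩
    refine ⟨(IsZLattice.basis L).ofZLatticeBasis ℝ L, fun v hv => h v ?_⟩
    rwa [Module.Basis.ofZLatticeBasis_span] at hv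

theorem hard {d : ℕ} (hd : 3 ≤ d) (p : ℕ → Prop) (hp : REPred p) :
    p ≤₀ fun F : List (Fin d → ℤ) =>
      ¬ ∃ A : Set (Fin d → ℤ), AddSubgroup.IsComplement A {x | x ∈ F} := by
  obtain ⟨q, hq⟩ := exists_quad hp
  obtain ⟨P, hP, c0, c1, h⟩ := family hd q
  exact reduce_of_family c0 c1 p fun e => (h e).trans (hq e)

theorem decidable_iff (d : ℕ) : (ComputablePred fun F : List (Fin d → ℤ) =>
    ∃ A : Set (Fin d → ℤ), AddSubgroup.IsComplement A {x | x ∈ F}) ↔ d ≤ 2 := by
  refine ⟨fun h => ?_, fun hd => computable_of_ptc d ((discrete_iff d).2 hd)⟩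
  by_contra hd
  exact not_computable_of_hard _ (hard (by omega)) h

theorem re_or {α : Type} [Primcodable α] {p q : α → Prop} (hp : REPred p) (hq : REPred q) :
    REPred fun a => p a ∨ q a := by
  obtain ⟨k, hk, h⟩ := Partrec.merge' hp hq
  refine hk.dom_re.of_eq fun a => (h a).2.trans ?_
  simp [Part.assert]

theorem re_comp {α β : Type} [Primcodable α] [Primcodable β] {p : β → Prop} (hp : REPred p)
    {f : α → β} (hf : Computable f) : REPred fun a => p (f a) := Partrec.comp hp hf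

open Nat.Partrec in
/-- Kleene's recursion theorem removes the exceptional values of a reduction. -/
theorem avoid {α : Type} [Primcodable α] (T R : α → Prop) (hR : REPred R) (hRT : ∀ a, R a → T a)
    (h : ∀ p : ℕ → Prop, REPred p → p ≤₀ fun a => ¬ T a) (p : ℕ → Prop) (hp : REPred p) :
    ∃ f : ℕ → α, Computable f ∧ ∀ n, (T (f n) ↔ ¬ p n) ∧ ¬ R (f n) := by
  have h0 : REPred fun m : ℕ =>
      (Code.eval (Denumerable.ofNat Code m.unpair.1) m.unpair.2).Dom :=
    (Code.eval_part.comp ((Computable.ofNat Code).comp (Primrec.fst.comp Primrec.unpair).to_comp)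
      (Primrec.snd.comp Primrec.unpair).to_comp).dom_re
  obtain ⟨f0, hf0, hf⟩ := h _ h0
  have hpair : Computable fun x : Code × ℕ => Nat.pair (Encodable.encode x.1) x.2 :=
    (Primrec₂.natPair.comp (Primrec.encode.comp Primrec.fst) Primrec.snd).to_comp
  have h1 : REPred fun x : Code × ℕ => p x.2 ∨ R (f0 (Nat.pair (Encodable.encode x.1) x.2)) :=
    re_or (re_comp hp Computable.snd) (re_comp hR (hf0.comp hpair))
  have h2 : Partrec₂ fun (c : Code) (n : ℕ) =>
      (Part.assert (p n ∨ R (f0 (Nat.pair (Encodable.encode c) n))) fun _ => Part.some ()).map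
        fun _ => (0 : ℕ) := Partrec.map h1 (Computable.const 0).to₂
  obtain ⟨c, hc⟩ := Code.fixed_point₂ h2
  refine ⟨fun n => f0 (Nat.pair (Encodable.encode c) n),
    hf0.comp (hpair.comp ((Computable.const c).pair Computable.id)), fun n => ?_⟩
  have h3 := hf (Nat.pair (Encodable.encode c) n)
  simp only [Nat.unpair_pair, Denumerable.ofNat_encode, hc] at h3
  have h4 : (p n ∨ R (f0 (Nat.pair (Encodable.encode c) n))) ↔
      ¬ T (f0 (Nat.pair (Encodable.encode c) n)) := by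
    refine Iff.trans ?_ h3
    simp [Part.assert]
  have h5 : ¬ R (f0 (Nat.pair (Encodable.encode c) n)) := fun hr => h4.1 (Or.inr hr) (hRT _ hr)
  refine ⟨⟨fun ht hp' => h4.1 (Or.inl hp') ht, fun hp' => ?_⟩, h5⟩
  by_contra ht
  exact (h4.2 ht).elim hp' h5

theorem main_discrete (d : ℕ) :
    (∀ F : Finset (Fin d → ℤ), F.Nonempty → (∃ A, St.Tiling A (F : Set (Fin d → ℤ))) →
      ∃ A, St.Tiling A (F : Set (Fin d → ℤ)) ∧ St.Periodic A) ↔ d ≤ 2 := by
  simp only [tiling_iff, periodic_iff]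
  exact discrete_iff d

theorem main_euclid (d : ℕ) :
    (∀ Ω : Set (Fin d → ℝ), Bornology.IsBounded Ω → NullMeasurableSet Ω → 0 < volume Ω →
      (∃ A, St.TilingR A Ω) → ∃ A, St.TilingR A Ω ∧ St.PeriodicR A) ↔ d ≤ 1 := by
  simp only [tilingR_iff, periodicR_iff']
  exact euclid_iff d

theorem main_dec (d : ℕ) :
    (ComputablePred fun F : List (Fin d → ℤ) => ∃ A, St.Tiling A {x | x ∈ F}) ↔ d ≤ 2 := by
  simp only [tiling_iff]
  exact decidable_iff d

theorem main_cubes (d : ℕ) :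
    (ComputablePred fun F : List (Fin d → ℤ) => ∃ A, St.TilingR A (St.cubes F)) ↔ d ≤ 2 := by
  rw [← decidable_iff d]
  refine iff_of_eq (congrArg ComputablePred (funext fun F => propext ?_))
  simp only [tilingR_iff]
  exact cubes_iff F

theorem main_re (d : ℕ) :
    (REPred fun F : List (Fin d → ℤ) => ¬ ∃ A, St.Tiling A {x | x ∈ F}) ∧
      REPred fun F : List (Fin d → ℤ) => ∃ A, St.Tiling A {x | x ∈ F} ∧ St.Periodic A := by
  simp only [tiling_iff, periodic_iff]
  exact ⟨re_not_tiles d, re_per_tiles d⟩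

theorem main_hard (d : ℕ) (hd : 3 ≤ d) (p : ℕ → Prop) (hp : REPred p) :
    ∃ f : ℕ → List (Fin d → ℤ), Computable f ∧ ∀ n,
      ((∃ A, St.Tiling A {x | x ∈ f n}) ↔ ¬ p n) ∧
      ∀ A, St.Tiling A {x | x ∈ f n} → ¬ St.Periodic A := by
  obtain ⟨f, hf, h⟩ := avoid (fun F : List (Fin d → ℤ) => ∃ A, St.Tiling A {x | x ∈ F})
    (fun F => ∃ A, St.Tiling A {x | x ∈ F} ∧ St.Periodic A) (main_re d).2
    (fun F ⟨A, hA, _⟩ => ⟨A, hA⟩) (by simpa only [tiling_iff] using hard hd) p hp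
  exact ⟨f, hf, fun n => ⟨(h n).1, fun A hA hper => (h n).2 ⟨A, hA, hper⟩⟩⟩

end Vale.Agent.N043U
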