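import Mathlib

/-!
# An invariant mean on the integers, densities, thin sets
-/

namespace Vale.Agent.N043U

open Filter Topology Finset

/-- Cesaro average -/
noncomputable def avg (f : ℤ → ℝ) (n : ℕ) : ℝ := (∑ i ∈ range n, f i) / n

theorem exists_lam : ∃ Λ : (ℤ → ℝ) →ₗ[ℝ] ℝ,
    ∀ f c, Tendsto (avg f) (hyperfilter ℕ) (𝓝 c) → Λ f = c := by
  let S : Submodule ℝ (ℤ → ℝ) :=
    { carrier := {f | ∃ c, Tendsto (avg f) (hyperfilter ℕ) (𝓝 c)}
      add_mem' := by
        rintro f g ⟨c, hc⟩ ⟨d, hd⟩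
        refine ⟨c + d, (hc.add hd).congr fun n => ?_⟩
        simp only [avg, Pi.add_apply, sum_add_distrib, add_div]
      zero_mem' := ⟨0, tendsto_const_nhds.congr fun n => by simp [avg]⟩
      smul_mem' := by
        rintro a f ⟨c, hc⟩
        refine ⟨a * c, (hc.const_mul a).congr fun n => ?_⟩
        simp only [avg, Pi.smul_apply, smul_eq_mul, ← mul_sum, mul_div_assoc] }
  let L0 : S →ₗ[ℝ] ℝ :=
    { toFun := fun f => f.2.choose
      map_add' := by
        intro f g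
        refine tendsto_nhds_unique (f + g).2.choose_spec
          ((f.2.choose_spec.add g.2.choose_spec).congr fun n => ?_)
        simp only [avg, Submodule.coe_add, Pi.add_apply, sum_add_distrib, add_div]
      map_smul' := by
        intro a f
        refine tendsto_nhds_unique (a • f).2.choose_spec
          ((f.2.choose_spec.const_mul a).congr fun n => ?_)
        simp only [avg, Submodule.coe_smul, Pi.smul_apply, smul_eq_mul, ← mul_sum, mul_div_assoc] }
  obtain ⟨Λ, hΛ⟩ := LinearMap.exists_extend L0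
  refine ⟨Λ, fun f c hc => ?_⟩
  have h1 : Λ f = L0 ⟨f, c, hc⟩ := by rw [← hΛ]; rfl
  rw [h1]
  exact tendsto_nhds_unique (Exists.choose_spec (⟨c, hc⟩ : ∃ c, Tendsto (avg f) (hyperfilter ℕ) (𝓝 c))) hc

/-- the mean -/
noncomputable def lam : (ℤ → ℝ) →ₗ[ℝ] ℝ := exists_lam.choose

theorem lam_eq {f : ℤ → ℝ} {c : ℝ} (h : Tendsto (avg f) (hyperfilter ℕ) (𝓝 c)) : lam f = c :=
  exists_lam.choose_spec f c h

/-- bounded functions -/
def Bd (f : ℤ → ℝ) : Prop := ∃ C, ∀ t, |f t| ≤ C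

theorem Bd.unit {f : ℤ → ℝ} (h : ∀ t, 0 ≤ f t ∧ f t ≤ 1) : Bd f :=
  ⟨1, fun t => abs_le.2 ⟨by linarith [(h t).1], (h t).2⟩⟩

theorem Bd.const (c : ℝ) : Bd fun _ => c := ⟨|c|, fun _ => le_rfl⟩

theorem Bd.add {f g : ℤ → ℝ} (hf : Bd f) (hg : Bd g) : Bd fun t => f t + g t := by
  obtain ⟨C, hC⟩ := hf
  obtain ⟨D, hD⟩ := hg
  exact ⟨C + D, fun t => (abs_add_le _ _).trans (add_le_add (hC t) (hD t))⟩

theorem Bd.mul {f : ℤ → ℝ} (hf : Bd f) (a : ℝ) : Bd fun t => a * f t := by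
  obtain ⟨C, hC⟩ := hf
  exact ⟨|a| * C, fun t => by rw [abs_mul]; exact mul_le_mul_of_nonneg_left (hC t) (abs_nonneg a)⟩

theorem Bd.sum {ι : Type} (s : Finset ι) {f : ι → ℤ → ℝ} (hf : ∀ i ∈ s, Bd (f i)) :
    Bd fun t => ∑ i ∈ s, f i t := by
  classical
  induction s using Finset.induction_on with
  | empty => simpa using Bd.const 0
  | insert i s hi ih =>
    simp only [sum_insert hi]
    exact (hf i (mem_insert_self _ _)).add (ih fun j hj => hf j (mem_insert_of_mem hj))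

theorem Bd.comp {f : ℤ → ℝ} (hf : Bd f) (g : ℤ → ℤ) : Bd fun t => f (g t) := by
  obtain ⟨C, hC⟩ := hf
  exact ⟨C, fun t => hC _⟩

theorem avg_abs {f : ℤ → ℝ} {C : ℝ} (h : ∀ t, |f t| ≤ C) (n : ℕ) : |avg f n| ≤ C := by
  have hC : 0 ≤ C := (abs_nonneg _).trans (h 0)
  rcases Nat.eq_zero_or_pos n with rfl | hn
  · simpa [avg] using hC
  · have hn' : (0 : ℝ) < n := by exact_mod_cast hn
    rw [avg, abs_div, abs_of_pos hn', div_le_iff₀ hn']
    refine (abs_sum_le_sum_abs _ _).trans ((sum_le_sum fun (i : ℕ) _ => h i).trans ?_)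
    rw [sum_const, card_range, nsmul_eq_mul, mul_comm]

theorem Bd.tend {f : ℤ → ℝ} (hf : Bd f) : Tendsto (avg f) (hyperfilter ℕ) (𝓝 (lam f)) := by
  obtain ⟨C, hC⟩ := hf
  obtain ⟨c, -, hc⟩ := (isCompact_Icc (a := -C) (b := C)).ultrafilter_le_nhds
    ((hyperfilter ℕ).map (avg f)) (by
      rw [Ultrafilter.coe_map, le_principal_iff, Filter.mem_map]
      exact univ_mem' fun n => abs_le.1 (avg_abs hC n))
  have hc' : Tendsto (avg f) (hyperfilter ℕ) (𝓝 c) := hc
  rw [lam_eq hc']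
  exact hc'

theorem lam_mono {f g : ℤ → ℝ} (hf : Bd f) (hg : Bd g) (h : ∀ t, f t ≤ g t) : lam f ≤ lam g :=
  le_of_tendsto_of_tendsto' hf.tend hg.tend fun n =>
    div_le_div_of_nonneg_right (sum_le_sum fun i _ => h i) (Nat.cast_nonneg n)

theorem hyper_le : (hyperfilter ℕ : Filter ℕ) ≤ atTop := by
  rw [← Nat.cofinite_eq_atTop]
  exact hyperfilter_le_cofinite

theorem lam_const (c : ℝ) : lam (fun _ => c) = c := by
  refine lam_eq (tendsto_const_nhds.congr' ?_)
  filter_upwards [hyper_le (eventually_gt_atTop 0)] with n hn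
  have hn' : (n : ℝ) ≠ 0 := by exact_mod_cast hn.ne'
  rw [avg, sum_const, card_range, nsmul_eq_mul, mul_div_cancel_left₀ _ hn']

theorem lam_add (f g : ℤ → ℝ) : lam (fun t => f t + g t) = lam f + lam g := lam.map_add f g

theorem lam_mul (a : ℝ) (f : ℤ → ℝ) : lam (fun t => a * f t) = a * lam f := lam.map_smul a f

theorem lam_sum {ι : Type} (s : Finset ι) (f : ι → ℤ → ℝ) :
    lam (fun t => ∑ i ∈ s, f i t) = ∑ i ∈ s, lam (f i) := by
  rw [← map_sum]
  congr 1
  funext t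
  rw [Finset.sum_apply]

theorem lam_succ {f : ℤ → ℝ} (hf : Bd f) : lam (fun t => f (t + 1)) = lam f := by
  have h0 := hf.tend
  obtain ⟨C, hC⟩ := hf
  refine lam_eq ?_
  have h1 : Tendsto (fun n : ℕ => (f n - f 0) / (n : ℝ)) (hyperfilter ℕ) (𝓝 0) := by
    refine Tendsto.mono_left ?_ hyper_le
    refine squeeze_zero_norm (a := fun n : ℕ => (2 * C) / (n : ℝ)) (fun n => ?_)
      (tendsto_const_div_atTop_nhds_zero_nat _)
    rw [Real.norm_eq_abs, abs_div, Nat.abs_cast]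
    refine div_le_div_of_nonneg_right ?_ (Nat.cast_nonneg n)
    have := abs_sub (f n) (f 0)
    linarith [hC n, hC 0]
  have h2 := h0.add h1
  rw [add_zero] at h2
  refine h2.congr fun n => ?_
  rw [avg, avg, ← add_div]
  congr 1
  have h3 := sum_range_succ' (fun i : ℕ => f i) n
  rw [sum_range_succ] at h3
  push_cast at h3
  linarith

theorem lam_shift {f : ℤ → ℝ} (hf : Bd f) (k : ℤ) : lam (fun t => f (t + k)) = lam f := by
  induction k using Int.induction_on with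
  | zero => simp
  | succ n ih =>
    rw [← ih, ← lam_succ (hf.comp fun t => t + n)]
    congr 1
    funext t
    congr 1
    ring
  | pred n ih =>
    rw [← ih, ← lam_succ (hf.comp fun t => t + (-(n : ℤ) - 1))]
    congr 1
    funext t
    congr 1
    ring

theorem lam_le {f : ℤ → ℝ} (hf : Bd f) {c : ℝ} (h : ∀ t, f t ≤ c) : lam f ≤ c :=
  (lam_mono hf (Bd.const c) h).trans (lam_const c).le

theorem le_lam {f : ℤ → ℝ} (hf : Bd f) {c : ℝ} (h : ∀ t, c ≤ f t) : c ≤ lam f :=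
  (lam_const c).ge.trans (lam_mono (Bd.const c) hf h)

open Classical in
/-- indicator of the failure of `S` -/
noncomputable def nind (S : Prop) : ℝ := if S then 0 else 1

theorem nind_unit (S : Prop) : 0 ≤ nind S ∧ nind S ≤ 1 := by
  unfold nind; split_ifs <;> norm_num

theorem nind_pos {S : Prop} (h : S) : nind S = 0 := if_pos h

theorem nind_neg {S : Prop} (h : ¬ S) : nind S = 1 := if_neg h

theorem bd_nind (S : ℤ → Prop) : Bd fun t => nind (S t) := Bd.unit fun _ => nind_unit _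

/-- density of the failure set -/
noncomputable def fail (S : ℤ → Prop) : ℝ := lam fun t => nind (S t)

theorem fail_unit (S : ℤ → Prop) : 0 ≤ fail S ∧ fail S ≤ 1 :=
  ⟨le_lam (bd_nind S) fun _ => (nind_unit _).1, lam_le (bd_nind S) fun _ => (nind_unit _).2⟩

theorem fail_mono {S T : ℤ → Prop} (h : ∀ t, S t → T t) : fail T ≤ fail S := by
  refine lam_mono (bd_nind T) (bd_nind S) fun t => ?_
  by_cases hs : S t
  · rw [nind_pos hs, nind_pos (h t hs)]
  · rw [nind_neg hs]; exact (nind_unit _).2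

theorem fail_and (S T : ℤ → Prop) : fail (fun t => S t ∧ T t) ≤ fail S + fail T := by
  rw [fail, fail, fail, ← lam_add]
  refine lam_mono (bd_nind _) ((bd_nind S).add (bd_nind T)) fun t => ?_
  by_cases hs : S t
  · by_cases ht : T t
    · rw [nind_pos ⟨hs, ht⟩, nind_pos hs, nind_pos ht]; norm_num
    · rw [nind_neg ht]; linarith [(nind_unit (S t ∧ T t)).2, (nind_unit (S t)).1]
  · rw [nind_neg hs]; linarith [(nind_unit (S t ∧ T t)).2, (nind_unit (T t)).1]

theorem fail_shift (S : ℤ → Prop) (k : ℤ) : fail (fun t => S (t + k)) = fail S :=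
  lam_shift (bd_nind S) k

theorem fail_const (p : Prop) : fail (fun _ => p) = nind p := lam_const _

/-- `S` holds outside a set of density at most `δ` -/
def Mo (δ : ℝ) (S : ℤ → Prop) : Prop := fail S ≤ δ

theorem Mo.mono {δ : ℝ} {S T : ℤ → Prop} (h : Mo δ S) (hST : ∀ t, S t → T t) : Mo δ T :=
  (fail_mono hST).trans h

theorem Mo.le {δ δ' : ℝ} {S : ℤ → Prop} (h : Mo δ S) (hδ : δ ≤ δ') : Mo δ' S := h.trans hδ

theorem Mo.and {δ δ' : ℝ} {S T : ℤ → Prop} (h : Mo δ S) (h' : Mo δ' T) :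
    Mo (δ + δ') fun t => S t ∧ T t := (fail_and S T).trans (add_le_add h h')

theorem Mo.all {S : ℤ → Prop} (h : ∀ t, S t) : Mo 0 S := by
  refine lam_le (bd_nind S) fun t => (nind_pos (h t)).le

theorem Mo.ex {δ : ℝ} {S : ℤ → Prop} (h : Mo δ S) (hδ : δ < 1) : ∃ t, S t := by
  by_contra hc
  push Not at hc
  have : (1 : ℝ) ≤ fail S := le_lam (bd_nind S) fun t => (nind_neg (hc t)).ge
  exact absurd (this.trans h) (not_le.2 hδ)

theorem Mo.shift {δ : ℝ} {S : ℤ → Prop} (h : Mo δ S) (k : ℤ) : Mo δ fun t => S (t + k) :=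
  (fail_shift S k).le.trans h

theorem Mo.ball {ι : Type} (s : Finset ι) {δ : ℝ} {S : ι → ℤ → Prop} (h : ∀ i ∈ s, Mo δ (S i)) :
    Mo (s.card * δ) fun t => ∀ i ∈ s, S i t := by
  classical
  induction s using Finset.induction_on with
  | empty => simpa using Mo.all (S := fun _ => True) fun _ => trivial
  | insert i s hi ih =>
    have h1 := (h i (mem_insert_self _ _)).and (ih fun j hj => h j (mem_insert_of_mem hj))
    refine (h1.mono fun t ht j hj => ?_).le (le_of_eq ?_)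
    · rcases mem_insert.1 hj with rfl | hj
      · exact ht.1
      · exact ht.2 j hj
    · rw [card_insert_of_notMem hi]; push_cast; ring

theorem bd_fail (S : ℤ → ℤ → Prop) : Bd fun s => fail (S s) := Bd.unit fun _ => fail_unit _

/-- `S s t` holds outside a set of iterated density at most `δ` -/
def Sm (δ : ℝ) (S : ℤ → ℤ → Prop) : Prop := lam (fun s => fail (S s)) ≤ δ

theorem Sm.mono {δ : ℝ} {S T : ℤ → ℤ → Prop} (h : Sm δ S) (hST : ∀ s t, S s t → T s t) : Sm δ T :=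
  (lam_mono (bd_fail T) (bd_fail S) fun s => fail_mono (hST s)).trans h

theorem Sm.le {δ δ' : ℝ} {S : ℤ → ℤ → Prop} (h : Sm δ S) (hδ : δ ≤ δ') : Sm δ' S := h.trans hδ

theorem Sm.and {δ δ' : ℝ} {S T : ℤ → ℤ → Prop} (h : Sm δ S) (h' : Sm δ' T) :
    Sm (δ + δ') fun s t => S s t ∧ T s t := by
  refine le_trans (lam_mono (bd_fail _) ((bd_fail S).add (bd_fail T)) fun s => fail_and _ _) ?_
  rw [lam_add]
  exact add_le_add h h'

theorem Sm.inner {δ : ℝ} {S : ℤ → ℤ → Prop} (h : ∀ s, Mo δ (S s)) : Sm δ S :=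
  lam_le (bd_fail S) h

theorem Sm.outer {δ : ℝ} {S : ℤ → Prop} (h : Mo δ S) : Sm δ fun s _ => S s := by
  unfold Sm
  simp only [fail_const]
  exact h

theorem Sm.all {S : ℤ → ℤ → Prop} (h : ∀ s t, S s t) : Sm 0 S := Sm.inner fun s => Mo.all (h s)

theorem Sm.markov {ε η : ℝ} {S : ℤ → ℤ → Prop} (h : Sm ε S) (hη : 0 < η) :
    Mo (ε / η) fun s => Mo η (S s) := by
  unfold Mo
  rw [le_div_iff₀ hη, mul_comm, fail, ← lam_mul]
  refine le_trans (lam_mono ((bd_nind _).mul η) (bd_fail S) fun s => ?_) h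
  by_cases hs : fail (S s) ≤ η
  · rw [nind_pos hs, mul_zero]; exact (fail_unit _).1
  · rw [nind_neg hs, mul_one]; exact (not_le.1 hs).le

theorem Sm.pick {ε η : ℝ} {S : ℤ → ℤ → Prop} (h : Sm ε S) (hη : 0 < η) (hε : ε < η) :
    ∃ s, Mo η (S s) := (h.markov hη).ex ((div_lt_one hη).2 hε)

theorem Sm.ex {ε : ℝ} {S : ℤ → ℤ → Prop} (h : Sm ε S) (hε : ε < 1 / 2) : ∃ s t, S s t := by
  obtain ⟨s, hs⟩ := h.pick (η := 1 / 2) (by norm_num) hε
  exact ⟨s, hs.ex (by norm_num)⟩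

theorem Sm.ball {ι : Type} (K : Finset ι) {δ : ℝ} {S : ι → ℤ → ℤ → Prop}
    (h : ∀ i ∈ K, Sm δ (S i)) : Sm (K.card * δ) fun s t => ∀ i ∈ K, S i s t := by
  classical
  induction K using Finset.induction_on with
  | empty => simpa using Sm.all (S := fun _ _ => True) fun _ _ => trivial
  | insert i K hi ih =>
    have h1 := (h i (mem_insert_self _ _)).and (ih fun j hj => h j (mem_insert_of_mem hj))
    refine (h1.mono fun s t ht j hj => ?_).le (le_of_eq ?_)
    · rcases mem_insert.1 hj with rfl | hj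
      · exact ht.1
      · exact ht.2 j hj
    · rw [card_insert_of_notMem hi]; push_cast; ring

/-- `S` holds mostly along every progression with difference prime to `Q` -/
def AE (Q : ℤ) (δ : ℝ) (S : ℤ → Prop) : Prop :=
  ∀ m M : ℤ, IsCoprime M Q → Mo δ fun t => S (m + M * t)

/-- `S` holds mostly on every coset of every sublattice of index prime to `Q` -/
def Thin (Q : ℤ) (ε : ℝ) (S : ℤ → ℤ → Prop) : Prop :=
  ∀ a0 a1 a2 b0 b1 b2 : ℤ, IsCoprime (a1 * b2 - a2 * b1) Q →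
    Sm ε fun s t => S (a0 + a1 * s + a2 * t) (b0 + b1 * s + b2 * t)

variable {Q : ℤ} {δ δ' ε : ℝ}

theorem AE.mono {S T : ℤ → Prop} (h : AE Q δ S) (hST : ∀ t, S t → T t) : AE Q δ T :=
  fun m M hM => (h m M hM).mono fun _ => hST _

theorem AE.le {S : ℤ → Prop} (h : AE Q δ S) (hδ : δ ≤ δ') : AE Q δ' S :=
  fun m M hM => (h m M hM).le hδ

theorem AE.and {S T : ℤ → Prop} (h : AE Q δ S) (h' : AE Q δ' T) :
    AE Q (δ + δ') fun t => S t ∧ T t := fun m M hM => (h m M hM).and (h' m M hM)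

theorem AE.mo {S : ℤ → Prop} (h : AE Q δ S) (f : ℤ → ℤ) (M : ℤ) (hM : IsCoprime M Q)
    (hf : ∀ t, f t = f 0 + M * t) : Mo δ fun t => S (f t) :=
  (h (f 0) M hM).mono fun t ht => by rw [hf t]; exact ht

theorem AE.aff {S : ℤ → Prop} (h : AE Q δ S) (f : ℤ → ℤ) (M : ℤ) (hM : IsCoprime M Q)
    (hf : ∀ t, f t = f 0 + M * t) : AE Q δ fun t => S (f t) := fun m M' hM' =>
  h.mo (fun t => f (m + M' * t)) (M * M') (hM.mul_left hM') fun t => by
    rw [hf (m + M' * t), hf (m + M' * 0)]; ring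

theorem AE.inner {S : ℤ → Prop} (h : AE Q δ S) (f : ℤ → ℤ → ℤ) (M : ℤ) (hM : IsCoprime M Q)
    (hf : ∀ s t, f s t = f s 0 + M * t) : Sm δ fun s t => S (f s t) :=
  Sm.inner fun s => h.mo (f s) M hM (hf s)

theorem AE.outer {S : ℤ → Prop} (h : AE Q δ S) (f : ℤ → ℤ) (M : ℤ) (hM : IsCoprime M Q)
    (hf : ∀ s, f s = f 0 + M * s) : Sm δ fun s _ => S (f s) :=
  Sm.outer (h.mo f M hM hf)

theorem Thin.mono {S T : ℤ → ℤ → Prop} (h : Thin Q ε S) (hST : ∀ a b, S a b → T a b) :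
    Thin Q ε T := fun a0 a1 a2 b0 b1 b2 hd => (h a0 a1 a2 b0 b1 b2 hd).mono fun _ _ => hST _ _

theorem Thin.le {S : ℤ → ℤ → Prop} (h : Thin Q ε S) (hδ : ε ≤ δ) : Thin Q δ S :=
  fun a0 a1 a2 b0 b1 b2 hd => (h a0 a1 a2 b0 b1 b2 hd).le hδ

theorem Thin.use {S : ℤ → ℤ → Prop} (h : Thin Q ε S) (f g : ℤ → ℤ → ℤ) (a1 a2 b1 b2 : ℤ)
    (hd : IsCoprime (a1 * b2 - a2 * b1) Q) (hf : ∀ s t, f s t = f 0 0 + a1 * s + a2 * t)
    (hg : ∀ s t, g s t = g 0 0 + b1 * s + b2 * t) : Sm ε fun s t => S (f s t) (g s t) :=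
  (h (f 0 0) a1 a2 (g 0 0) b1 b2 hd).mono fun s t hst => by rw [hf s t, hg s t]; exact hst

theorem Thin.aff {S : ℤ → ℤ → Prop} (h : Thin Q ε S) (A B M : ℤ) (hM : IsCoprime M Q) :
    Thin Q ε fun a b => S (A + M * a) (B + M * b) := fun a0 a1 a2 b0 b1 b2 hd =>
  h.use (fun s t => A + M * (a0 + a1 * s + a2 * t)) (fun s t => B + M * (b0 + b1 * s + b2 * t))
    (M * a1) (M * a2) (M * b1) (M * b2) (by
      have : M * a1 * (M * b2) - M * a2 * (M * b1) = M * (M * (a1 * b2 - a2 * b1)) := by ring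
      rw [this]
      exact hM.mul_left (hM.mul_left hd)) (fun s t => by ring) (fun s t => by ring)

theorem Thin.swap {S : ℤ → ℤ → Prop} (h : Thin Q ε S) : Thin Q ε fun a b => S b a :=
  fun a0 a1 a2 b0 b1 b2 hd => h b0 b1 b2 a0 a1 a2 (by
    have : b1 * a2 - b2 * a1 = -(a1 * b2 - a2 * b1) := by ring
    rw [this]
    exact hd.neg_left)

theorem Thin.ball {ι : Type} (K : Finset ι) {S : ι → ℤ → ℤ → Prop}
    (h : ∀ i ∈ K, Thin Q ε (S i)) : Thin Q (K.card * ε) fun a b => ∀ i ∈ K, S i a b :=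
  fun a0 a1 a2 b0 b1 b2 hd => Sm.ball K fun i hi => h i hi a0 a1 a2 b0 b1 b2 hd

/-- a set that meets every line of direction `u` in one class modulo `P` is thin -/
theorem thin_line (W : ℤ → ℤ → Prop) (u1 u2 : ℤ) (P : ℕ) (hP : 0 < P) (hPQ : (P : ℤ) ∣ Q)
    (hW : ∀ a b, ∃ g : ℤ, ∀ k : ℤ, W (a + k * u1) (b + k * u2) → (P : ℤ) ∣ k - g) :
    Thin Q (1 / P) fun a b => ¬ W a b := by
  intro a0 a1 a2 b0 b1 b2 hd
  have hd' : IsCoprime (a1 * b2 - a2 * b1) (P : ℤ) := hd.of_isCoprime_of_dvd_right hPQ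
  set α := u1 * b2 - u2 * a2 with hα
  set β := a1 * u2 - b1 * u1 with hβ
  set S : ℤ → ℤ → Prop := fun s t => ¬ W (a0 + a1 * s + a2 * t) (b0 + b1 * s + b2 * t) with hS
  have h1 : ∀ k : ℕ, lam (fun s => fail fun t => S (s + k * α) (t + k * β)) =
      lam fun s => fail (S s) := by
    intro k
    rw [← lam_shift (bd_fail S) (k * α)]
    congr 1
    funext s
    exact fail_shift (S (s + k * α)) (k * β)
  have h2 : ∀ s t, ∑ k ∈ range P, nind (S (s + k * α) (t + k * β)) ≤ 1 := by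
    intro s t
    obtain ⟨g, hg⟩ := hW (a0 + a1 * s + a2 * t) (b0 + b1 * s + b2 * t)
    have h3 : ∀ k : ℕ, ¬ S (s + k * α) (t + k * β) → (P : ℤ) ∣ k * (a1 * b2 - a2 * b1) - g := by
      intro k hk
      apply hg
      have h4 := not_not.1 hk
      have e1 : a0 + a1 * (s + k * α) + a2 * (t + k * β) =
          a0 + a1 * s + a2 * t + k * (a1 * b2 - a2 * b1) * u1 := by rw [hα, hβ]; ring
      have e2 : b0 + b1 * (s + k * α) + b2 * (t + k * β) =
          b0 + b1 * s + b2 * t + k * (a1 * b2 - a2 * b1) * u2 := by rw [hα, hβ]; ring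
      rwa [e1, e2] at h4
    by_cases hex : ∃ k ∈ range P, ¬ S (s + k * α) (t + k * β)
    · obtain ⟨k0, hk0, hk0'⟩ := hex
      rw [sum_eq_single_of_mem k0 hk0]
      · exact (nind_unit _).2
      · intro k hk hne
        refine nind_pos (by_contra fun hc => hne ?_)
        have h5 := dvd_sub (h3 k hc) (h3 k0 hk0')
        have e : (k : ℤ) * (a1 * b2 - a2 * b1) - g - (k0 * (a1 * b2 - a2 * b1) - g) =
            (k - k0) * (a1 * b2 - a2 * b1) := by ring
        rw [e] at h5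
        have h6 := hd'.symm.dvd_of_dvd_mul_right h5
        have h7 := mem_range.1 hk
        have h8 := mem_range.1 hk0
        have := Int.eq_zero_of_abs_lt_dvd h6 (by rw [abs_lt]; constructor <;> omega)
        omega
    · push Not at hex
      rw [sum_eq_zero fun k hk => nind_pos (hex k hk)]
      norm_num
  have h3 : (P : ℝ) * lam (fun s => fail (S s)) ≤ 1 := by
    have e : (P : ℝ) * lam (fun s => fail (S s)) =
        ∑ k ∈ range P, lam (fun s => fail fun t => S (s + k * α) (t + k * β)) := by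
      rw [sum_congr rfl fun k _ => h1 k, sum_const, card_range, nsmul_eq_mul]
    rw [e, ← lam_sum]
    refine lam_le (Bd.sum _ fun (k : ℕ) _ => bd_fail fun s t => S (s + k * α) (t + k * β))
      fun s => ?_
    unfold fail
    rw [← lam_sum]
    exact lam_le (Bd.sum _ fun (k : ℕ) _ => bd_nind fun t => S (s + k * α) (t + k * β)) (h2 s)
  have hP' : (0 : ℝ) < P := by exact_mod_cast hP
  unfold Sm
  rw [le_div_iff₀ hP', mul_comm]
  exact h3

end Vale.Agent.N043U
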