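import Vale.Agent.N043U.Mean

/-!
# Rigidity of the line system in base `r`, with a thin set of errors
-/

namespace Vale.Agent.N043U

open Finset

variable {r : ℕ} {Q : ℤ}

/-- the relation between a digit, its neighbour and the digit of the shifted line -/
def R1 (k y y' : ZMod r) : Prop := y' = y + k ∨ y = -k ∨ y' = k

/-- the rules of the nine lines -/
structure Rel (G K H L M N Ca Cb Cab : ZMod r) : Prop where
  clock : Cab = Ca + Cb
  cG : Ca ≠ 0 → G = Ca
  cK : Cb ≠ 0 → K = Cb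
  cH : Cab ≠ 0 → H = Cab
  q1 : H = K → R1 K G L
  q2 : H = G → R1 G K M
  q3 : G = -K → R1 K H N
  q4 : H = G ∨ H = K ∨ H = G + K ∨ G = -K

theorem fresh (hr : 8 ≤ r) (s : Finset (ZMod r)) (hs : s.card < 8) : ∃ w, w ∉ s := by
  have : NeZero r := ⟨by omega⟩
  by_contra h
  push Not at h
  have h1 : s = Finset.univ := Finset.eq_univ_iff_forall.2 h
  rw [h1, Finset.card_univ, ZMod.card] at hs
  omega

theorem star (hr : 8 ≤ r) (E : ZMod r → ZMod r → Prop) (hE : ∀ u, ∃ v, E u v)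
    (hEE : ∀ u v w z, E u v → E w z → u = w ∨ u = z ∨ v = w ∨ v = z) :
    ∃ c, ∀ u v, E u v → u = c ∨ v = c := by
  classical
  obtain ⟨v₀, h₀⟩ := hE 0
  obtain ⟨w₁, hw₁⟩ := fresh hr {0, v₀} (lt_of_le_of_lt Finset.card_le_two (by norm_num))
  simp only [Finset.mem_insert, Finset.mem_singleton, not_or] at hw₁
  obtain ⟨c, hc⟩ := hE w₁
  have hcm : c = 0 ∨ c = v₀ := by
    rcases hEE _ _ _ _ h₀ hc with h | h | h | h
    · exact absurd h.symm hw₁.1
    · exact Or.inl h.symm
    · exact absurd h.symm hw₁.2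
    · exact Or.inr h.symm
  refine ⟨c, fun u v huv => ?_⟩
  have hout : ∀ w, w ≠ 0 → w ≠ v₀ → w ≠ w₁ → E w c := by
    intro w h1 h2 h3
    obtain ⟨x, hx⟩ := hE w
    rcases hEE _ _ _ _ hc hx with h | h | h | h
    · exact absurd h.symm h3
    · rcases hEE _ _ _ _ h₀ hx with h' | h' | h' | h'
      · exact absurd h'.symm h1
      · exact absurd (h.trans h'.symm) hw₁.1
      · exact absurd h'.symm h2
      · exact absurd (h.trans h'.symm) hw₁.2
    · rcases hcm with h' | h'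
      · exact absurd (h.symm.trans h') h1
      · exact absurd (h.symm.trans h') h2
    · rw [h]; exact hx
  by_contra hcon
  push Not at hcon
  obtain ⟨w, hw⟩ := fresh hr {0, v₀, w₁, u, v} (lt_of_le_of_lt Finset.card_le_five (by norm_num))
  simp only [Finset.mem_insert, Finset.mem_singleton, not_or] at hw
  rcases hEE _ _ _ _ huv (hout w hw.1 hw.2.1 hw.2.2.1) with h | h | h | h
  · exact hw.2.2.2.1 h.symm
  · exact hcon.1 h
  · exact hw.2.2.2.2 h.symm
  · exact hcon.2 h

theorem rho_mul (ρ : ℤ →+ ZMod r) (m : ℤ) : ρ (r * m) = 0 := by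
  have : ρ (r * m) = (r : ℕ) • ρ m := by rw [← map_nsmul, nsmul_eq_mul]
  rw [this, nsmul_eq_mul, ZMod.natCast_self, zero_mul]

theorem rho_add_mul (ρ : ℤ →+ ZMod r) (x m : ℤ) : ρ (x + r * m) = ρ x := by
  rw [map_add, rho_mul, add_zero]

theorem rho_rep (hr : 8 ≤ r) (ρ : ℤ →+ ZMod r) (hρ : Function.Surjective ρ) (w : ZMod r) :
    ∃ i ∈ range r, ρ (i : ℕ) = w := by
  obtain ⟨x, rfl⟩ := hρ w
  have h0 : (0 : ℤ) < r := by exact_mod_cast (by omega : 0 < r)
  have h1 := Int.emod_nonneg x h0.ne'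
  have h2 := Int.emod_lt_of_pos x h0
  refine ⟨(x % r).toNat, mem_range.2 (by omega), ?_⟩
  rw [Int.toNat_of_nonneg h1, ← rho_add_mul ρ (x % r) (x / r), Int.emod_add_mul_ediv]

/-- the centre of a family of rows -/
theorem centre (hr : 8 ≤ r) (hr' : r ≤ 100) (hrQ : IsCoprime (r : ℤ) Q) (ρ : ℤ →+ ZMod r)
    (hρ : Function.Surjective ρ) (g l : ℤ → ZMod r) (P : ℤ → ℤ → Prop)
    (hP : Thin Q (1 / 10 ^ 8) P)
    (hq : ∀ α, AE Q (2 / 1000) fun β => P α β → ρ β ≠ ρ α → R1 (ρ β - ρ α) (g α) (l β)) :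
    ∃ c, AE Q (1 / 1000) (fun α => ρ α ≠ c → g α = ρ α - c) ∧
      AE Q (1 / 100) fun β => ρ β ≠ c → l β = ρ β - c := by
  classical
  let Fi : ℤ → Prop := fun α => ∀ i ∈ range r, Mo (1 / 1000) fun t => P α ((i : ℕ) + r * t)
  have hFi : AE Q (1 / 1000) Fi := by
    intro m M hM
    have h1 : ∀ i ∈ range r, Mo (1 / 10 ^ 8 / (1 / 1000)) fun s =>
        Mo (1 / 1000) fun t => P (m + M * s) ((i : ℕ) + r * t) := fun i _ =>
      (hP.use (fun s _ => m + M * s) (fun _ t => (i : ℕ) + r * t) M 0 0 r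
        (by simpa using hM.mul_left hrQ) (fun s t => by ring) (fun s t => by ring)).markov
        (by norm_num)
    refine (Mo.ball (range r) h1).le ?_
    have : (r : ℝ) ≤ 100 := by exact_mod_cast hr'
    rw [card_range]
    linarith
  have hrow : ∀ α, Fi α → ∀ i ∈ range r, Mo (3 / 1000) fun t =>
      ρ (i : ℕ) ≠ ρ α → R1 (ρ (i : ℕ) - ρ α) (g α) (l ((i : ℕ) + r * t)) := by
    intro α hα i hi
    refine (((hα i hi).and (hq α (i : ℕ) r hrQ)).mono fun t ht hne => ?_).le (by norm_num)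
    have := ht.2 ht.1 (by rwa [rho_add_mul])
    rwa [rho_add_mul] at this
  obtain ⟨c, hc⟩ := star hr (fun u v => ∃ α, Fi α ∧ ρ α = u ∧ ρ α - g α = v) (fun u => by
      obtain ⟨x, rfl⟩ := hρ u
      obtain ⟨t, ht⟩ := (hFi x r hrQ).ex (by norm_num)
      exact ⟨_, _, ht, rho_add_mul ρ x t, rfl⟩) (by
      rintro u v w z ⟨α, hα, rfl, rfl⟩ ⟨α', hα', rfl, rfl⟩
      by_contra hcon
      push Not at hcon
      obtain ⟨x, hx⟩ := fresh hr {ρ α, ρ α - g α, ρ α', ρ α' - g α'}
        (lt_of_le_of_lt Finset.card_le_four (by norm_num))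
      simp only [Finset.mem_insert, Finset.mem_singleton, not_or] at hx
      obtain ⟨i, hi, rfl⟩ := rho_rep hr ρ hρ x
      obtain ⟨t, h1, h2⟩ := ((hrow α hα i hi).and (hrow α' hα' i hi)).ex (by norm_num)
      rcases h1 hx.1 with h1 | h1 | h1 <;> rcases h2 hx.2.2.1 with h2 | h2 | h2
      · exact hcon.2.2.2 (by linear_combination h1 - h2)
      · exact hx.2.2.2 (by linear_combination h2)
      · exact hcon.2.2.1 (by linear_combination h1 - h2)
      · exact hx.2.1 (by linear_combination h1)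
      · exact hx.2.1 (by linear_combination h1)
      · exact hx.2.1 (by linear_combination h1)
      · exact hcon.2.1 (by linear_combination h1 - h2)
      · exact hx.2.2.2 (by linear_combination h2)
      · exact hcon.1 (by linear_combination h1 - h2))
  have hg : AE Q (1 / 1000) fun α => ρ α ≠ c → g α = ρ α - c := hFi.mono fun α hα hne => by
    rcases hc _ _ ⟨α, hα, rfl, rfl⟩ with h | h
    · exact absurd h hne
    · linear_combination -h
  refine ⟨c, hg, fun m M hM => ?_⟩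
  have hu : ∀ u, u ≠ c → Mo (3 / 1000) fun t =>
      ρ (m + M * t) ≠ u → R1 (ρ (m + M * t) - u) (u - c) (l (m + M * t)) := by
    intro u hu
    obtain ⟨x, rfl⟩ := hρ u
    have h1 := (hP.use (fun s _ => x + r * s) (fun _ t => m + M * t) r 0 0 M
      (by simpa using hrQ.mul_left hM) (fun s t => by ring) (fun s t => by ring)).markov
      (η := 1 / 1000) (by norm_num)
    obtain ⟨s, h2, h3⟩ := (h1.and (hg x r hrQ)).ex (by norm_num)
    refine ((h2.and (hq (x + r * s) m M hM)).mono fun t ht hne => ?_).le (by norm_num)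
    have h4 := ht.2 ht.1 (by rwa [rho_add_mul])
    rw [h3 (by rwa [rho_add_mul]), rho_add_mul] at h4
    exact h4
  obtain ⟨u1, h1⟩ := fresh hr {c} (by simp)
  obtain ⟨u2, h2⟩ := fresh hr {c, u1} (lt_of_le_of_lt Finset.card_le_two (by norm_num))
  obtain ⟨u3, h3⟩ := fresh hr {c, u1, u2} (lt_of_le_of_lt Finset.card_le_three (by norm_num))
  simp only [Finset.mem_insert, Finset.mem_singleton, not_or] at h1 h2 h3
  refine ((((hu u1 h1).and (hu u2 h2.1)).and (hu u3 h3.1)).mono fun t ht hne => ?_).le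
    (by norm_num)
  obtain ⟨⟨a1, a2⟩, a3⟩ := ht
  by_contra hcon
  have key : ∀ u, (ρ (m + M * t) ≠ u → R1 (ρ (m + M * t) - u) (u - c) (l (m + M * t))) →
      ρ (m + M * t) = u ∨ l (m + M * t) = ρ (m + M * t) - u := by
    intro u h
    by_cases h0 : ρ (m + M * t) = u
    · exact Or.inl h0
    · rcases h h0 with h | h | h
      · exact absurd (by linear_combination h) hcon
      · exact absurd (by linear_combination h) hne
      · exact Or.inr h
  rcases key _ a1 with b1 | b1 <;> rcases key _ a2 with b2 | b2 <;> rcases key _ a3 with b3 | b3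
  · exact h2.2 (b2.symm.trans b1)
  · exact h2.2 (b2.symm.trans b1)
  · exact h3.2.1 (b3.symm.trans b1)
  · exact h3.2.2 (by linear_combination b3 - b2)
  · exact h3.2.2 (b3.symm.trans b2)
  · exact h3.2.1 (by linear_combination b3 - b1)
  · exact h2.2 (by linear_combination b2 - b1)
  · exact h2.2 (by linear_combination b2 - b1)

/-- the rules of one level -/
structure Sys (Q : ℤ) (G K H L M N : ℤ → ZMod r) (Ok : ℤ → ℤ → Prop) : Prop where
  thin : Thin Q (1 / 10 ^ 8) Ok
  q1 : ∀ a b, Ok a b → H (a + b) = K b → R1 (K b) (G a) (L (a + r * b))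
  q2 : ∀ a b, Ok a b → H (a + b) = G a → R1 (G a) (K b) (M (b + r * a))
  q3 : ∀ a b, Ok a b → G a = -K b → R1 (K b) (H (a + b)) (N (a + (r + 1) * b))
  q4 : ∀ a b, Ok a b → H (a + b) = G a ∨ H (a + b) = K b ∨ H (a + b) = G a + K b ∨ G a = -K b

/-- `F` mostly agrees with `ρ` where `ρ` is not zero -/
def Good (Q : ℤ) (δ : ℝ) (ρ : ℤ →+ ZMod r) (F : ℤ → ZMod r) : Prop :=
  AE Q δ fun m => ρ m ≠ 0 → F m = ρ m

variable {G K H L M N : ℤ → ZMod r} {Ok : ℤ → ℤ → Prop}

theorem Sys.aff (h : Sys Q G K H L M N Ok) (A B c : ℤ) (hc : IsCoprime c Q) :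
    Sys Q (fun m => G (A + c * m)) (fun m => K (B + c * m)) (fun m => H (A + B + c * m))
      (fun m => L (A + r * B + c * m)) (fun m => M (B + r * A + c * m))
      (fun m => N (A + (r + 1) * B + c * m)) fun a b => Ok (A + c * a) (B + c * b) := by
  have e1 : ∀ a b, A + B + c * (a + b) = A + c * a + (B + c * b) := fun a b => by ring
  refine ⟨h.thin.aff A B c hc, fun a b hab => ?_, fun a b hab => ?_, fun a b hab => ?_,
    fun a b hab => ?_⟩
  · have e2 : A + r * B + c * (a + r * b) = A + c * a + r * (B + c * b) := by ring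
    rw [e1, e2]; exact h.q1 _ _ hab
  · have e2 : B + r * A + c * (b + r * a) = B + c * b + r * (A + c * a) := by ring
    rw [e1, e2]; exact h.q2 _ _ hab
  · have e2 : A + (r + 1) * B + c * (a + (r + 1) * b) = A + c * a + (r + 1) * (B + c * b) := by
      ring
    rw [e1, e2]; exact h.q3 _ _ hab
  · rw [e1]; exact h.q4 _ _ hab

theorem Good.shift {δ : ℝ} {ρ : ℤ →+ ZMod r} {F : ℤ → ZMod r} (h : Good Q δ ρ F) (k : ℤ)
    (F' : ℤ → ZMod r) (hF : ∀ m, F' m = F (m + r * k)) : Good Q δ ρ F' :=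
  (AE.aff h (fun m => m + r * k) 1 isCoprime_one_left fun t => by ring).mono fun m hm hne => by
    rw [rho_add_mul] at hm
    rw [hF, hm hne]

theorem good_of {δ : ℝ} {ρ : ℤ →+ ZMod r} {F : ℤ → ZMod r} {k : ℤ}
    (h : AE Q δ fun α => ρ α ≠ ρ k → F α = ρ α - ρ k) : Good Q δ ρ fun m => F (m + k) :=
  (AE.aff h (fun m => m + k) 1 isCoprime_one_left fun t => by ring).mono fun m hm hne => by
    rw [map_add] at hm
    exact (hm fun h0 => hne (by linear_combination h0)).trans (by ring)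

theorem Sys.descend (hr : 8 ≤ r) (hr' : r ≤ 100) (hrQ : IsCoprime (r : ℤ) Q) (ρ : ℤ →+ ZMod r)
    (hρ : Function.Surjective ρ) (h : Sys Q G K H L M N Ok) (eG : Good Q (1 / 1000) ρ G)
    (eK : Good Q (1 / 1000) ρ K) (eH : Good Q (1 / 1000) ρ H) :
    ∃ ka kb : ℤ, Good Q (1 / 1000) ρ (fun m => G (r * (m + ka))) ∧
      Good Q (1 / 1000) ρ (fun m => K (r * (m + kb))) ∧
      Good Q (1 / 1000) ρ (fun m => H (r * (m + (ka + kb)))) ∧
      Good Q (1 / 100) ρ fun m => L (r * (m + ka)) := by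
  classical
  have one : IsCoprime (1 : ℤ) Q := isCoprime_one_left
  obtain ⟨cG, hG, hL⟩ := centre hr hr' hrQ ρ hρ (fun α => G (r * α)) (fun β => L (r * β))
    (fun α β => Ok (r * α) (β - α)) (fun a0 a1 a2 b0 b1 b2 hd =>
      h.thin.use (fun s t => r * (a0 + a1 * s + a2 * t))
        (fun s t => b0 + b1 * s + b2 * t - (a0 + a1 * s + a2 * t)) (r * a1) (r * a2) (b1 - a1)
        (b2 - a2) (by
          have : r * a1 * (b2 - a2) - r * a2 * (b1 - a1) = r * (a1 * b2 - a2 * b1) := by ring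
          rw [this]; exact hrQ.mul_left hd) (fun s t => by ring) (fun s t => by ring))
    fun α => by
      refine (((AE.aff eK (fun β => β - α) 1 one fun t => by ring).and
        (AE.aff eH (fun β => r * α + (β - α)) 1 one fun t => by ring)).mono
        fun β hβ hok hne => ?_).le (by norm_num)
      have e1 : ρ (β - α) = ρ β - ρ α := map_sub ρ β α
      have e2 : ρ (r * α + (β - α)) = ρ β - ρ α := by rw [map_add, rho_mul, zero_add, e1]
      rw [e1, e2] at hβ
      have hK := hβ.1 (sub_ne_zero.2 hne)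
      have h3 := h.q1 _ _ hok (by rw [hβ.2 (sub_ne_zero.2 hne), hK])
      have e3 : (r : ℤ) * α + r * (β - α) = r * β := by ring
      rwa [hK, e3] at h3
  obtain ⟨cK, hK, -⟩ := centre hr hr' hrQ ρ hρ (fun α => K (r * α)) (fun β => M (r * β))
    (fun α β => Ok (β - α) (r * α)) (fun a0 a1 a2 b0 b1 b2 hd =>
      h.thin.use (fun s t => b0 + b1 * s + b2 * t - (a0 + a1 * s + a2 * t))
        (fun s t => r * (a0 + a1 * s + a2 * t)) (b1 - a1) (b2 - a2) (r * a1) (r * a2) (by
          have : (b1 - a1) * (r * a2) - (b2 - a2) * (r * a1) = -(r * (a1 * b2 - a2 * b1)) := by ring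
          rw [this]; exact (hrQ.mul_left hd).neg_left) (fun s t => by ring) (fun s t => by ring))
    fun α => by
      refine (((AE.aff eG (fun β => β - α) 1 one fun t => by ring).and
        (AE.aff eH (fun β => (β - α) + r * α) 1 one fun t => by ring)).mono
        fun β hβ hok hne => ?_).le (by norm_num)
      have e1 : ρ (β - α) = ρ β - ρ α := map_sub ρ β α
      rw [rho_add_mul, e1] at hβ
      have hG := hβ.1 (sub_ne_zero.2 hne)
      have h3 := h.q2 _ _ hok (by rw [hβ.2 (sub_ne_zero.2 hne), hG])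
      have e3 : (r : ℤ) * α + r * (β - α) = r * β := by ring
      rwa [hG, e3] at h3
  obtain ⟨cH, hH, -⟩ := centre hr hr' hrQ ρ hρ (fun α => H (r * α)) (fun β => N (r * β))
    (fun α β => Ok (r * α - (β - α)) (β - α)) (fun a0 a1 a2 b0 b1 b2 hd =>
      h.thin.use
        (fun s t => r * (a0 + a1 * s + a2 * t) - (b0 + b1 * s + b2 * t - (a0 + a1 * s + a2 * t)))
        (fun s t => b0 + b1 * s + b2 * t - (a0 + a1 * s + a2 * t)) (r * a1 - (b1 - a1))
        (r * a2 - (b2 - a2)) (b1 - a1) (b2 - a2) (by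
          have : (r * a1 - (b1 - a1)) * (b2 - a2) - (r * a2 - (b2 - a2)) * (b1 - a1) =
            r * (a1 * b2 - a2 * b1) := by ring
          rw [this]; exact hrQ.mul_left hd) (fun s t => by ring) (fun s t => by ring))
    fun α => by
      refine (((AE.aff eK (fun β => β - α) 1 one fun t => by ring).and
        (AE.aff eG (fun β => r * α - (β - α)) (-1) one.neg_left fun t => by ring)).mono
        fun β hβ hok hne => ?_).le (by norm_num)
      have e1 : ρ (β - α) = ρ β - ρ α := map_sub ρ β α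
      have e2 : ρ (r * α - (β - α)) = -(ρ β - ρ α) := by rw [map_sub, rho_mul, zero_sub, e1]
      rw [e1, e2] at hβ
      have hK := hβ.1 (sub_ne_zero.2 hne)
      have h3 := h.q3 _ _ hok (by rw [hβ.2 (neg_ne_zero.2 (sub_ne_zero.2 hne)), hK])
      have e3 : (r : ℤ) * α - (β - α) + (r + 1) * (β - α) = r * β := by ring
      have e4 : (r : ℤ) * α - (β - α) + (β - α) = r * α := by ring
      rwa [hK, e3, e4] at h3
  have hadd : cH = cG + cK := by
    by_contra hne
    have hd : cG + cK - cH ≠ 0 := fun h0 => hne (by linear_combination -h0)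
    obtain ⟨g, hg⟩ := fresh hr {0, -(cG + cK - cH)}
      (lt_of_le_of_lt Finset.card_le_two (by norm_num))
    obtain ⟨k, hk⟩ := fresh hr {0, -(cG + cK - cH), -g, -g - (cG + cK - cH)}
      (lt_of_le_of_lt Finset.card_le_four (by norm_num))
    simp only [Finset.mem_insert, Finset.mem_singleton, not_or] at hg hk
    obtain ⟨x, hx⟩ := hρ (g + cG)
    obtain ⟨y, hy⟩ := hρ (k + cK)
    obtain ⟨s, t, ⟨⟨a1, a2⟩, a3⟩, a4⟩ := ((((hG.outer (fun s => x + r * s) r hrQ
      fun s => by ring).and (hK.inner (fun _ t => y + r * t) r hrQ fun s t => by ring)).and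
      (hH.inner (fun s t => x + y + r * (s + t)) r hrQ fun s t => by ring)).and
      (h.thin.use (fun s _ => r * (x + r * s)) (fun _ t => r * (y + r * t)) (r * r) 0 0 (r * r)
        (by simpa using (hrQ.mul_left hrQ).mul_left (hrQ.mul_left hrQ))
        (fun s t => by ring) (fun s t => by ring))).ex (by norm_num)
    simp only [rho_mul, add_zero, map_add, hx, hy] at a1 a2 a3
    have b1 := a1 fun h0 => hg.1 (by linear_combination h0)
    have b2 := a2 fun h0 => hk.1 (by linear_combination h0)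
    have b3 := a3 fun h0 => hk.2.2.2 (by linear_combination h0)
    have e : (r : ℤ) * (x + r * s) + r * (y + r * t) = r * (x + y + r * (s + t)) := by ring
    have h4 := h.q4 _ _ a4
    rw [e, b1, b2, b3] at h4
    rcases h4 with h4 | h4 | h4 | h4
    · exact hk.2.1 (by linear_combination h4)
    · exact hg.2 (by linear_combination h4)
    · exact hd (by linear_combination h4)
    · exact hk.2.2.1 (by linear_combination h4)
  obtain ⟨ka, rfl⟩ := hρ cG
  obtain ⟨kb, rfl⟩ := hρ cK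
  rw [← map_add] at hadd
  rw [hadd] at hH
  exact ⟨ka, kb, good_of hG, good_of hK, good_of hH, good_of hL⟩

theorem base_aff {Ca Cb Cab : ℤ → ZMod r} (hT : Thin Q (1 / 10 ^ 8) Ok)
    (hc : ∀ a b, Ok a b → Cab (a + b) = Ca a + Cb b) :
    ∃ (ρ : ℤ →+ ZMod r) (ca cb : ZMod r),
      AE Q (1 / 1000) (fun a => Ca a = ρ a + ca ∧ ∃ b, Ok a b) ∧
      AE Q (1 / 1000) (fun b => Cb b = ρ b + cb ∧ ∃ a, Ok a b) ∧
      AE Q (1 / 1000) fun c => Cab c = ρ c + ca + cb ∧ ∃ b, Ok (c - b) b := by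
  have one : IsCoprime (1 : ℤ) Q := isCoprime_one_left
  let f0 : ℤ → Prop := fun a => Mo (1 / 1000) fun b => Ok a b
  let f1 : ℤ → Prop := fun b => Mo (1 / 1000) fun a => Ok a b
  let f2 : ℤ → Prop := fun c => Mo (1 / 1000) fun b => Ok (c - b) b
  have h0 : AE Q (1 / 1000) f0 := fun m M hM =>
    ((hT.use (fun s _ => m + M * s) (fun _ t => t) M 0 0 1 (by simpa using hM)
      (fun s t => by ring) (fun s t => by ring)).markov (η := 1 / 1000) (by norm_num)).le
      (by norm_num)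
  have h1 : AE Q (1 / 1000) f1 := fun m M hM =>
    ((hT.use (fun _ t => t) (fun s _ => m + M * s) 0 1 M 0 (by simpa using hM.neg_left)
      (fun s t => by ring) (fun s t => by ring)).markov (η := 1 / 1000) (by norm_num)).le
      (by norm_num)
  have h2 : AE Q (1 / 1000) f2 := fun m M hM =>
    ((hT.use (fun s t => m + M * s - t) (fun _ t => t) M (-1) 0 1 (by simpa using hM)
      (fun s t => by ring) (fun s t => by ring)).markov (η := 1 / 1000) (by norm_num)).le
      (by norm_num)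
  have m0 : ∀ t, Mo (1 / 1000) fun a => f0 (a + t) := fun t =>
    h0.mo (fun a => a + t) 1 one fun a => by ring
  have three : ∀ t t' : ℤ, ∃ a, f0 a ∧ f0 (a + t) ∧ f0 (a + t') := by
    intro t t'
    obtain ⟨a, ⟨a1, a2⟩, a3⟩ := (((m0 0).and (m0 t)).and (m0 t')).ex (by norm_num)
    exact ⟨a, by simpa using a1, a2, a3⟩
  have diff : ∀ t a a' : ℤ, f0 a → f0 (a + t) → f0 a' → f0 (a' + t) →
      Ca (a + t) - Ca a = Ca (a' + t) - Ca a' := by
    intro t a a' a1 a2 a3 a4
    obtain ⟨b, ⟨⟨b1, b2⟩, b3⟩, b4⟩ :=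
      (((a1.and (Mo.shift a2 (-t))).and a3).and (Mo.shift a4 (-t))).ex (by norm_num)
    have c1 := hc _ _ b1
    have c2 := hc _ _ b2
    have c3 := hc _ _ b3
    have c4 := hc _ _ b4
    have e : ∀ x : ℤ, x + t + (b + -t) = x + b := fun x => by ring
    rw [e] at c2 c4
    linear_combination c4 - c2 + c1 - c3
  have hd : ∀ t : ℤ, ∃ d, ∀ a, f0 a → f0 (a + t) → Ca (a + t) - Ca a = d := by
    intro t
    obtain ⟨a, a1, a2, -⟩ := three t t
    exact ⟨_, fun a' a3 a4 => diff t a' a a3 a4 a1 a2⟩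
  choose lm hlm using hd
  have hadd : ∀ t t', lm (t + t') = lm t + lm t' := by
    intro t t'
    obtain ⟨a, a1, a2, a3⟩ := three t (t + t')
    have e1 := hlm t a a1 a2
    have e2 := hlm (t + t') a a1 a3
    have e3 := hlm t' (a + t) a2 (by rwa [add_assoc])
    rw [add_assoc] at e3
    linear_combination e1 - e2 + e3
  let ρ : ℤ →+ ZMod r := AddMonoidHom.mk' lm hadd
  have hρ : ∀ t, lm t = ρ t := fun t => rfl
  obtain ⟨a₀, ha₀, -, -⟩ := three 0 0
  obtain ⟨b₀, hb₀⟩ := (h1.mo (fun b => b) 1 one fun a => by ring).ex (by norm_num)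
  have hA : ∀ a, f0 a → Ca a = ρ a + (Ca a₀ - ρ a₀) := by
    intro a ha
    have e1 := hlm (a - a₀) a₀ ha₀ (by rwa [add_sub_cancel])
    rw [add_sub_cancel, hρ, map_sub] at e1
    linear_combination e1
  have hB : ∀ b, f1 b → Cb b = ρ b + (Cb b₀ - ρ b₀) := by
    intro b hb
    obtain ⟨a, ⟨⟨a1, a2⟩, a3⟩, a4⟩ := ((((m0 0).and (m0 (b - b₀))).and hb).and
      (Mo.shift hb₀ (b - b₀))).ex (by norm_num)
    rw [add_zero] at a1
    have c1 := hc _ _ a3
    have c2 := hc _ _ a4
    have e : a + (b - b₀) + b₀ = a + b := by ring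
    rw [e, c1] at c2
    have e1 := hlm (b - b₀) a a1 a2
    rw [hρ, map_sub] at e1
    linear_combination c2 + e1
  refine ⟨ρ, Ca a₀ - ρ a₀, Cb b₀ - ρ b₀, h0.mono fun a ha => ⟨hA a ha, Mo.ex ha (by norm_num)⟩,
    h1.mono fun b hb => ⟨hB b hb, Mo.ex hb (by norm_num)⟩,
    h2.mono fun c hc' => ⟨?_, Mo.ex hc' (by norm_num)⟩⟩
  obtain ⟨b, ⟨b1, b2⟩, b3⟩ := (((h0.mo (fun b => c - b) (-1) one.neg_left fun a => by ring).and
    (h1.mo (fun b => b) 1 one fun a => by ring)).and hc').ex (by norm_num)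
  have c1 := hc _ _ b3
  rw [sub_add_cancel] at c1
  rw [c1, hA _ b1, hB _ b2, map_sub]
  ring

/-- the digits of the lines up to level `J`, around the centre `(A, B)` -/
structure Tower (Q : ℤ) (ρ : ℤ →+ ZMod r) (G K H L Ca Cb : ℤ → ZMod r) (J : ℕ) (A B : ℤ) :
    Prop where
  g : ∀ j ≤ J, Good Q (1 / 100) ρ fun m => G (A + r ^ j * m)
  k : ∀ j ≤ J, Good Q (1 / 100) ρ fun m => K (B + r ^ j * m)
  h : ∀ j ≤ J, Good Q (1 / 100) ρ fun m => H (A + B + r ^ j * m)
  l : ∀ j, j + 1 ≤ J → Good Q (1 / 100) ρ fun m => L (A + r * B + r ^ (j + 1) * m)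
  ca : AE Q (1 / 100) fun m => Ca (A + m) = ρ m
  cb : AE Q (1 / 100) fun m => Cb (B + m) = ρ m

theorem good_move {δ : ℝ} {ρ : ℤ →+ ZMod r} {F : ℤ → ZMod r} {A : ℤ} {j J : ℕ} (hj : j ≤ J)
    (h : Good Q δ ρ fun m => F (A + r ^ j * m)) (A' x : ℤ) (hA : A' = A + r ^ (J + 1) * x) :
    Good Q δ ρ fun m => F (A' + r ^ j * m) := by
  obtain ⟨i, rfl⟩ := Nat.exists_eq_add_of_le hj
  refine h.shift (r ^ i * x) _ fun m => ?_
  rw [hA]
  congr 1
  ring

theorem tower (hr : 8 ≤ r) (hr' : r ≤ 100) (hrQ : IsCoprime (r : ℤ) Q) {Ca Cb Cab : ℤ → ZMod r}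
    (hT : Thin Q (1 / 10 ^ 8) Ok)
    (hR : ∀ a b, Ok a b → Rel (G a) (K b) (H (a + b)) (L (a + r * b)) (M (b + r * a))
      (N (a + (r + 1) * b)) (Ca a) (Cb b) (Cab (a + b)))
    (p : ℕ) (hp : p ≤ 10) (q : ℤ) (hu : ∀ l : ZMod r, (q : ZMod r) * l ≠ 0 → ∃ l', l' * l = 1)
    (hs : ∀ a b, (∀ k ∈ range p, Ok (a + q * k) b) →
      ∃ k ∈ range p, ∃ k' ∈ range p, Ca (a + q * k) ≠ Ca (a + q * k')) :
    ∃ ρ : ℤ →+ ZMod r, (∃ l', l' * ρ 1 = 1) ∧ ∀ J, ∃ A B, ∀ x y,
      Tower Q ρ G K H L Ca Cb J (A + r ^ (J + 1) * x) (B + r ^ (J + 1) * y) := by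
  have one : IsCoprime (1 : ℤ) Q := isCoprime_one_left
  obtain ⟨ρ, ca, cb, hA, hB, hC⟩ := base_aff hT fun a b hab => (hR a b hab).clock
  have hlin : ∀ m : ℤ, ρ m = m * ρ 1 := fun m => by
    rw [← zsmul_eq_mul, ← map_zsmul, smul_eq_mul, mul_one]
  have hq : ρ q ≠ 0 := by
    intro h0
    have h1 : ∀ k ∈ range p, Sm (1 / 10 ^ 8 + 1 / 1000) fun s t =>
        Ok (t + q * k) s ∧ (Ca (t + q * k) = ρ (t + q * k) + ca ∧ ∃ b, Ok (t + q * k) b) :=
      fun k _ => (hT.use (fun _ t => t + q * k) (fun s _ => s) 0 1 1 0 (by simpa using one.neg_left)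
        (fun s t => by ring) (fun s t => by ring)).and
        (hA.inner (fun _ t => t + q * k) 1 one fun s t => by ring)
    obtain ⟨s, t, h2⟩ := (Sm.ball (range p) h1).ex (by
      have : (p : ℝ) ≤ 10 := by exact_mod_cast hp
      rw [card_range]
      linarith)
    obtain ⟨k, hk, k', hk', hne⟩ := hs t s fun k hk => (h2 k hk).1
    apply hne
    have e : ∀ k : ℕ, ρ (t + q * k) = ρ t := fun k => by
      rw [map_add, mul_comm, ← nsmul_eq_mul, map_nsmul, h0, smul_zero, add_zero]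
    rw [(h2 k hk).2.1, (h2 k' hk').2.1, e, e]
  obtain ⟨l', hl'⟩ := hu (ρ 1) (by rwa [hlin] at hq)
  have hρ : Function.Surjective ρ := fun w => by
    obtain ⟨x, hx⟩ := ZMod.intCast_surjective (w * l')
    exact ⟨x, by rw [hlin, hx, mul_assoc, hl', mul_one]⟩
  have hS : Sys Q G K H L M N Ok := ⟨hT, fun a b h => (hR a b h).q1, fun a b h => (hR a b h).q2,
    fun a b h => (hR a b h).q3, fun a b h => (hR a b h).q4⟩
  obtain ⟨s, hs'⟩ := hρ (-ca)
  obtain ⟨t, ht'⟩ := hρ (-cb)
  have hA' := AE.aff hA (fun m => s + m) 1 one fun m => by ring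
  have hB' := AE.aff hB (fun m => t + m) 1 one fun m => by ring
  have hC' := AE.aff hC (fun m => s + t + m) 1 one fun m => by ring
  have key : ∀ J : ℕ, ∃ A B : ℤ, (∃ x, A = s + r * x) ∧ (∃ y, B = t + r * y) ∧
      (∀ j ≤ J, Good Q (1 / 1000) ρ fun m => G (A + r ^ j * m)) ∧
      (∀ j ≤ J, Good Q (1 / 1000) ρ fun m => K (B + r ^ j * m)) ∧
      (∀ j ≤ J, Good Q (1 / 1000) ρ fun m => H (A + B + r ^ j * m)) ∧
      ∀ j, j + 1 ≤ J → Good Q (1 / 100) ρ fun m => L (A + r * B + r ^ (j + 1) * m) := by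
    intro J
    induction J with
    | zero =>
      refine ⟨s, t, ⟨0, by ring⟩, ⟨0, by ring⟩, fun j hj => ?_, fun j hj => ?_, fun j hj => ?_,
        fun j hj => by omega⟩
      · obtain rfl : j = 0 := by omega
        refine hA'.mono fun m ⟨h1, b, h2⟩ hm => ?_
        have h3 : Ca (s + m) = ρ m := by rw [h1, map_add, hs']; ring
        simp only [pow_zero, one_mul]
        rw [(hR _ _ h2).cG (by rwa [h3]), h3]
      · obtain rfl : j = 0 := by omega
        refine hB'.mono fun m ⟨h1, b, h2⟩ hm => ?_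
        have h3 : Cb (t + m) = ρ m := by rw [h1, map_add, ht']; ring
        simp only [pow_zero, one_mul]
        rw [(hR _ _ h2).cK (by rwa [h3]), h3]
      · obtain rfl : j = 0 := by omega
        refine hC'.mono fun m ⟨h1, b, h2⟩ hm => ?_
        have h3 : Cab (s + t + m) = ρ m := by rw [h1, map_add, map_add, hs', ht']; ring
        simp only [pow_zero, one_mul]
        have h4 := (hR _ _ h2).cH
        rw [sub_add_cancel] at h4
        rw [h4 (by rwa [h3]), h3]
    | succ J ih =>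
      obtain ⟨A, B, ⟨x, hx⟩, ⟨y, hy⟩, g1, g2, g3, g4⟩ := ih
      obtain ⟨ka, kb, d1, d2, d3, d4⟩ := (hS.aff A B (r ^ J) hrQ.pow_left).descend hr hr' hrQ ρ hρ
        (g1 J le_rfl) (g2 J le_rfl) (g3 J le_rfl)
      refine ⟨A + r ^ (J + 1) * ka, B + r ^ (J + 1) * kb, ⟨x + r ^ J * ka, by rw [hx]; ring⟩,
        ⟨y + r ^ J * kb, by rw [hy]; ring⟩, fun j hj => ?_, fun j hj => ?_, fun j hj => ?_,
        fun j hj => ?_⟩
      · rcases Nat.lt_or_eq_of_le hj with hj | rfl
        · exact good_move (Nat.lt_succ_iff.1 hj) (g1 j (Nat.lt_succ_iff.1 hj)) _ ka rfl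
        · exact d1.shift 0 _ fun m => by congr 1; ring
      · rcases Nat.lt_or_eq_of_le hj with hj | rfl
        · exact good_move (Nat.lt_succ_iff.1 hj) (g2 j (Nat.lt_succ_iff.1 hj)) _ kb rfl
        · exact d2.shift 0 _ fun m => by congr 1; ring
      · rcases Nat.lt_or_eq_of_le hj with hj | rfl
        · exact good_move (Nat.lt_succ_iff.1 hj) (g3 j (Nat.lt_succ_iff.1 hj)) _ (ka + kb) (by ring)
        · exact d3.shift 0 _ fun m => by congr 1; ring
      · rcases Nat.lt_or_eq_of_le hj with hj | hj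
        · exact good_move (Nat.lt_succ_iff.1 hj) (g4 j (Nat.lt_succ_iff.1 hj)) _ (ka + r * kb)
            (by ring)
        · obtain rfl : j = J := by omega
          exact d4.shift kb _ fun m => by congr 1; ring
  refine ⟨ρ, ⟨l', hl'⟩, fun J => ?_⟩
  obtain ⟨A, B, ⟨x0, hx⟩, ⟨y0, hy⟩, g1, g2, g3, g4⟩ := key J
  refine ⟨A, B, fun x y => ⟨fun j hj => ?_, fun j hj => ?_, fun j hj => ?_, fun j hj => ?_, ?_, ?_⟩⟩
  · exact AE.le (good_move hj (g1 j hj) _ x rfl) (by norm_num)
  · exact AE.le (good_move hj (g2 j hj) _ y rfl) (by norm_num)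
  · exact AE.le (good_move hj (g3 j hj) _ (x + y) (by ring)) (by norm_num)
  · exact good_move hj (g4 j hj) _ (x + r * y) (by ring)
  · refine ((AE.aff hA (fun m => A + r ^ (J + 1) * x + m) 1 one fun m => by ring).mono
      fun m hm => ?_).le (by norm_num)
    have e : A + r ^ (J + 1) * x + m = s + m + r * (x0 + r ^ J * x) := by rw [hx]; ring
    rw [hm.1, e, rho_add_mul, map_add, hs']
    ring
  · refine ((AE.aff hB (fun m => B + r ^ (J + 1) * y + m) 1 one fun m => by ring).mono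
      fun m hm => ?_).le (by norm_num)
    have e : B + r ^ (J + 1) * y + m = t + m + r * (y0 + r ^ J * y) := by rw [hy]; ring
    rw [hm.1, e, rho_add_mul, map_add, ht']
    ring

end Vale.Agent.N043U
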