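import Mathlib

/-!
# P043: the definitions used in the statement of the undecidability theorem
-/

namespace Vale.Agent.N043U.St

open MeasureTheory

/-- `A ⊕ F = G`: every `g` has a unique expression `g = a + f` with `a ∈ A`, `f ∈ F`. -/
def Tiling {G : Type} [AddCommGroup G] (A F : Set G) : Prop :=
  ∀ g : G, ∃! p : G × G, p.1 ∈ A ∧ p.2 ∈ F ∧ g = p.1 + p.2

/-- `A + h = A` for every `h` in some subgroup of finite index. -/
def Periodic {G : Type} [AddCommGroup G] (A : Set G) : Prop :=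
  ∃ L : AddSubgroup G, L.FiniteIndex ∧ ∀ h ∈ L, (fun a => a + h) '' A = A

/-- The translates `Ω + a`, `a ∈ A`, cover `ℝ^d` up to a null set and pairwise intersect in null
sets. -/
def TilingR {d : ℕ} (A Ω : Set (Fin d → ℝ)) : Prop :=
  volume (⋃ a ∈ A, (fun y => y + a) '' Ω)ᶜ = 0 ∧
    A.Pairwise fun a b => volume ((fun y => y + a) '' Ω ∩ (fun y => y + b) '' Ω) = 0

/-- `A` is invariant under the lattice spanned over `ℤ` by a basis of `ℝ^d`. -/
def PeriodicR {d : ℕ} (A : Set (Fin d → ℝ)) : Prop :=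
  ∃ b : Module.Basis (Fin d) ℝ (Fin d → ℝ),
    ∀ v ∈ Submodule.span ℤ (Set.range b), (fun a => a + v) '' A = A

/-- The union of the closed unit cubes `p + [0,1]^d`, `p ∈ F`. -/
def cubes {d : ℕ} (F : List (Fin d → ℤ)) : Set (Fin d → ℝ) :=
  ⋃ p ∈ F, Set.Icc (fun i => (p i : ℝ)) fun i => (p i : ℝ) + 1

end Vale.Agent.N043U.St
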